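import Vale.Agent.P269.Br.Cls
import Vale.Agent.P269.Orb.Brg
import Vale.Agent.P269.Orb.Deg
import Vale.Agent.P269.Orb.Dim
import Vale.Agent.P269.Cv.Map

/-!
# The fundamental class of a compact Riemann surface
-/

set_option linter.unusedSectionVars false

namespace Vale.Agent.P269

open P291Z Set Function Topology Filter

theorem ind_eq_fn {Y : Type} (B : Set Y) : ind B = fn (B.indicator 1) := Coch.ext fun l => by
  classical
  change (if ∃ y ∈ B, l = [y] then (1 : ℂ) else 0) = _
  match l with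
  | [] => exact if_neg (by simp)
  | [x] => simp [fn_val, indicator_apply]
  | _ :: _ :: _ => exact if_neg (by simp)

theorem cocycle_ind {Y : Type} [TopologicalSpace Y] {B : Set Y} (hB : IsClopen B) :
    supp (δ (ind B)) = ∅ := by
  rw [ind_eq_fn]
  exact Orb.cocycle_fn.2 ((LocallyConstant.const Y (1 : ℂ)).indicator hB).isLocallyConstant

theorem fn_mul_sub_van {Y : Type} [TopologicalSpace Y] {u : Y → ℂ} (hu : IsLocallyConstant u)
    (a : Coch Y) (y : Y) : fn u * a - a * fn u ∈ Van y := by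
  have h : fn u - u y • 1 ∈ Van y := by
    rw [← fn_const, ← fn_sub, fn_van]
    exact (hu.eventually_eq y).mono fun z hz => sub_eq_zero.2 hz
  have := (Van y).sub_mem (Van.mul_right h a) (Van.mul_left h a)
  rwa [sub_mul, mul_sub, smul_mul_assoc, mul_smul_comm, one_mul, mul_one,
    sub_sub_sub_cancel_right] at this

namespace Cv

variable {X X' X'' : Type} [TopologicalSpace X] [TopologicalSpace X'] [TopologicalSpace X'']
  [T2Space X] [CompactSpace X] [T2Space X'] [CompactSpace X'] [T2Space X''] [CompactSpace X'']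
  {R : RS X} {R' : RS X'} {R'' : RS X''} {f : X' → X} {g : X'' → X}

theorem RS.nice (R : RS X) : Nice X :=
  letI := R.cs
  ⟨inferInstance, inferInstance, ChartedSpace.secondCountable_of_sigmaCompact ℂ X⟩

theorem RS.lconn (R : RS X) : LocallyConnectedSpace X :=
  letI := R.cs
  ChartedSpace.locallyConnectedSpace ℂ X

theorem tendsto_fin_one : Tendsto (fun z : Fin 1 → ℂ => z 0) (𝓝 0) (𝓝 0) :=
  (continuous_apply 0).tendsto' _ _ rfl

theorem posGerm_one {u : ℂ → ℂ} (hu : AnalyticAt ℂ u 0) (h0 : u 0 = 0) (hd : deriv u 0 ≠ 0) :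
    Orb.PosGerm fun (z : Fin 1 → ℂ) (_ : Fin 1) => u (z 0) := by
  refine ⟨⟨funext fun _ => h0, ?_⟩, by
    simpa using Orb.locCo_analytic hu (m := 1)
      (hu.analyticOrderAt_eq_one_of_zero_deriv_ne_zero h0 hd)⟩
  filter_upwards [tendsto_fin_one.eventually hu.eventually_analyticAt, tendsto_fin_one.eventually
    (eventually_nhdsWithin_iff.1 (hu.differentiableAt.hasDerivAt.eventually_ne (c := 0) hd))]
    with z h1 h2
  exact ⟨continuousAt_pi.2 fun _ => ContinuousAt.comp (g := u) h1.continuousAt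
    (continuous_apply 0).continuousAt, fun e => by_contra fun h =>
      h2 (Orb.ne_zero_fin_one h) (congrFun e 0)⟩

theorem RS.rep (R : RS X) {ψ : ℂ → X} {y : X} (hc : ContinuousAt ψ 0) (hy : ψ 0 ∈ (R.e y).source)
    (ha : AnalyticAt ℂ (fun t => R.e y (ψ t)) 0) (hd : deriv (fun t => R.e y (ψ t)) 0 ≠ 0) :
    Orb.Rep (fun z : Fin 1 → ℂ => ψ (z 0)) fun z => R.i y (z 0 + R.e y (ψ 0)) :=
  ⟨_, posGerm_one (u := fun t => R.e y (ψ t) - R.e y (ψ 0)) (ha.sub analyticAt_const) (sub_self _)
    (by rwa [deriv_sub_const]), (tendsto_fin_one.eventually (hc.eventually (R.src_nhds' hy))).mono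
      fun z hz => ((congrArg (R.i y) (sub_add_cancel _ _)).trans (R.i_e hz)).symm⟩

theorem RS.isAtlas (R : RS X) : Orb.IsAtlas R.Chs := by
  refine ⟨fun x => ?_, ?_⟩
  · have hU : IsOpen {z : Fin 1 → ℂ | z 0 ∈ (R.e x).target} :=
      (R.e x).open_target.preimage (continuous_apply 0)
    refine ⟨PUnit, inferInstance, inferInstance, _, (R.zero_mem x : (0 : Fin 1 → ℂ) ∈ {z : Fin 1 → ℂ |
      z 0 ∈ (R.e x).target}), fun _ u => u, fun z => R.i x (z 0), R.i_zero x, ⟨hU, ⟨fun _ => rfl,
        fun _ _ _ => rfl, fun _ => continuous_id, continuous_iff_continuousAt.2 fun u => ?_,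
        isOpenMap_iff_nhds_le.2 fun u => ?_, fun u u' => ⟨fun e => ⟨1, ?_⟩, fun ⟨_, e⟩ => e ▸ rfl⟩⟩,
      fun _ => ⟨id, Orb.posGerm_id, .of_forall fun _ => rfl⟩⟩, fun u =>
        ⟨_, ⟨Nat.card_eq_one_iff_unique.2 ⟨inferInstance, ⟨⟨1, rfl⟩⟩⟩, x, _, u.2, rfl⟩,
          .of_forall fun _ => rfl⟩⟩
    · exact ContinuousAt.comp (g := R.i x) (R.contAt_i u.2)
        ((continuous_apply 0).comp continuous_subtype_val).continuousAt
    · rw [← R.map_i' u.2, ← show map (fun z : Fin 1 → ℂ => z 0) (𝓝 u.1) = 𝓝 (u.1 0) from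
        (Homeomorph.funUnique (Fin 1) ℂ).map_nhds_eq u.1,
        ← hU.isOpenEmbedding_subtypeVal.map_nhds_eq u]
      exact le_rfl
    · exact Subtype.ext (funext fun i => by
        rw [Subsingleton.elim i 0]
        exact (R.e x).symm.injOn u.2 u'.2 e)
  · rintro _ _ _ _ ⟨rfl, x, t, ht, rfl⟩ ⟨rfl, y, t', ht', rfl⟩ (e : R.i x (0 + t) = R.i y (0 + t'))
    have h1 : R.i x (0 + t) ∈ (R.e y).source := e ▸ R.i_mem (by rwa [zero_add])
    have h2 : R.e y (R.i x (0 + t)) = t' := by rw [e, zero_add, R.e_i ht']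
    refine ⟨rfl, h2 ▸ R.rep (ψ := fun s => R.i x (s + t)) (ContinuousAt.comp (g := R.i x)
      (R.contAt_i (by rwa [zero_add])) (continuous_add_const t).continuousAt) h1 ?_ ?_⟩
    · rw [zero_add] at h1
      exact ((RS.hol_iff' ht).1 (RS.hol_e h1)).comp_of_eq (analyticAt_id.add analyticAt_const)
        (zero_add t)
    · rw [zero_add] at h1
      have h3 := RS.d_e_ne h1
      rw [RS.d_eq (R.i_mem ht) (RS.hol_e h1), R.e_i ht] at h3
      rw [deriv_comp_add_const (f := fun s => R.e y (R.i x s)), zero_add]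
      exact left_ne_zero_of_mul h3

theorem RS.isFund (R : RS X) : Orb.IsFund R.Chs R.fund :=
  have := R.nice
  R.isAtlas.epsilon_spec

theorem RS.fund_deg (R : RS X) : BM.IsDeg 2 R.fund := R.isFund.1

theorem RS.ori (R : RS X) : Orb.Ori 2 R.fund :=
  have := R.nice
  R.isAtlas.ori R.isFund

/-- holomorphic local parameters are oriented charts -/
theorem RS.val_of (R : RS X) {ψ : ℂ → X} (hc : ContinuousAt ψ 0)
    (ha : AnalyticAt ℂ (fun t => R.e (ψ 0) (ψ t)) 0) (hd : deriv (fun t => R.e (ψ 0) (ψ t)) 0 ≠ 0) :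
    Orb.GCh (fun z : Fin 1 → ℂ => ψ (z 0)) ∧ Orb.Val R.fund (fun z : Fin 1 → ℂ => ψ (z 0)) 1 := by
  have := R.nice
  have h1 := R.rep hc (R.mem _) ha hd
  have h2 : R.Chs (fun z => R.i (ψ 0) (z 0 + R.e (ψ 0) (ψ 0))) 1 :=
    ⟨rfl, _, _, (R.e _).map_source (R.mem _), rfl⟩
  exact ⟨h1.gch (R.isAtlas.gch h2), Nat.cast_one (R := ℂ) ▸
    h1.val (R.isAtlas.gch h2).pch (R.isFund.2 _ _ h2)⟩

theorem LIso.val_of (h : LIso R' R f) (x : X') :
    Orb.GCh (fun z : Fin 1 → ℂ => f (R'.i x (z 0))) ∧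
      Orb.Val R.fund (fun z : Fin 1 → ℂ => f (R'.i x (z 0))) 1 :=
  R.val_of (ψ := fun t => f (R'.i x t)) (h.cont.continuousAt.comp (R'.contAt_i (R'.zero_mem x)))
    (by rw [R'.i_zero]; exact h.an x) (by rw [R'.i_zero]; exact h.dn x)

theorem RS.val_i (R : RS X) (x : X) : Orb.GCh (fun z : Fin 1 → ℂ => R.i x (z 0)) ∧
    Orb.Val R.fund (fun z : Fin 1 → ℂ => R.i x (z 0)) 1 := (LIso.id R).val_of x

theorem LIso.isOpenEmbedding (h : LIso R' R f) (hf : Injective f) : IsOpenEmbedding f :=
  .of_continuous_injective_isOpenMap h.cont hf h.isOpenMap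

theorem LIso.res_fund (h : LIso R' R f) (hf : Injective f) :
    haveI := R.nice; res f R.fund = R'.fund := by
  have := R.nice
  have := R'.nice
  rw [← one_smul ℂ R'.fund]
  exact Orb.Ori.eq_smul_of_val (n := 1) R'.ori (R.fund_deg.res f) (D := univ)
    (fun _ _ e => univ_subset_iff.1 e) fun x _ => ⟨_, 1, 1, R'.i_zero x, (R'.val_i x).1,
      (R'.val_i x).2, Orb.Val.res (h.isOpenEmbedding hf) (R'.val_i x).1.pch.cont (h.val_of x).2,
      (one_mul _).symm⟩

theorem LIso.push_fund {e : X' ≃ X} (h : LIso R' R e) : push e R'.fund = R.fund := by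
  have := R.nice
  have := R'.nice
  rw [← h.res_fund e.injective]
  exact push_res_homeo ⟨h.cont, h.isOpenMap, e.bijective⟩ _

theorem LIso.ev_push_of_mem (h : LIso R' R f) (hf : Injective f) {a : Coch X}
    (ha : supp (δ a) = ∅) (hs : supp a ⊆ range f) : ev (push f R'.fund) a = ev R.fund a := by
  have := R.nice
  have h1 : a ∈ Zc X := ⟨(isClosed_supp a).isCompact, ha⟩
  rw [Orb.ev_push (IsPr.of_compact h.cont) _ h1, ← h.res_fund hf,
    Orb.ev_res (h.isOpenEmbedding hf) _ h1 hs]

theorem ev_push_of_notMem (h : Continuous f) (β : BM X') {a : Coch X} (ha : supp (δ a) = ∅)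
    (hs : Disjoint (supp a) (range f)) : ev (push f β) a = 0 := by
  rw [Orb.ev_push (IsPr.of_compact h) _ ⟨(isClosed_supp a).isCompact, ha⟩, ev_eq, cls_of_mem_Bc
    (mem_Bc_of_null fun x hx => disjoint_left.1 hs (supp_pull h a hx) (mem_range_self x)), map_zero]

theorem LIso.fund_add (h : LIso R' R f) (hf : Injective f) (h' : LIso R'' R g) (hg : Injective g)
    (hc : IsCompl (range f) (range g)) : R.fund = push f R'.fund + push g R''.fund := by
  have := R.nice
  have := R'.nice
  have := R''.nice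
  rw [R.ori.eq_smul' (Orb.isDeg_add (R'.fund_deg.push f) (R''.fund_deg.push g)) (l := 1) (D := univ)
    (fun _ _ e => univ_subset_iff.1 e) fun x _ a h1 h2 _ => ?_, one_smul]
  rw [Orb.add_ev, one_mul]
  by_cases hx : x ∈ range f
  · have h3 := h2.trans (singleton_subset_iff.2 hx)
    rw [h.ev_push_of_mem hf h1 h3, ev_push_of_notMem h'.cont _ h1 (hc.disjoint.mono_left h3),
      add_zero]
  · have h3 := h2.trans (singleton_subset_iff.2 (hc.compl_eq.le hx))
    rw [h'.ev_push_of_mem hg h1 h3, ev_push_of_notMem h.cont _ h1 (hc.symm.disjoint.mono_left h3),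
      zero_add]

/-- the sum of the local degrees -/
theorem RS.ev_sum (R : RS X) {a : Coch X} (ha : supp (δ a) = ∅) {s : Finset X} (hs : supp a ⊆ s)
    {c : X → ℂ} (h : ∀ x ∈ s, Orb.LocCo (pull (fun z : Fin 1 → ℂ => R.i x (z 0)) a) (c x)) :
    ev R.fund a = ∑ x ∈ s, c x := Orb.ev_finite _ c s ha hs fun y hy a' h1 h2 h3 => by
  rw [← one_mul (ev _ a')]
  refine (R.val_i y).2 a' _ h1 (h2.trans (singleton_subset_iff.2 (R.i_zero y).symm))
    ((h y hy).of_van (R.val_i y).1.pch.cont ?_)
  rw [show R.i y ((0 : Fin 1 → ℂ) 0) = y from R.i_zero y, ← neg_sub]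
  exact (Van y).neg_mem h3

/-- the local degree of a holomorphic germ is its order -/
theorem locCo_of_order {u : ℂ → ℂ} (hu : AnalyticAt ℂ u 0) {n : ℕ} (h : analyticOrderAt u 0 = n) :
    Orb.LocCo (pull (fun (z : Fin 1 → ℂ) (_ : Fin 1) => u (z 0)) (tau 1)) n :=
  Orb.locCo_analytic hu h

theorem RS.ev_mul_fn (R : RS X) (β : BM X) {a : Coch X} (ha : supp (δ a) = ∅)
    (h : ∀ x, ev β (a * ind (connectedComponent x)) = 0) {u : X → ℂ} (hu : IsLocallyConstant u) :
    ev β (a * fn u) = 0 := by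
  have := R.lconn
  let _ := Fintype.ofFinite (ConnectedComponents X)
  have hz : ∀ {b}, supp (δ b) = ∅ → a * b ∈ Zc X := fun hb =>
    ⟨(isClosed_supp _).isCompact, cocycle_mul ha hb⟩
  have e : fn u = ∑ c : ConnectedComponents X,
      u (Quotient.out c) • ind (connectedComponent (Quotient.out c)) := by
    refine (isDeg_fn u).ext_zero (Finset.sum_induction _ (IsDeg 0) (fun _ _ => IsDeg.add)
      (isDeg_zero 0) fun c _ => (ind_eq_fn _ ▸ isDeg_fn _).smul _) fun x => ?_
    have k : ∀ c : ConnectedComponents X, x ∈ connectedComponent (Quotient.out c) ↔ x = c :=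
      fun c => ConnectedComponents.coe_eq_coe'.symm.trans (by
        rw [show ((Quotient.out c : X) : ConnectedComponents X) = c from Quotient.out_eq c])
    rw [show ∀ b : ConnectedComponents X → Coch X, (∑ c, b c).1 [x] = ∑ c, (b c).1 [x] from
      fun b => map_sum (AddMonoidHom.mk' (fun b : Coch X => b.1 [x]) fun _ _ => rfl) b _,
      Finset.sum_eq_single (x : ConnectedComponents X) (fun c _ hc => ?_) (by simp)]
    · rw [ind_eq_fn]
      change u x = _ * (connectedComponent _).indicator 1 x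
      rw [indicator_of_mem ((k _).2 rfl), Pi.one_apply, mul_one]
      exact hu.apply_eq_of_isPreconnected isPreconnected_connectedComponent ((k _).2 rfl)
        mem_connectedComponent
    · rw [ind_eq_fn]
      change _ * (connectedComponent _).indicator 1 x = 0
      rw [indicator_of_notMem fun h' => hc ((k c).1 h').symm, mul_zero]
  rw [e, Finset.mul_sum, ev_eq, cls_sum _ fun c _ => hz (by
    rw [map_smul]; exact supp_smul_eq_empty _ (cocycle_ind isClopen_connectedComponent)), map_sum]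
  refine Finset.sum_eq_zero fun c _ => ?_
  rw [← ev_eq, mul_smul_comm, Orb.ev_smul _ _ (hz (cocycle_ind isClopen_connectedComponent)), h,
    mul_zero]

/-- a cocycle of degree two whose integrals over all components vanish is a coboundary -/
theorem RS.hcls_eq_zero (R : RS X) {a : Coch X} (ha : supp (δ a) = ∅) (hd : IsDeg 2 a)
    (h : ∀ x, ev R.fund (a * ind (connectedComponent x)) = 0) : hcls a = 0 := by
  have := R.nice
  refine R.ori.pd_bijective.1 ((LinearMap.ext fun b => ?_).trans (map_zero _).symm)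
  obtain ⟨t, h1, h2, e⟩ := Hc.comp_mem (2 - 2) b
  have h3 := IsDeg.eq_fn (h2.cast (sub_self 2))
  have h4 := h1.2
  rw [h3, Orb.cocycle_fn] at h4
  rw [← (pd_deg R.fund_deg (hcls_isDeg hd)).comp, ← e, pd_apply, Hc.act_cls ha h1, ← ev_eq, h3,
    Orb.ev_congr _ (fn_mul_sub_van h4 a)]
  exact R.ev_mul_fn _ ha h h4

/-- a locally constant map has the class zero -/
theorem RS.push_eq_zero (R : RS X) {Y : Type} [TopologicalSpace Y] {u : X → Y}
    (hu : IsLocallyConstant u) : push u R.fund = 0 := by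
  have := R.nice
  have := R.lconn
  have : Nice (ConnectedComponents X) := ⟨inferInstance, inferInstance, inferInstance⟩
  have h0 : push (ConnectedComponents.mk : X → _) R.fund = 0 := Orb.Top.eq_zero
    ((Orb.cd_finite finite_univ).top' IsEmbedding.id (subset_univ _)) (R.fund_deg.push _) two_pos
  have e : u = (fun c : ConnectedComponents X => u (Quotient.out c)) ∘ ConnectedComponents.mk :=
    funext fun x => hu.apply_eq_of_isPreconnected isPreconnected_connectedComponent
      mem_connectedComponent (ConnectedComponents.coe_eq_coe'.1 (Quotient.out_eq _))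
  refine LinearMap.ext fun c => ?_
  by_cases hp : IsPr u
  · obtain ⟨a, ha, rfl⟩ := cls_surj c
    rw [← ev_eq, Orb.ev_push hp _ ha, e, ← pull_pull, ← Orb.ev_push
      (IsPr.of_compact ConnectedComponents.continuous_coe) _ ⟨(isClosed_supp _).isCompact,
        cocycle_pull continuous_of_discreteTopology ha.2⟩, h0, ev_eq]
    rfl
  · rw [push_apply, cpull, dif_neg hp, LinearMap.zero_apply, map_zero, LinearMap.zero_apply]

end Cv

end Vale.Agent.P269
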