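import Vale.Agent.P269.Gen.Num

/-!
# The class of an abstract map; the geometric inputs of the bridge
-/

set_option linter.unusedSectionVars false

namespace Vale.Agent.P269

open P291Z Set Function Topology Filter Fock

/-- The charts of a Riemann surface and their translates. -/
def Cv.RS.Chs {X : Type} [TopologicalSpace X] (R : Cv.RS X) (ψ : (Fin 1 → ℂ) → X) (m : ℕ) : Prop :=
  m = 1 ∧ ∃ x, ∃ t ∈ (R.e x).target, ψ = fun z => R.i x (z 0 + t)

/-- The fundamental class of a Riemann surface. -/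
noncomputable def Cv.RS.fund {X : Type} [TopologicalSpace X] (R : Cv.RS X) : BM X :=
  Classical.epsilon (Orb.IsFund R.Chs)

variable {S Λ R J K ν κ : Type} [Fintype S] [Fintype Λ] [Fintype R] [Fintype J] [Fintype K]
  [Fintype ν] [Fintype κ]

/-- The map to the target. -/
noncomputable def AM.evm (m : AM Λ R J ν κ) (F : Wt S Λ R J) {A : Set ((Λ → ℂ) × (J → ℂ))} (h : ∀ z, m.vl z ∈ A)
    (z : m.X) : F.X A := Quo.mk F.actT ⟨m.vl z, h z⟩

open Classical in
/-- The homology class of an abstract map. -/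
noncomputable def AM.cls (m : AM Λ R J ν κ) (F : Wt S Λ R J) (A : Set ((Λ → ℂ) × (J → ℂ))) :
    BM (F.X A) := if h : ∀ z, m.vl z ∈ A then push (m.evm F h) m.R.fund else 0

/-- Connected domains and class `β`. -/
noncomputable def Wt.exK (F : Wt S Λ R J) (A : Set ((Λ → ℂ) × (J → ℂ))) (β : BM (F.X A)) : F.Ex :=
  ⟨fun _ _ m => m.Conn ∧ m.cls F A = β, 1, univ, 1⟩

namespace St

/-- The virtual class exists and is unique. -/
def VirEU : Prop :=
  ∀ {R J K ν κ : Type} [Fintype R] [Fintype J] [Fintype K] [Fintype ν] [Fintype κ] [DecidableEq R]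
    (F : Fam Empty Empty R J K) (k : ℕ) (g : ℤ) (d : R → ℤ), F.Tg → F.Big k → ∀ᶠ D in atTop,
    ∃! v, Ch.IsVirF F (F.tdeg (F.sch ν κ k D g d)) ((F.sch ν κ k D g d).cyc κ F (0 : ν → J → ℕ)) v

/-- The invariants are additive in the selector. -/
def Add : Prop :=
  ∀ {S Λ R J K ν κ : Type} [Fintype S] [Fintype Λ] [Fintype R] [Fintype J] [Fintype K] [Fintype ν]
    [Fintype κ] [DecidableEq R] (F : Fam S Λ R J K) (δ : J → ℕ) (k : ℕ) (g : ℤ) (d : R → ℤ)
    (u : ν → ℕ) (P Q : AM Λ R J ν κ → Prop) (fs : List (Fac F.toWt ν κ)), F.Nice δ → F.Cp →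
    F.Big k → F.Sel k g d (fun n => u n • δ) P → F.Sel k g d (fun n => u n • δ) Q →
    (∀ f ∈ fs, f.Ok F fun n => u n • δ) → (∀ q, .dg q ∈ fs) →
    F.inv k g d (fun n => u n • δ) P fs = F.inv k g d (fun n => u n • δ) (fun m => P m ∧ Q m) fs +
      F.inv k g d (fun n => u n • δ) (fun m => P m ∧ ¬Q m) fs

/-- Splitting off the component of a marked point. -/
def Prod : Prop :=
  ∀ {R J K : Type} [Fintype R] [Fintype J] [Fintype K] [DecidableEq R] (F : Fam Empty Empty R J K)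
    (k : ℕ) {V : Type} [AddCommGroup V] [Module ℂ V] (p : Fock.Par ℂ V)
    (i : V →ₗ[ℂ] H (F.X F.cone)), F.Tg → F.Big k → IsEv p (parH _) i → ∀ d j v (x : Fock.S (p.fs ℕ)),
    F.ser0 k F.ex0 p i d j (ι _ v * x) = ∑ᶠ q : (R → ℤ) × ℤ,
      Deg.tp (F.ser0 k F.exC p i q.1 q.2) (F.ser0 k F.ex0 p i (d - q.1) (j - q.2))
        (ι _ (v, 0) * Fock.map _ (Deg.isEv_diag (p.fs ℕ)) x)

/-- The divisor equation for connected domains. -/
def Div : Prop :=
  ∀ {R J K : Type} [Fintype R] [Fintype J] [Fintype K] [DecidableEq R] (F : Fam Empty Empty R J K)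
    (k : ℕ) (β : BM (F.X F.cone)) (γ : H (F.X F.cone)), F.Tg → F.Big k → H.IsDeg 2 γ →
    ∀ d (j : ℤ) (l : List (ℕ × H (F.X F.cone))), (d ≠ 0 ∨ 0 < 2 * j + l.length) →
    F.cor k (F.exK _ β) 0 _ F.cone d j ((0, γ) :: l) [] [] =
      ev β (rep γ) * F.cor k (F.exK _ β) 0 _ F.cone d j l [] [] +
        ∑ s : Fin l.length, if (l.get s).1 = 0 then 0 else
          F.cor k (F.exK _ β) 0 _ F.cone d j (l.set s ((l.get s).1 - 1, γ * (l.get s).2)) [] []

/-- The three point invariants of genus zero and degree zero. -/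
def Three : Prop :=
  ∀ {R J K : Type} [Fintype R] [Fintype J] [Fintype K] [DecidableEq R] (F : Fam Empty Empty R J K)
    (k : ℕ), F.Tg → F.Big k → ∀ (m₁ m₂ m₃ : ℕ) (a b c : H (F.X F.cone)),
    F.cor k F.exC 0 _ F.cone 0 (-1) [(m₁, a), (m₂, b), (m₃, c)] [] [] =
      if m₁ = 0 ∧ m₂ = 0 ∧ m₃ = 0 then F.intX _ (a * b * c) else 0

end St

end Vale.Agent.P269
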