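import Vale.Agent.P269.Br.Fund
import Vale.Agent.P269.Orb.TZ
import Vale.Agent.P269.Loc.Lam
import Vale.Agent.P269.Cv.RR

/-!
# The degree of a line bundle on a Riemann surface is the integral of its first Chern class
-/

set_option linter.unusedSectionVars false

namespace Vale.Agent.P269

open P291Z Set Function Topology Filter

namespace Cv

variable {X : Type} [TopologicalSpace X] [T2Space X] [CompactSpace X] {R : RS X} {L : LB R}

/-- `u : X → Y.X` has the local lifts `v x`, and `L` is the pull-back of the line bundle of the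
character `χ`. -/
theorem RS.intg_c1 {Y : Ch.Sp} {χ : Y.G →ₜ* ℂˣ} {v : X → X → Y.T} {u : C(X, Y.X)}
    (hv : ∀ x, ∀ᶠ z in 𝓝 x, ContinuousAt (v x) z) (hu : ∀ z, Y.π (v z z) = u z)
    (hg : ∀ x z, ∃ g : Y.G, g • v z z = v x z ∧ (χ g : ℂ) = (L.φ x z)⁻¹) (hL : Eff L) :
    Loc.intg R.fund (H.map u (Ch.c1 χ).1) = deg L := by
  obtain ⟨s, hs, hG⟩ := hL
  let E := Ch.char χ
  let φ : X → X → E.V := fun x z => ⟨(v x z, s z / L.φ x z), trivial⟩
  have h1 : ∀ x z, E.tot.π (φ z z) = E.tot.π (φ x z) := fun x z => by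
    obtain ⟨g, a, b⟩ := hg x z
    refine (E.tot.fib _ _).2 ⟨g, Subtype.ext (Prod.ext a ?_)⟩
    show (χ g : ℂ) * (s z / L.φ z z) = s z / L.φ x z
    rw [b, L.self, div_one, div_eq_inv_mul]
  have h2 : ∀ x, ∀ᶠ z in 𝓝 x, ContinuousAt (φ x) z := fun x =>
    ((hv x).and (LB.sec_iff.1 (hs x)).eventually).mono fun z a =>
      IsInducing.subtypeVal.continuousAt_iff.2 (a.1.prodMk a.2.continuousAt)
  let σ : C(X, E.tot.X) := ⟨fun z => E.tot.π (φ z z), continuous_iff_continuousAt.2 fun x => by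
    rw [funext (h1 x)]
    exact E.tot.cont.continuousAt.comp (h2 x).self_of_nhds⟩
  have h3 : E.proj.map.comp σ = u := ContinuousMap.ext fun z => (E.proj.map_π _).trans (hu z)
  have h4 := cocycle_pull σ.continuous E.th_cocycle
  have h5 : H.map u (Ch.c1 χ).1 = hcls (pull σ E.th) := by
    rw [← H.map_hcls σ E.th_cocycle, ← E.map_proj_zero (hcls E.th), H.map_map σ, h3]
    rfl
  have hZ : ∀ y, y ∈ (LB.finite_zeros hs hG).toFinset ↔ s y = 0 := fun y => Finite.mem_toFinset _
  rw [h5, Loc.intg_hcls _ h4, deg_eq_sum hs hG fun y hy e => hy ((hZ y).2 e),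
    R.ev_sum h4 (s := (LB.finite_zeros hs hG).toFinset) (c := fun x => (L.ord s x).toNat)
      (fun z hz => ?_) fun x hx => ?_]
  · push_cast
    rfl
  · have := Ch.VB.mk_mem_Z.1 (E.th_supp (supp_pull σ.continuous _ hz))
    exact (hZ z).2 ((div_eq_zero_iff.1 this).resolve_right (L.ne z z))
  · have ht : Tendsto (fun z : Fin 1 → ℂ => z 0) (𝓝 0) (𝓝 0) :=
      (continuous_apply 0).tendsto' _ _ rfl
    rw [pull_pull, show σ ∘ (fun z : Fin 1 → ℂ => R.i x (z 0)) =
      E.tot.π ∘ fun z => φ x (R.i x (z 0)) from funext fun z => h1 x _]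
    refine Orb.locCo_thom (r := 1) rfl E.isThom
      (m := fun _ => ContinuousLinearMap.pi fun _ => ContinuousLinearMap.id ℂ ℂ) ?_
      (fun w _ h => congrFun h 0) ?_ ?_ (locCo_of_order (hs x) (ENat.natCast_toNat
        ((hs x).ord_ne_top.2 (hG ▸ mem_univ x))).symm)
    · exact (ht.eventually ((R.ev_iff.1 (h2 x)).and (R.tgt_nhds x))).mono fun z a =>
        ⟨ContinuousAt.comp (g := φ x) a.1 (ContinuousAt.comp (g := R.i x) (R.contAt_i a.2)
          (continuous_apply 0).continuousAt), continuousAt_const⟩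
    · exact LB.loc_zero.trans ((hZ x).1 hx)
    · have := R.ev_ne_iff.1 (mem_gen.1 (hG ▸ mem_univ x : x ∈ Gen s))
      refine (ht.eventually (eventually_nhdsWithin_iff.1 this)).mono fun z a b => by_contra fun c =>
        a (fun e => c (funext fun i => by rwa [Subsingleton.elim i 0]))
          ((div_eq_zero_iff.1 b).resolve_right (L.ne _ _))

end Cv

end Vale.Agent.P269
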