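import Vale.Agent.P269.Br.LC
import Vale.Agent.P269.Br.IntB
import Vale.Agent.P269.Prj.TgtM
import Vale.Agent.P269.Cpt.Quo
import Vale.Agent.P269.Pt.Sel
import Vale.Agent.P269.Pt.LC
import Vale.Agent.P269.Asm.Mon
import Vale.Agent.P291Z.Fl0

/-!
# The class of a stable map is locally constant
-/

set_option linter.unusedSectionVars false

namespace Vale.Agent.P269

open P291Z Set Function Topology Filter Cv Base

namespace Br

variable {X : Type} [TopologicalSpace X] [CompactSpace X] {β β' : BM X}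

theorem ext_intg (h : ∀ c, Loc.intg β c = Loc.intg β' c) : β = β' :=
  BM.ext_ev fun a ha => by rw [← Loc.intg_hcls β ha.2, ← Loc.intg_hcls β' ha.2, h]

theorem ext_deg [Nice X] {k : ℤ} (hβ : BM.IsDeg k β) (hβ' : BM.IsDeg k β')
    (h : ∀ c, H.IsDeg k c → Loc.intg β c = Loc.intg β' c) : β = β' :=
  ext_intg fun c => H.induction_deg (P := fun c => Loc.intg β c = Loc.intg β' c) c (by simp)
    (fun _ _ a b => by rw [map_add, map_add, a, b]) fun j => by
      rcases eq_or_ne j k with rfl | e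
      · exact h _ (H.isDeg_comp _ _)
      · rw [Loc.intg_deg hβ (H.isDeg_comp _ _) e, Loc.intg_deg hβ' (H.isDeg_comp _ _) e]

theorem finH [Nice X] {d : ℤ} (h : Orb.Ori d β) : FiniteDimensional ℂ (H X) :=
  Basis.linearEquiv_dual_iff_finiteDimensional.1 ⟨(LinearEquiv.ofBijective _ h.pd_bijective).trans
    (LinearEquiv.ofBijective (Fl.toH : Hc X →ₗ[ℂ] H X) Fl.toH_bijective).symm.dualMap⟩

/-- finitely many classes of degree `k` detect the homology classes of degree `k` -/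
theorem exists_test [Nice X] [FiniteDimensional ℂ (H X)] (k : ℤ) : ∃ s : Finset (H X),
    (∀ c ∈ s, H.IsDeg k c) ∧ ∀ β β' : BM X, BM.IsDeg k β → BM.IsDeg k β' →
      (∀ c ∈ s, Loc.intg β c = Loc.intg β' c) → β = β' := by
  obtain ⟨s, hs⟩ := IsNoetherian.noetherian (H.deg X k)
  refine ⟨s, fun c hc => (hs.le (Submodule.subset_span hc) :), fun β β' a b e =>
    ext_deg a b fun c hc => ?_⟩
  exact LinearMap.eqOn_span' e (hs.ge hc)

end Br

variable {S Λ R J K ν κ ι : Type} [Fintype S] [Fintype Λ] [Fintype R] [Fintype J] [Fintype K]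
  [Fintype ν] [Fintype κ] [Fintype ι] [DecidableEq ι]

namespace Ch

variable {ch : Ch ι J} {F : Fam S Λ R J K} {ℓ : R → ι → ℤ}

theorem locFam_sol (hc : ch.Cuts) (x : ch.solF ν κ F) :
    LocFam ch.o (fun y : ch.solF ν κ F => crv y.1.2) (fun y => y.1.2) x := by
  obtain ⟨l, hl⟩ := hc.cut
  exact (ext_of_hilb (Q := fun y : ch.W (Mk ν κ) => y.Q l) hl
    (.of_forall fun _ => (continuous_snd.comp continuous_subtype_val).continuousAt) (an_Q l _)
    (x.2.1.2.1.1 l) (x.2.1.2.1.2.1 l)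
    (.of_forall fun y => ⟨y.2.1.2.1.2.2.1, fun _ h _ hc => val_eq_zero h hc⟩)).locFam

theorem cwa_fld (x : ch.solF ν κ F) {c : V ch.M} (hc : c ∈ crv x.1.2) :
    ContinuousWithinAt (fun q : ch.solF ν κ F × V ch.M => (q.1.1.1, fld q.1.1.2 q.2))
      {q | q.2 ∈ crv q.1.1.2} (x, c) := by
  have h1 : Continuous fun q : ch.solF ν κ F × V ch.M => q.1.1 :=
    continuous_subtype_val.comp continuous_fst
  refine (continuous_fst.comp h1).continuousWithinAt.prodMk (tendsto_pi_nhds.2 fun j => ?_)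
  exact tendsto_val x.2.1.2.1.1 (((continuous_snd.comp h1).tendsto (x, c)).mono_left
    nhdsWithin_le_nhds)
    continuous_snd.continuousWithinAt hc (eventually_mem_nhdsWithin.mono fun q a =>
      ⟨a, val_fld (((mem_solF.1 q.1.2).2 _ a).1 j)⟩) (val_fld (((mem_solF.1 x.2).2 _ hc).1 j))

variable [DecidableEq R]

/-- **the class is locally constant** -/
theorem Rep.eventually_cls (hF : F.Good) [CompactSpace (F.X F.cone)]
    [FiniteDimensional ℂ (H (F.X F.cone))] (hc : ch.Cuts) (hl : ch.Lat F.toWt ℓ)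
    {x₀ : ch.WF ν κ Λ} (hx : x₀ ∈ ch.solF ν κ F) {m₀ : AM Λ R J ν κ} (h : Rep ℓ univ x₀ m₀) :
    ∀ᶠ x in 𝓝[ch.solF ν κ F] x₀, ∀ m, Rep ℓ univ x m →
      m.cls F.toWt F.cone = m₀.cls F.toWt F.cone := by
  classical
  have := hF.nice
  have hA : ∀ t, IsUnit t → ∀ z ∈ F.cone, F.actT t z ∈ F.cone := fun _ a _ => hF.cone_act a
  rcases F.cone.eq_empty_or_nonempty with h0 | ⟨y₀, h0⟩
  · have := Fam.subsingleton_H h0
    exact .of_forall fun _ _ _ => Br.ext_intg fun c => by rw [Subsingleton.elim c 0]; simp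
  let G : (Λ → ℂ) × (J → ℂ) → F.X F.cone := fun w =>
    Quo.mk F.actT (if h : w ∈ F.cone then ⟨w, h⟩ else ⟨y₀, h0⟩)
  have hG : ∀ w (h : w ∈ F.cone), G w = Quo.mk F.actT ⟨w, h⟩ := fun w h => by simp only [G, dif_pos h]
  have cG : ContinuousOn G F.cone := continuousOn_iff_continuous_domRestrict.2
    (Tq.continuous_mk.congr fun w => (hG _ w.2).symm)
  let f : ch.solF ν κ F → V ch.M → F.X F.cone := fun x c => G (x.1.1, fld x.1.2 c)
  have hm : ∀ (x : ch.solF ν κ F), ∀ c ∈ crv x.1.2, (x.1.1, fld x.1.2 c) ∈ F.cone :=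
    fun x c a => ((Ch.mem_solF.1 x.2).2 _ a).2
  have h1 : ∀ (x : ch.solF ν κ F), ∀ c ∈ crv x.1.2,
      ContinuousWithinAt (uncurry f) {q | q.2 ∈ crv q.1.1.2} (x, c) := fun x c a =>
    ContinuousWithinAt.comp (g := G) (x := (x, c)) (cG _ (hm x c a)) (cwa_fld x a)
      fun q b => hm _ _ b
  have h2 : ∀ (x : ch.solF ν κ F) {m : AM Λ R J ν κ} {B π u s}, RepD ℓ univ x.1 m B π u s →
      ∃ h : m.Sol F, ∀ z (t : ι → ℂ), (∀ i, t i ≠ 0) → f x (t • π z) = m.evm F.toWt h.2.2 z :=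
    fun x m B π u s a => ⟨(a.mem_solF hF.toInv hl.wd).1 x.2, fun z t b => by
      have e := a.vl_smul hl.wd z b
      have e' := hm x _ (a.mem_crv.2 ⟨z, t, b, rfl⟩)
      exact (hG _ e').trans (Eq.symm (Quot.sound ⟨_, a.unit b, e⟩))⟩
  obtain ⟨s, s1, s2⟩ := Br.exists_test (X := F.X F.cone) 2
  obtain ⟨B₀, π₀, u₀, s₀, d₀⟩ := h.exists_data hx.1.2.1
  have h3 : ∀ c ∈ s, ∀ᶠ x : ch.solF ν κ F in 𝓝 ⟨x₀, hx⟩, ∀ m, Rep ℓ univ x.1 m →
      Loc.intg (m.cls F.toWt F.cone) c = Loc.intg (m₀.cls F.toWt F.cone) c := fun c hs => by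
    obtain ⟨a, a1, rfl⟩ := s1 c hs
    have h4 : ∀ (x : ch.solF ν κ F) {m : AM Λ R J ν κ} {B π u s}, RepD ℓ univ x.1 m B π u s →
        Loc.intg (m.cls F.toWt F.cone) (H.mk a) = ev m.R.fund (pull (fun z => f x (π z)) a.1) :=
      fun x m B π u s b => by
        obtain ⟨c1, c2⟩ := h2 x b
        rw [← hcls_val, Loc.intg_hcls _ a.2, AM.ev_cls hA c1.2.1 c1.2.2 a.2]
        exact congrArg (fun u => ev _ (pull u a.1)) (funext fun z => by
          simpa using (c2 z 1 fun _ => one_ne_zero).symm)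
    refine (LC.ev_const (locFam_sol hc ⟨x₀, hx⟩) (h1 _) (.of_forall fun x => ⟨fun c b =>
      (h1 x c b).comp (f := fun c => (x, c)) (Continuous.prodMk_right x).continuousWithinAt
        fun _ => id, fun c b t e => ?_⟩) a.2 a1 d₀.cr.par).mono fun x e m b => ?_
    · obtain ⟨m, hr⟩ := hl.exists_rep_sol x.2
      obtain ⟨B, π, u, s, d⟩ := hr.exists_data x.2.1.2.1
      obtain ⟨z, t', e', rfl⟩ := d.mem_crv.1 b
      obtain ⟨c1, c2⟩ := h2 x d
      rw [smul_smul, c2 z _ e', c2 z (t * t') fun i => mul_ne_zero (e i) (e' i)]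
    · obtain ⟨B, π, u, s, d⟩ := b.exists_data x.2.1.2.1
      rw [h4 x d, h4 ⟨x₀, hx⟩ d₀, e _ _ _ _ _ d.cr.par]
  have h5 := (eventually_all_finset s).2 h3
  rw [nhds_subtype_eq_comap, eventually_comap] at h5
  filter_upwards [eventually_mem_nhdsWithin, nhdsWithin_le_nhds h5] with x a b m c
  exact s2 _ _ AM.cls_deg AM.cls_deg fun c' e => b ⟨x, a⟩ rfl c' e m c

end Ch

namespace Fam

variable [DecidableEq R] {F : Fam Empty Empty R J K} (h : F.Tg) {k : ℕ}
include h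

theorem Tg.finH : FiniteDimensional ℂ (H (F.X F.cone)) :=
  haveI := h.toGood.fp
  haveI := h.compact
  Br.finH h.dim.ori

theorem Tg.ivt_cls (β : BM (F.X F.cone)) :
    AM.Ivt F.toWt fun m : AM Empty R J ν κ => m.cls F.toWt F.cone = β :=
  fun _ _ e a => (e.cls fun _ b _ => h.cone_act b).trans a

theorem Tg.clopen_cls {D : ℕ} (a : F.BigD k D) (g : ℤ) (d : R → ℤ) (u : ν → J → ℕ)
    (β : BM (F.X F.cone)) : IsClopen (F.sel (fun m : AM Empty R J ν κ => m.cls F.toWt F.cone = β) :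
      Set (F.Mod κ k D g d u)) :=
  haveI := h.finH
  haveI := h.compact
  Ch.isClopen_selQ (chart_lat a) inter_subset_left (h.ivt_cls β) fun _ b _ c =>
    ((c.eventually_cls h.toGood (chart_cuts a) (chart_lat a) b.1).filter_mono
      (nhdsWithin_mono _ inter_subset_left)).mono fun _ e m f => by rw [e m f]

theorem Tg.sel_cls (g : ℤ) (d : R → ℤ) (u : ν → J → ℕ) (β : BM (F.X F.cone)) :
    F.Sel k g d u fun m : AM Empty R J ν κ => m.cls F.toWt F.cone = β :=
  ⟨h.ivt_cls β, (F.eventually_bigD k).mono fun _ a => h.clopen_cls a g d u β⟩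

omit h in
theorem sel_conn (F : Fam S Λ R J K) (g : ℤ) (d : R → ℤ) (u : ν → J → ℕ) :
    F.Sel k g d u fun m : AM Λ R J ν κ => m.Conn :=
  ⟨fun _ _ e => e.conn, (F.eventually_bigD k).mono fun _ a =>
    Ch.isClopen_selQ (chart_lat a) inter_subset_left (fun _ _ e => e.conn) fun _ b _ c => by
      filter_upwards [eventually_mem_nhdsWithin, nhdsWithin_le_nhds
        (c.eventually_same (A' := univ) (chart_cuts a) b.1.1.2.1)] with x e f m r
      exact ⟨(f e.1.1.2.1 m r).conn, (f e.1.1.2.1 m r).symm.conn⟩⟩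

theorem Tg.exOk_exK (β : BM (F.X F.cone)) : F.ExOk k (F.exK F.cone β) :=
  ⟨fun _ _ _ _ g d u => (F.sel_conn g d u).and (h.sel_cls g d u β), fun _ _ _ _ _ _ _ => Iff.rfl,
    subset_univ _, one_mem _⟩

/-- finitely many classes occur in a moduli space -/
theorem Tg.finite_cls [IsEmpty κ] (g : ℤ) (d : R → ℤ) : {β | ∃ m : AM Empty R J ν κ, m.Sol F ∧
    m.Stable F.θ ∧ m.Typ g d ∧ m.cls F.toWt F.cone = β}.Finite := by
  obtain ⟨k, hk⟩ := h.toGood.exists_big
  obtain ⟨D, hD⟩ := (F.eventually_bigD k).exists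
  have : CompactSpace (F.Mod κ k D g d (0 : ν → J → ℕ)) := Cpt.compactSpace_mod h.toGood hk hD rfl
    (T := univ) (by rw [← h.B, h.B_eq]; exact isCompact_singleton) h.B.ge
    (fun _ _ => ⟨1, isUnit_one, trivial⟩) _
  obtain ⟨s, hs⟩ := isCompact_univ.elim_finite_subcover _
    (fun β => (h.clopen_cls (κ := κ) hD g d (0 : ν → J → ℕ) β).isOpen) fun y _ => by
    obtain ⟨x, m, rfl, r⟩ := exists_mk hD y
    exact mem_iUnion.2 ⟨_, (mem_sel (h.ivt_cls _) r).2 rfl⟩
  refine s.finite_toSet.subset ?_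
  rintro _ ⟨m, a, b, c, rfl⟩
  obtain ⟨x, hx, r⟩ := exists_rep h.toInv hk hD a b c
  have e : x ∈ (F.sch ν κ k D g d).cyc κ F (0 : ν → J → ℕ) :=
    ⟨subset_closure ⟨(Ch.solF_subset_adm_iff hx).2 fun j e => (e (h.mov ▸ trivial)).elim,
      fun j e => (e (h.mov ▸ trivial)).elim⟩, hx.1⟩
  obtain ⟨β, e1, e2⟩ := mem_iUnion₂.1 (hs (mem_univ (Quo.mk _ ⟨x, mem_inter hx e⟩)))
  exact (mem_sel (h.ivt_cls _) r).1 e2 ▸ e1

/-- the invariants of connected domains are the sums of the invariants of the classes -/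
theorem Tg.inv_conn [IsEmpty κ] (hA : St.Add) (hS : St.Supp) (hk : F.Big k) (g : ℤ) (d : R → ℤ)
    (u : ν → ℕ) {fs : List (Fac F.toWt ν κ)} (hf : ∀ f ∈ fs, f.Ok F fun n => u n • (0 : J → ℕ)) :
    F.inv k g d (fun n => u n • 0) (fun m => m.Conn) fs =
      ∑ᶠ β, F.inv k g d (fun n => u n • 0) (fun m => m.Conn ∧ m.cls F.toWt F.cone = β) fs := by
  classical
  have h1 : ∀ s : Finset (BM (F.X F.cone)), F.Sel k g d (fun n => u n • (0 : J → ℕ))
      (fun m : AM Empty R J ν κ => m.Conn ∧ m.cls F.toWt F.cone ∈ s) ∧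
      F.inv k g d (fun n => u n • 0) (fun m => m.Conn ∧ m.cls F.toWt F.cone ∈ s) fs =
      ∑ β ∈ s, F.inv k g d (fun n => u n • 0) (fun m => m.Conn ∧ m.cls F.toWt F.cone = β) fs := by
    intro s
    induction s using Finset.induction_on with
    | empty =>
      refine ⟨by simpa using (Sel.top (F := F)).not, by_contra fun e => ?_⟩
      obtain ⟨⟨_, -, -, -, -, a⟩, -⟩ := hS F 0 k g d u _ fs h.nice hk e
      simp at a
    | insert β s hβ ih =>
      have a := (F.sel_conn (κ := κ) (k := k) g d fun n => u n • (0 : J → ℕ)).and (h.sel_cls g d _ β)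
      have b : F.Sel k g d (fun n => u n • (0 : J → ℕ)) fun m : AM Empty R J ν κ =>
          m.Conn ∧ m.cls F.toWt F.cone ∈ insert β s := by
        simpa only [Finset.mem_insert, and_or_left] using a.or ih.1
      refine ⟨b, ?_⟩
      rw [hA F 0 k g d u _ _ fs h.nice F.cp_empty hk b (h.sel_cls g d _ β) hf isEmptyElim,
        Finset.sum_insert hβ, ← ih.2]
      congr 2 <;> refine funext fun m => propext ?_
      · exact ⟨fun e => ⟨e.1.1, e.2⟩, fun e => ⟨⟨e.1, e.2 ▸ Finset.mem_insert_self _ _⟩, e.2⟩⟩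
      · exact ⟨fun e => ⟨e.1.1, (Finset.mem_insert.1 e.1.2).resolve_left e.2⟩,
          fun e => ⟨⟨e.1, Finset.mem_insert_of_mem e.2⟩, fun f => hβ (f ▸ e.2)⟩⟩
  have h2 := h.finite_cls (ν := ν) (κ := κ) g d
  rw [finsum_eq_sum_of_support_subset _ (s := h2.toFinset) fun β e => ?_, ← (h1 _).2]
  · exact inv_congr h.toInv (fun _ _ e => e.conn) (h1 _).1.1 (fun m a b c =>
      (and_iff_left (h2.mem_toFinset.2 ⟨m, a, b, c, rfl⟩)).symm) _
  · obtain ⟨⟨m, a, b, c, -, e⟩, -⟩ := hS F 0 k g d u _ fs h.nice hk e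
    exact h2.mem_toFinset.2 ⟨m, a, b, c, e⟩

omit h in
/-- correlators without nodes and relative insertions -/
theorem cor_eq0 (F : Fam S Λ R J K) (e : F.Ex) (A : Set _) (d j) (l : List (ℕ × H (F.X A))) :
    F.cor k e 0 A A d j l [] [] = F.inv (ν := Fin l.length ⊕ Fin 0) (κ := Fin 0) k (j + 1) d
      (fun n => (0 : Fin l.length ⊕ Fin 0 → ℕ) n • 0) (e.P _ _)
      (.tw e.Θ :: .par e.B e.c :: F.fsD A l fun i => .inl (.inl i)) := by
  unfold cor
  congr 1
  · exact sub_zero _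
  · exact funext fun n => n.rec (fun _ => rfl) fun s => s.elim0
  · simp [Wt.fsN]

omit h in
theorem ok_fs0 (F : Fam S Λ R J K) {B A : Set _} (hB : F.B ⊆ B) (hA : F.cone ⊆ A) (Θ c)
    (l : List (ℕ × H (F.X A))) (n : Fin l.length → Ch.Mk ν κ) (u : ν → J → ℕ) :
    ∀ f ∈ (.tw Θ :: .par B c :: F.fsD A l n : List (Fac F.toWt ν κ)), f.Ok F u := by
  simp only [List.mem_cons, Wt.fsD, List.mem_flatten, List.mem_ofFn]
  rintro _ (rfl | rfl | ⟨_, ⟨i, rfl⟩, e⟩)
  · trivial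
  · exact hB
  · rcases List.mem_append.1 e with e | e
    · rw [List.eq_of_mem_replicate e]; trivial
    · rw [List.mem_singleton.1 e]; exact fun _ a => hA a.1

theorem Tg.cor_exC (hA : St.Add) (hS : St.Supp) (hk : F.Big k) (d j) (l : List (ℕ × H (F.X F.cone))) :
    F.cor k F.exC 0 _ F.cone d j l [] [] =
      ∑ᶠ β, F.cor k (F.exK F.cone β) 0 _ F.cone d j l [] [] := by
  simp only [cor_eq0]
  exact h.inv_conn hA hS hk _ d _ (F.ok_fs0 (subset_univ _) subset_rfl _ _ _ _ _)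

omit h in
theorem cor_exK_supp {F : Fam S Λ R J K} (hN : F.Nice 0) (hS : St.Supp) (hk : F.Big k) {A β d j}
    {l : List (ℕ × H (F.X A))} (e : F.cor k (F.exK A β) 0 A A d j l [] [] ≠ 0) :
    ∃ m : AM Λ R J (Fin l.length ⊕ Fin 0) (Fin 0), m.Sol F ∧ m.Stable F.θ ∧ m.Typ (j + 1) d ∧
      m.Conn ∧ m.cls F.toWt A = β :=
  (hS F 0 k _ d _ _ _ hN hk (F.cor_eq0 _ A d j l ▸ e)).1

end Fam

end Vale.Agent.P269
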