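import Vale.Agent.P269.Vir.Gen2
import Vale.Agent.P269.Ch.Tot

/-!
# Transport of fundamental classes, virtual classes and Euler classes along an isomorphism of actions
-/

set_option linter.unusedSectionVars false

namespace Vale.Agent.P269

open P291Z Set Function Topology Filter

namespace Br

open Ch

section homeo

variable {X Y : Type} [TopologicalSpace X] [TopologicalSpace Y] (Φ : X ≃ₜ Y)

theorem pull_symm_pull (a : Coch Y) : pull Φ.symm (pull Φ a) = a := by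
  rw [pull_pull, Φ.self_comp_symm, pull_id]

theorem pull_pull_symm (a : Coch X) : pull Φ (pull Φ.symm a) = a := pull_symm_pull Φ.symm a

theorem ev_push_homeo (β : BM X) (a : Coch Y) : ev (push Φ β) a = ev β (pull Φ a) := by
  by_cases ha : a ∈ Zc Y
  · exact (push_iff (IsPr.of_homeomorph Φ)).2
      (by rw [push, cpull_eq (IsPr.of_homeomorph Φ)]) a ha
  · rw [ev, ev, dif_neg ha, dif_neg fun h => ha ?_]
    rw [← pull_symm_pull Φ a]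
    exact (IsPr.of_homeomorph Φ.symm).pull_Zc h

theorem push_symm_push (β : BM X) : push Φ.symm (push Φ β) = β :=
  BM.ext_ev fun a _ => by rw [ev_push_homeo, ev_push_homeo, pull_pull_symm]

end homeo

variable {A A' W W' P : Type} [NormedRing A] [NormedAlgebra ℂ A] [NormedAddCommGroup W]
  [NormedSpace ℂ W] [NormedRing A'] [NormedAlgebra ℂ A'] [NormedAddCommGroup W'] [NormedSpace ℂ W']
  [AddCommGroup P] [Module ℂ P] [TopologicalSpace P]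

/-- An isomorphism of actions. -/
structure Tr (act : A → W → W) (act' : A' → W' → W') (α : A ≃L[ℂ] A') (ω : W ≃L[ℂ] W') : Prop where
  one : α 1 = 1
  mul : ∀ a b, α (a * b) = α a * α b
  eqv : ∀ a x, ω (act a x) = act' (α a) (ω x)

variable {act : A → W → W} {act' : A' → W' → W'} {α : A ≃L[ℂ] A'} {ω : W ≃L[ℂ] W'}
  {S Z : Set W} {S' Z' : Set W'}

theorem Tr.symm (h : Tr act act' α ω) : Tr act' act α.symm ω.symm where
  one := α.symm_apply_eq.2 h.one.symm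
  mul a b := α.symm_apply_eq.2 (by rw [h.mul, α.apply_symm_apply, α.apply_symm_apply])
  eqv a x := ω.symm_apply_eq.2 (by rw [h.eqv, α.apply_symm_apply, ω.apply_symm_apply])

theorem Tr.isUnit (h : Tr act act' α ω) {a : A} (ha : IsUnit a) : IsUnit (α a) :=
  ha.map (⟨⟨α, h.one⟩, h.mul⟩ : A →* A')

theorem Tr.isUnit_iff (h : Tr act act' α ω) {a : A} : IsUnit (α a) ↔ IsUnit a :=
  ⟨fun ha => α.symm_apply_apply a ▸ h.symm.isUnit ha, h.isUnit⟩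

theorem mem_symm (e : ∀ x, x ∈ S ↔ ω x ∈ S') (y : W') : y ∈ S' ↔ ω.symm y ∈ S := by
  rw [e, ω.apply_symm_apply]

theorem Tr.exists_quo (h : Tr act act' α ω) (e : ∀ x, x ∈ S ↔ ω x ∈ S') :
    ∃ Φ : Quo act S ≃ₜ Quo act' S', ∀ x : S, Φ (Quo.mk act x) = Quo.mk act' ⟨ω x, (e _).1 x.2⟩ := by
  refine ⟨Homeomorph.Quot.congr (ω.toHomeomorph.subtype e) fun x y => ⟨?_, ?_⟩, fun _ => rfl⟩
  · rintro ⟨a, ha, e'⟩
    exact ⟨α a, h.isUnit ha, (congrArg ω e').trans (h.eqv _ _)⟩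
  · rintro ⟨a, ha, e'⟩
    obtain ⟨a, rfl⟩ := α.surjective a
    exact ⟨a, h.isUnit_iff.1 ha, ω.injective (e'.trans (h.eqv _ _).symm)⟩

theorem symm_mk (e : ∀ x, x ∈ S ↔ ω x ∈ S') {Φ : Quo act S ≃ₜ Quo act' S'}
    (hΦ : ∀ x : S, Φ (Quo.mk act x) = Quo.mk act' ⟨ω x, (e _).1 x.2⟩) (y : S') :
    Φ.symm (Quo.mk act' y) = Quo.mk act ⟨ω.symm y, (mem_symm e _).1 y.2⟩ :=
  Φ.symm_apply_eq.2 (by
    rw [hΦ]
    exact congrArg _ (Subtype.ext (ω.apply_symm_apply _).symm))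

theorem Tr.exists_tot (h : Tr act act' α ω) (e : ∀ x, x ∈ S ↔ ω x ∈ S') {ρ : A → P → P}
    {ρ' : A' → P → P} (hρ : ∀ a, ρ a = ρ' (α a)) {B N : W → Submodule ℂ P}
    {B' N' : W' → Submodule ℂ P} (hB : ∀ x, B x = B' (ω x)) (hN : ∀ x, N x = N' (ω x)) :
    ∃ Ψ : Tot act ρ S B N ≃ₜ Tot act' ρ' S' B' N', ∀ x p (hx : x ∈ S ∧ p ∈ B x),
      Ψ (Quot.mk _ ⟨(x, p), hx⟩) = Quot.mk _ ⟨(ω x, p), (e _).1 hx.1, hB x ▸ hx.2⟩ := by
  refine ⟨Homeomorph.Quot.congr ((ω.toHomeomorph.prodCongr (Homeomorph.refl P)).subtype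
    fun z => and_congr (e z.1) (by rw [hB]; rfl)) fun x y => ⟨?_, ?_⟩, fun _ _ _ => rfl⟩
  · rintro ⟨a, ha, e', e''⟩
    rw [hρ, hN] at e''
    exact ⟨α a, h.isUnit ha, (congrArg ω e').trans (h.eqv _ _), e''⟩
  · rintro ⟨a, ha, e', e''⟩
    obtain ⟨a, rfl⟩ := α.surjective a
    refine ⟨a, h.isUnit_iff.1 ha, ω.injective (e'.trans (h.eqv _ _).symm), ?_⟩
    rw [hρ, hN]
    exact e''

theorem Tr.isChart (h : Tr act act' α ω) (e : ∀ x, x ∈ S ↔ ω x ∈ S')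
    {Φ : Quo act S ≃ₜ Quo act' S'}
    (hΦ : ∀ x : S, Φ (Quo.mk act x) = Quo.mk act' ⟨ω x, (e _).1 x.2⟩) {d : ℕ}
    {U : Set (Fin d → ℂ)} {φ : U → S} (hφ : IsChart act S d U φ) :
    IsChart act' S' d U fun z => ⟨ω (φ z), (e _).1 (φ z).2⟩ := by
  obtain ⟨f, h1, h2, h3, h4⟩ := hφ.holo
  refine ⟨hφ.isOpen, hφ.zero_mem, ⟨fun z => ω (f z), fun z hz =>
    ((ω : W →L[ℂ] W').analyticAt _).comp (h1 z hz), fun z => congrArg ω (h2 z), ?_,
    fun a ha e' => ?_⟩, ?_⟩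
  · have h5 : (fun y : A' × (Fin d → ℂ) => act' y.1 (ω (f y.2))) =
        ω ∘ ((fun y : A × (Fin d → ℂ) => act y.1 (f y.2)) ∘
          α.symm.prodCongr (ContinuousLinearEquiv.refl ℂ (Fin d → ℂ))) := funext fun y => by
      change _ = ω (act (α.symm y.1) (f y.2))
      rw [h.eqv, α.apply_symm_apply]
    have h6 : α.symm.prodCongr (ContinuousLinearEquiv.refl ℂ (Fin d → ℂ)) (1, 0) = (1, 0) :=
      Prod.ext h.symm.one rfl
    rw [h5, ω.comp_fderiv, ContinuousLinearEquiv.comp_right_fderiv, h6]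
    exact ω.injective.comp
      (h3.comp (α.symm.prodCongr (ContinuousLinearEquiv.refl ℂ (Fin d → ℂ))).injective)
  · obtain ⟨a, rfl⟩ := α.surjective a
    rw [h4 a (h.isUnit_iff.1 ha) (ω.injective ((h.eqv _ _).trans e')), h.one]
  · have h5 := Φ.isOpenEmbedding.comp hφ.emb
    rwa [show (Φ ∘ fun z => Quo.mk act (φ z)) = _ from funext fun z => hΦ (φ z)] at h5

theorem Tr.isFund (h : Tr act act' α ω) (e : ∀ x, x ∈ S ↔ ω x ∈ S') {Φ : Quo act S ≃ₜ Quo act' S'}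
    (hΦ : ∀ x : S, Φ (Quo.mk act x) = Quo.mk act' ⟨ω x, (e _).1 x.2⟩) {β : BM (Quo act S)}
    (hβ : IsFund act S β) : IsFund act' S' (push Φ β) := by
  obtain ⟨d, h1, h2⟩ := hβ
  refine ⟨d, fun j a hj ha => (ev_push_homeo Φ β a).trans (h1 j _ hj (ha.pull _)),
    fun d' U φ hφ => ?_⟩
  obtain ⟨h3, h4⟩ := h2 _ _ _ (h.symm.isChart (mem_symm e) (symm_mk e hΦ) hφ)
  have h5 : ∀ y : S', Φ (Quo.mk act ⟨ω.symm y, (mem_symm e _).1 y.2⟩) = Quo.mk act' y := fun y => by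
    rw [← symm_mk e hΦ, Φ.apply_symm_apply]
  refine ⟨h3, fun a ha hs hc => (ev_push_homeo Φ β a).trans
    (h4 _ ((IsPr.of_homeomorph Φ).pull_Zc ha) (fun x hx => Φ.injective ?_) ?_)⟩
  · exact (hs (supp_pull Φ.continuous a hx)).trans (h5 _).symm
  · rwa [pull_pull, show (Φ ∘ fun z => Quo.mk act ⟨ω.symm (φ z), (mem_symm e _).1 (φ z).2⟩) =
      fun z => Quo.mk act' (φ z) from funext fun z => h5 (φ z)]

omit [NormedAlgebra ℂ A] [NormedSpace ℂ W] in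
theorem sec_mk {ρ : A → P → P} {B N : W → Submodule ℂ P} {σ : W → P}
    (hs : ∀ x ∈ S, σ x ∈ B x ∧ ∀ a, IsUnit a → σ (act a x) = ρ a (σ x)) (x : S) :
    sec act ρ S B N σ (Quo.mk act x) = Quot.mk _ ⟨(x.1, σ x.1), x.2, (hs _ x.2).1⟩ := by
  let f : Quo act S → Tot act ρ S B N :=
    Quot.lift (fun x : S => Quot.mk _ ⟨(x.1, σ x.1), x.2, (hs _ x.2).1⟩) (by
      rintro x y ⟨a, ha, e⟩
      refine Quot.sound ⟨a, ha, e, ?_⟩
      change σ y.1 - ρ a (σ x.1) ∈ N y.1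
      rw [e, (hs _ x.2).2 a ha, sub_self]
      exact zero_mem _)
  have h1 : ∀ z, sec act ρ S B N σ z = f (Quo.mk act z.out) := fun z =>
    congrArg (Quot.mk _) (Subtype.ext (Prod.ext rfl (if_pos (hs _ z.out.2).1)))
  exact (h1 _).trans (congrArg f (Quot.out_eq _))

theorem Tr.isThomOf (e : ∀ x, x ∈ S ↔ ω x ∈ S') {ρ : A → P → P} {ρ' : A' → P → P}
    {B N : W → Submodule ℂ P} {B' N' : W' → Submodule ℂ P} (hB : ∀ x, B x = B' (ω x))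
    (hN : ∀ x, N x = N' (ω x)) {Ψ : Tot act ρ S B N ≃ₜ Tot act' ρ' S' B' N'}
    (hΨ : ∀ x p (hx : x ∈ S ∧ p ∈ B x),
      Ψ (Quot.mk _ ⟨(x, p), hx⟩) = Quot.mk _ ⟨(ω x, p), (e _).1 hx.1, hB x ▸ hx.2⟩)
    {t : Coch (Tot act ρ S B N)} (ht : IsThomOf act ρ S B N t) :
    IsThomOf act' ρ' S' B' N' (pull Ψ.symm t) := by
  refine IsThom.pull ht Ψ.symm.continuous ?_ ?_
  · rintro z ⟨⟨⟨x, p⟩, hx⟩, h1, h2⟩
    exact ⟨_, h1, (Ψ.symm_apply_eq.1 h2).trans (hΨ x p hx)⟩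
  · rintro r φ ⟨y, hy, ℓ, h1, h2, h3⟩
    obtain ⟨x, rfl⟩ := ω.surjective y
    rw [← hN] at h1 h2
    rw [← hB] at h2
    refine ⟨x, (e x).2 hy, ℓ, h1, h2, fun v => ?_⟩
    obtain ⟨h4, h5⟩ := h3 v
    have h6 : x ∈ S ∧ ℓ v ∈ B x := ⟨(e x).2 hy, hB x ▸ h4.2⟩
    exact ⟨h6, Ψ.symm_apply_eq.2 (h5.trans (hΨ x _ h6).symm)⟩

theorem Tr.stm_of (h : Tr act act' α ω) (e : ∀ x, x ∈ S ↔ ω x ∈ S') (eZ : ∀ x, x ∈ Z ↔ ω x ∈ Z')
    {Φ : Quo act Z ≃ₜ Quo act' Z'}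
    (hΦ : ∀ x : Z, Φ (Quo.mk act x) = Quo.mk act' ⟨ω x, (eZ _).1 x.2⟩) {D' : KD A' W' P}
    (hs : ∀ x ∈ S', D'.s x ∈ D'.P₀ ∧ ∀ a, IsUnit a → D'.s (act' a x) = D'.ρ a (D'.s x))
    {v : BM (Quo act Z)} (hv : (D'.pb α ω).Stm act Z S v) : D'.Stm act' Z' S' (push Φ v) := by
  obtain ⟨O, hO, N, r, β, t, ⟨U, hU, ho⟩, hi, h1, h2, h3, hN, hβ, ht, hg⟩ := hv
  have eO : ∀ x, x ∈ O ↔ ω x ∈ ω.symm ⁻¹' O := fun x => by
    rw [mem_preimage, ω.symm_apply_apply]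
  have eN : ∀ x, N x = (fun y => N (ω.symm y)) (ω x) := fun x => by
    simp only [ω.symm_apply_apply]
  have hO' : Z' ⊆ ω.symm ⁻¹' O := fun y hy => hO ((mem_symm eZ y).1 hy)
  have hS : ∀ x ∈ O, ω x ∈ S' := fun x hx => (e x).1 (ho.le hx).1
  obtain ⟨F, hF⟩ := h.exists_quo eO
  obtain ⟨Ψ, hΨ⟩ := h.exists_tot eO (ρ := (D'.pb α ω).ρ) (ρ' := D'.ρ) (fun _ => rfl)
    (B := fun _ => (D'.pb α ω).P₀) (B' := fun _ => D'.P₀) (N := N) (N' := fun y => N (ω.symm y))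
    (fun _ => rfl) eN
  refine ⟨ω.symm ⁻¹' O, hO', fun y => N (ω.symm y), r, push F β, pull Ψ.symm t,
    ⟨ω.symm ⁻¹' U, hU.preimage ω.symm.continuous, ?_⟩, fun a ha y hy => ?_,
    (ω.toHomeomorph.subtype eO).locallyCompactSpace_iff.1 h1, F.t2Space, Ψ.t2Space,
    ⟨fun y hy => ?_, fun y hy => hN.le _ hy, fun y hy => hN.rank _ hy, fun y hy hy' => ?_,
      fun y hy a ha f hf => ?_, ?_, fun y hy f h4 h5 => ?_, fun y hy f h4 => ?_⟩,
    h.isFund eO hF hβ, Tr.isThomOf eO (fun _ => rfl) eN hΨ ht, fun a ha hd => ?_⟩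
  · rw [ho]
    exact Set.ext fun y => and_congr_left' (mem_symm e y).symm
  · rw [mem_preimage, h.symm.eqv]
    exact hi _ (h.symm.isUnit ha) _ hy
  · have h4 := hN.van_le _ hy
    rwa [show (D'.pb α ω).van (ω.symm y) = D'.van y from congrArg _ (ω.apply_symm_apply y)] at h4
  · refine (mem_symm eZ y).2 (hN.zero _ hy ?_)
    rwa [show (D'.pb α ω).s (ω.symm y) = D'.s y from congrArg _ (ω.apply_symm_apply y)]
  · have h4 := hN.equi _ hy _ (h.symm.isUnit ha) f hf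
    rwa [show (D'.pb α ω).ρ (α.symm a) = D'.ρ a from congrArg _ (α.apply_symm_apply a),
      ← h.symm.eqv] at h4
  · exact hN.closed.preimage (f := fun z : (ω.symm ⁻¹' O : Set W') × P =>
      ((⟨ω.symm z.1, z.1.2⟩ : O), z.2))
      (((ω.symm.continuous.comp (continuous_subtype_val.comp continuous_fst)).subtype_mk _).prodMk
        continuous_snd)
  · obtain ⟨x, rfl⟩ := ω.surjective y
    exact hN.disj x ((eZ x).2 hy) f h4 (eN x ▸ h5)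
  · obtain ⟨x, rfl⟩ := ω.surjective y
    obtain ⟨f', h5, h6⟩ := hN.span x ((eZ x).2 hy) f h4
    exact ⟨f', h5, (eN x).le h6⟩
  · have h4 : Quo.incl act' hO' ∘ Φ = F ∘ Quo.incl act hO := funext fun z =>
      Quot.inductionOn z fun x => (congrArg _ (hΦ x)).trans (hF (inclusion hO x)).symm
    have h5 : (Ψ.symm ∘ sec act' D'.ρ (ω.symm ⁻¹' O) (fun _ => D'.P₀) (fun y => N (ω.symm y))
        D'.s) ∘ F = sec act (D'.pb α ω).ρ O (fun _ => (D'.pb α ω).P₀) N (D'.pb α ω).s := funext fun z =>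
      Quot.inductionOn z fun x => Ψ.symm_apply_eq.2 (by
        have h6 := sec_mk (act := act') (S := ω.symm ⁻¹' O) (B := fun _ => D'.P₀)
          (N := fun y => N (ω.symm y)) (fun y hy => hs y (ω.apply_symm_apply y ▸ hS _ hy))
          ⟨ω x, (eO _).1 x.2⟩
        have h7 := sec_mk (act := act) (S := O) (ρ := (D'.pb α ω).ρ) (B := fun _ => (D'.pb α ω).P₀)
          (N := N) (σ := (D'.pb α ω).s) (fun x hx => ⟨(hs _ (hS x hx)).1, fun a ha =>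
            (congrArg D'.s (h.eqv a x)).trans ((hs _ (hS x hx)).2 _ (h.isUnit ha))⟩) x
        exact ((congrArg _ (hF x)).trans h6).trans
          ((congrArg Ψ h7).trans (hΨ _ _ _)).symm)
    rw [ev_push_homeo, ev_push_homeo, pull_pull, h4, ← pull_pull, map_mul, pull_pull _ Ψ.symm,
      pull_pull F (Ψ.symm ∘ _), h5]
    refine hg _ ((IsPr.of_homeomorph F).isCompact_pull ha) (disjoint_left.2 ?_)
    rintro _ hx ⟨z, rfl⟩
    rw [δ_pull] at hx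
    exact disjoint_left.1 hd (supp_pull F.continuous _ hx) ⟨Φ z, congrFun h4 z⟩

theorem Tr.stm (h : Tr act act' α ω) (e : ∀ x, x ∈ S ↔ ω x ∈ S') (eZ : ∀ x, x ∈ Z ↔ ω x ∈ Z')
    {Φ : Quo act Z ≃ₜ Quo act' Z'}
    (hΦ : ∀ x : Z, Φ (Quo.mk act x) = Quo.mk act' ⟨ω x, (eZ _).1 x.2⟩) {D' : KD A' W' P}
    (hs : ∀ x ∈ S', D'.s x ∈ D'.P₀ ∧ ∀ a, IsUnit a → D'.s (act' a x) = D'.ρ a (D'.s x))
    {v : BM (Quo act Z)} : (D'.pb α ω).Stm act Z S v ↔ D'.Stm act' Z' S' (push Φ v) := by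
  refine ⟨h.stm_of e eZ hΦ hs, fun hv => ?_⟩
  have h1 : (D'.pb α ω).pb α.symm ω.symm = D' := by
    simp only [KD.pb, α.apply_symm_apply, ω.apply_symm_apply]
  rw [← push_symm_push Φ v]
  exact h.symm.stm_of (mem_symm e) (mem_symm eZ) (symm_mk eZ hΦ) (D' := D'.pb α ω)
    (fun x hx => ⟨(hs _ ((e x).1 hx)).1, fun a ha =>
      (congrArg D'.s (h.eqv a x)).trans ((hs _ ((e x).1 hx)).2 _ (h.isUnit ha))⟩) (h1.symm ▸ hv)

/-- The transport of a presentation. -/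
noncomputable def Tr.pres (h : Tr act act' α ω) (e : ∀ x, x ∈ S ↔ ω x ∈ S')
    {Φ : Quo act S ≃ₜ Quo act' S'}
    (hΦ : ∀ x : S, Φ (Quo.mk act x) = Quo.mk act' ⟨ω x, (e _).1 x.2⟩) {Y : Sp}
    (p : Pres Y act' S') : Pres Y act S where
  u g := α.symm (p.u g)
  i t := ω.symm (p.i t)
  e := p.e.comp ⟨Φ, Φ.continuous⟩
  emb := ω.symm.toHomeomorph.isEmbedding.comp p.emb
  mem t := (mem_symm e _).1 (p.mem t)
  surj x hx := (p.surj _ ((e x).1 hx)).imp fun _ ht => ω.symm_apply_eq.2 ht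
  unit g := h.symm.isUnit (p.unit g)
  usurj _ ha := (p.usurj _ (h.isUnit ha)).imp fun _ hg => α.symm_apply_eq.2 hg
  eqv g t := (congrArg ω.symm (p.eqv g t)).trans (h.symm.eqv _ _)
  map t := (congrArg p.e (Φ.symm_apply_eq.1 (symm_mk e hΦ ⟨p.i t, p.mem t⟩)).symm).trans (p.map t)

theorem Tr.isMod (h : Tr act act' α ω) (e : ∀ x, x ∈ S ↔ ω x ∈ S') {Φ : Quo act S ≃ₜ Quo act' S'}
    (hΦ : ∀ x : S, Φ (Quo.mk act x) = Quo.mk act' ⟨ω x, (e _).1 x.2⟩) {ρ : A' → P → P}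
    {B N : W' → Submodule ℂ P} {Y : Sp} {p : Pres Y act' S'} {E₀ E : VB Y} {ι : E₀.W →ₗ[ℂ] P}
    {M : Y.T → E₀.W →ₗ[ℂ] E.W} (hm : IsMod p ρ B N E₀ E ι M) :
    IsMod (h.pres e hΦ p) (fun a => ρ (α a)) (fun x => B (ω x)) (fun x => N (ω x)) E₀ E ι M := by
  have h1 : ∀ t, ω ((h.pres e hΦ p).i t) = p.i t := fun t => ω.apply_symm_apply _
  have h2 : ∀ g, α ((h.pres e hΦ p).u g) = p.u g := fun g => α.apply_symm_apply _
  refine ⟨hm.emb, fun t => ?_, fun g t w hw => ?_, fun t => ?_, hm.hom, hm.surj, fun t w hw => ?_⟩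
  · rw [h1]
    exact hm.map t
  · rw [h1, h2]
    exact hm.eqv g t w hw
  · rw [h1]
    exact hm.le t
  · rw [h1]
    exact hm.ker t w hw

theorem Tr.eulerC (h : Tr act act' α ω) (e : ∀ x, x ∈ S ↔ ω x ∈ S') {Φ : Quo act S ≃ₜ Quo act' S'}
    (hΦ : ∀ x : S, Φ (Quo.mk act x) = Quo.mk act' ⟨ω x, (e _).1 x.2⟩) {ρ : A' → P → P}
    {B N : W' → Submodule ℂ P} {Y : Sp} {p : Pres Y act' S'} {E₀ E : VB Y} {ι : E₀.W →ₗ[ℂ] P}
    {M : Y.T → E₀.W →ₗ[ℂ] E.W} (hm : IsMod p ρ B N E₀ E ι M) :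
    supp (δ (eulerC act (fun a => ρ (α a)) S (fun x => B (ω x)) fun x => N (ω x))) = ∅ ∧
    hcls (eulerC act (fun a => ρ (α a)) S (fun x => B (ω x)) fun x => N (ω x)) =
      hcls (pull Φ (eulerC act' ρ S' B N)) := by
  have h1 := h.isMod e hΦ hm
  refine ⟨h1.eulerC_cocycle, h1.hcls_eulerC.trans ?_⟩
  have h2 := H.map_hcls ⟨Φ, Φ.continuous⟩ hm.eulerC_cocycle
  rw [hm.hcls_eulerC, H.map_map] at h2
  exact h2

end Br

end Vale.Agent.P269
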