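import Vale.Agent.P269.Br.C1A
import Vale.Agent.P269.Br.Iface
import Vale.Agent.P269.Br.Tr
import Vale.Agent.P269.Prj.TgtM
import Vale.Agent.P269.Asm.Ci
import Mathlib.RingTheory.MvPolynomial.EulerIdentity

/-!
# The integral and the first Chern class of the statement
-/

set_option linter.unusedSectionVars false
set_option linter.style.haveILetI false

namespace Vale.Agent.P269

open P291Z Set Function Topology Filter Holo Mono Tq Module Ch

variable {S Λ R J K : Type} [Fintype S] [Fintype Λ] [Fintype R] [Fintype J] [Fintype K]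

namespace Fam

variable {F : Fam S Λ R J K}

theorem an_jac (k : K) (j : J) (z : (Λ → ℂ) × (J → ℂ)) : AnalyticAt ℂ (fun z => F.jac z k j) z := by
  have e : ∀ z, F.jac z k j =
      (F.eqs F.χ F.wk (fun k => MvPolynomial.pderiv j (F.G k)) F.U).eqn z k :=
    fun z => congrArg (MvPolynomial.eval z.2) (MvPolynomial.pderiv_map (f := F.G k))
  simp only [e]
  exact an_eqn k z

theorem Inv.jac_act (h : F.Inv) {t} (ht : IsUnit t) (z : (Λ → ℂ) × (J → ℂ)) (v : J → ℂ) (k : K) :
    ∑ j, F.jac (F.actT t z) k j * (chT (F.wt j) (F.w j) t * v j) =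
      chT (F.wk k) (F.χ k) t * ∑ j, F.jac z k j * v j := by
  refine (Vir.hasDerivAt_eval _ _ _).unique
    (((Vir.hasDerivAt_eval ((F.fib z.1).F k) z.2 v).const_mul _).congr_of_eventuallyEq
      (.of_forall fun ε => Eq.trans ?_ (h.eval_act ht (z.1, fun j => z.2 j + ε * v j) k)))
  exact congrArg (MvPolynomial.eval · _) (funext fun j => by simp only [Wt.actT_snd]; ring)

variable [FP F.actT F.cone]

variable (F) in
/-- the bundle of the fields -/
noncomputable abbrev vJ : VB (sp F.actT F.cone) := chars fun j => (hm_chT (F.wt j) (F.w j)).ρ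

variable (F) in
/-- the bundle of the equations -/
noncomputable abbrev vK : VB (sp F.actT F.cone) := chars fun k => (hm_chT (F.wk k) (F.χ k)).ρ

variable (F) in
/-- the differential of the equations -/
noncomputable def dG (t : Sp F.actT F.cone) : (J → ℂ) →ₗ[ℂ] K → ℂ :=
  (Matrix.of (F.jac t.val)).mulVecLin

theorem Inv.hom_dG (h : F.Inv) : Hom (Mor.id _) F.vJ F.vK F.dG :=
  Hom.of_continuous (fun _ _ _ => trivial) (continuous_pi fun k => continuous_finsetSum _ fun j _ =>
    ((continuous_iff_continuousAt.2 fun z => (an_jac k j z).continuousAt).comp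
      (Sp.continuous_val.comp continuous_fst)).mul ((continuous_apply j).comp continuous_snd))
    fun g t v _ => funext (h.jac_act g.isUnit t.val v)

end Fam

namespace Tgt

variable {T : Tgt R J K} {χ : K → R → ℤ}

theorem tr_fam : Br.Tr (T.fam χ).actT T.act (.uniqueProd ℂ _ _) (.uniqueProd ℂ _ _) :=
  ⟨rfl, fun _ _ => rfl, T.fam_act χ⟩

theorem xi_symm (y : T.cone) : (T.xi χ).symm (Quo.mk T.act y) = Quo.mk (T.fam χ).actT
    ⟨(ContinuousLinearEquiv.uniqueProd ℂ _ (Empty → ℂ)).symm y.1, mem_fam.2 y.2⟩ :=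
  congrArg (Quot.mk _) (Subtype.ext (Prod.ext (Subsingleton.elim _ _) rfl))

theorem push_fnd [DecidableEq R] (h : (T.fam χ).Tg) :
    push (T.xi χ).symm (fnd T.act T.cone) = fnd (T.fam χ).actT (T.fam χ).cone := by
  haveI := h.toGood.fp
  have k1 : P269.IsFund T.act T.cone (fnd T.act T.cone) := Classical.epsilon_spec
    ⟨_, tr_fam.isFund (fun _ => mem_fam) (Φ := T.xi χ) (fun _ => rfl) h.dim.isFund⟩
  have k2 := (tr_fam (χ := χ)).symm.isFund (S := T.cone) (S' := (T.fam χ).cone)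
    (fun _ => ⟨fun k => mem_fam.2 k, fun k => mem_fam.1 k⟩) (Φ := (T.xi χ).symm) xi_symm k1
  exact (FP.eq_fundQ h.dim.holOrb k2).trans h.dim.fnd_eq.symm

theorem intX_xiH [DecidableEq R] (h : (T.fam χ).Tg) (a : H T.X) :
    (T.fam χ).intX _ (T.xiH χ a) = T.int a := by
  haveI := h.toGood.fp
  haveI := h.compact
  haveI := (T.xi χ).compactSpace
  haveI := Nice.of_homeomorph (T.xi χ).symm
  rw [Wt.intX_eq, ← push_fnd h]
  have k : H.map ((T.xi χ).symm : C(_, _)) (T.xiH χ a) = a :=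
    (H.map_map _ _ _).trans (H.map_id (T.xi χ).apply_symm_apply _)
  have k' := Loc.intg_push ((T.xi χ).symm : C(_, _)) (fnd T.act T.cone) (T.xiH χ a)
  rw [k, ← ev_rep _ a] at k'
  exact k'

variable (T χ) in
/-- the target presented by the cone of the family -/
noncomputable def presF [FP (T.fam χ).actT (T.fam χ).cone] :
    Pres (sp (T.fam χ).actT (T.fam χ).cone) T.act T.cone where
  u g := g.val.2
  i t := t.val.2
  e := (T.xi χ).symm
  emb := (Homeomorph.uniqueProd _ _).isEmbedding.comp (Sp.isEmbedding_val (act := (T.fam χ).actT))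
  mem t := mem_fam.1 t.val_mem
  surj x hx := ⟨Sp.of (T.fam χ).actT (0, x) (mem_fam.2 hx), rfl⟩
  unit g := (Prod.isUnit_iff.1 g.isUnit).2
  usurj a ha := ⟨(Prod.isUnit_iff.2 ⟨isUnit_one, ha⟩ : IsUnit ((1 : Empty → ℂ), a)).unit, rfl⟩
  eqv g t := T.fam_act χ g t.val
  map t := (T.xi χ).symm_apply_apply (Sp.mk t)

end Tgt

namespace Br.C1

variable {N c : ℕ} {d : Fin c → ℕ} {F : Fin c → MvPolynomial (Fin (N + 1)) ℂ}

theorem mem_ker [FP (ciF F d).actT (ciF F d).cone] {t v} :
    (ciF F d).dG t v = 0 ↔ v ∈ (ci F).tan t.val.2 :=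
  funext_iff.trans (forall_congr' fun k => Eq.congr_left (by
    change ∑ j, (ciF F d).jac t.val k j * v j = _
    refine Finset.sum_congr rfl fun j _ => ?_
    rw [Fam.jac, ciF_fib, mul_comm]
    rfl))

theorem euler (h : SmCI F d) {x} (hx : x ∈ (ciK F).cone) : x ∈ (ci F).tan x := fun k => by
  simpa [ci, (mem_ciK.1 hx).2 k] using congrArg (MvPolynomial.eval x) (h.hom k).sum_X_mul_pderiv

theorem c1_eq (h : SmCI F d) (hc : c ≤ N) :
    ciH F d ((ci F).c1 (N - c)) = -(ciF F d).lc _ 0 fun _ => ∑ k, (d k : ℤ) - (N + 1 : ℕ) := by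
  haveI := h.good.fp
  have hg : ∀ (g : (Empty → ℂ) × (Unit → ℂ)) ψ (n : ℤ), chT ψ (fun _ => n) g = g.2 () ^ n :=
    fun g ψ n => by simp [chT]
  have one_mul' : ∀ z : ℂ, ((1 : ℤ) : ℂ) * z = z := fun z => by simp
  obtain ⟨h1, h2⟩ := eu_ker (n := N - c) h.good.hom_dG (fun _ _ => trivial) (fun _ _ => trivial)
    (fun t v => (h.tg.reg.ind _ t.val_mem v).imp fun _ e => funext fun k => e.2 k trivial)
    ((Pi.basisFun ℂ _).reindex (Fintype.equivOfCardEq (by simp; omega))) (Pi.basisFun ℂ _)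
    (s := fun g => g.val.2 ()) (χ := fun k g => g.val.2 () ^ (d k : ℤ))
    (fun g v => funext fun j => congrArg (· * v j) ((hg _ _ 1).trans (zpow_one _)))
    (fun g k => funext fun l => by
      refine (congrArg (· * _) (hg _ _ (d l))).trans ?_
      change _ * Pi.basisFun ℂ _ k l = _ * Pi.basisFun ℂ _ k l
      rcases eq_or_ne l k with rfl | e
      exacts [rfl, by simp [e]])
    (fun g k => zpow_ne_zero _ ((isUnit_T.1 g.isUnit).2 _)) (x := fun t => t.val.2)
    (continuous_snd.comp (Sp.continuous_val (act := (ciF F d).actT)))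
    (fun t => mem_ker.2 (euler h (mem_ciF.1 t.val_mem)))
    (fun t => (mem_ciF.1 t.val_mem).1) (fun _ _ => rfl)
    (φ := (hm_chT 0 fun _ => ∑ k, (d k : ℤ) - (N + 1 : ℕ)).ρ) (fun g => by
      rw [Hm.ρ_val, hg, ← zpow_sum_ne ((isUnit_T.1 g.isUnit).2 _), ← zpow_natCast,
        ← zpow_add₀ ((isUnit_T.1 g.isUnit).2 _), Fintype.card_fin,
        show N - c + (c + 1) = N + 1 by omega, sub_add_cancel])
    (@Tgt.presF _ _ _ _ _ _ (ci F) _ this)
    (ρ := fun t ω => ω.compContinuousLinearMap (.pi fun j => (∏ i, t i ^ (ci F).w j i)⁻¹ • .proj j))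
    (B := fun x => ⨅ v ∈ {v : Fin (N - c) → Fin (N + 1) → ℂ | (∀ s, v s ∈ (ci F).tan x) ∧
      ∃ s i, v s = fun j => (ci F).w j i * x j}, LinearMap.ker
        (ContinuousAlternatingMap.apply ℂ (Fin (N + 1) → ℂ) ℂ v).toLinearMap)
    (N := fun x => ⨅ v ∈ {v : Fin (N - c) → Fin (N + 1) → ℂ | ∀ s, v s ∈ (ci F).tan x},
      LinearMap.ker (ContinuousAlternatingMap.apply ℂ (Fin (N + 1) → ℂ) ℂ v).toLinearMap)
    (fun g ω v => congrArg ω (funext₂ fun i j => congrArg (·⁻¹ * v i j) (by simp [ci]; rfl)))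
    (fun t ω => by
      simp only [Submodule.mem_iInf]
      exact forall_congr' fun v => and_imp.trans (imp_congr (forall_congr' fun _ => mem_ker.symm)
        (imp_congr_left (exists_congr fun s => ⟨fun ⟨_, e⟩ => e.trans (funext fun _ => one_mul' _),
          fun e => ⟨(), e.trans (funext fun _ => (one_mul' _).symm)⟩⟩))))
    fun t ω => by
      simp only [Submodule.mem_iInf]
      exact forall_congr' fun v => imp_congr_left (forall_congr' fun _ => mem_ker.symm)
  rw [Tgt.c1, map_neg, ← Wt.lce_val]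
  exact congrArg Neg.neg ((congrArg _ ((dif_pos h1).trans ((hcls_of_mem h1).symm.trans h2))).trans
    ((H.map_map _ _ _).trans (H.map_id ((ci F).xi _).symm_apply_apply _)))

end Br.C1

theorem St.brC : St.BrC := fun N c d F h hn => by
  haveI := h.good.fp
  have hc := h.tg.card_le ⟨(0, hn.choose), mem_ciF.2 hn.choose_spec⟩
  refine ⟨Tgt.intX_xiH h.tg, (Br.C1.c1_eq h (by simp at hc; omega)).trans ?_⟩
  rw [Fam.c1, show (ciF F d).mov = univ from rfl, finsum_mem_univ, finsum_eq_sum_of_fintype,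
    ← Wt.lc_sum, ← Wt.lc_sum, ← Wt.lc_sub, ← Wt.lc_neg]
  exact congrArg₂ _ (Subsingleton.elim _ _) (funext fun _ => by simp [ciF, ciK, Tgt.fam])

end Vale.Agent.P269
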