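import Vale.Agent.P269.Br.Iface

/-!
# Gromov-Witten invariants with cocycle insertions
-/

namespace Vale.Agent.P269

open P291Z Set Function Filter

variable {R J K : Type} [Fintype R] [Fintype J] [Fintype K] [DecidableEq R]

/-- The invariants `Tgt.gw` with cochains as insertions. -/
noncomputable def Tgt.gwC (T : Tgt R J K) (g : ℤ) (β : BM T.X) (n : ℕ) (l : Fin n → ℕ × Coch T.X) :
    ℂ :=
  ∑ᶠ d : R → ℤ, Classical.epsilon fun z : ℂ => ∀ᶠ k in atTop, ∀ᶠ D in atTop,
    ∃ v, (T.chart g n d k D).IsVir (Fin n) T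
        (fun q o => (T.F q).totalDegree * ∑ j, (T.chart g n d k D).b j o) v ∧
      z = ev v (ind {y | IsConnected (Ch.crv (Quo.out y).1) ∧ Ch.HasClass (Quo.out y) β} *
        (List.ofFn fun i => Ch.psi i ^ (l i).1 * pull (Ch.evl i) (l i).2).prod)

theorem Tgt.gw_eq_gwC (T : Tgt R J K) (g : ℕ) (β : BM T.X) (l : List (ℕ × H T.X)) :
    T.gw g β l = T.gwC g β l.length fun i => ((l.get i).1, rep (l.get i).2) := rfl

/-- The invariants depend on the classes of the insertions only. -/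
def St.GWC : Prop :=
  ∀ {R J K : Type} [Fintype R] [Fintype J] [Fintype K] [DecidableEq R] (T : Tgt R J K)
    (χ : K → R → ℤ) (k : ℕ), (T.fam χ).Tg → (T.fam χ).Big k →
    ∀ (g : ℕ) β (n : ℕ) (m : Fin n → ℕ) (a a' : Fin n → Zs T.X), (∀ i, H.mk (a i) = H.mk (a' i)) →
      T.gwC g β n (fun i => (m i, (a i).1)) = T.gwC g β n fun i => (m i, (a' i).1)

end Vale.Agent.P269
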