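import Vale.Agent.P269.Br.GWb
import Vale.Agent.P269.Br.GwC
import Vale.Agent.P269.Vir.Std
import Vale.Agent.P269.Map.Gy
import Vale.Agent.P269.Asm.PresT

/-!
# The invariants of the statement are the correlators
-/

set_option linter.unusedSectionVars false

namespace Vale.Agent.P269

open P291Z Set Function Topology Filter MvPolynomial Mono Br

variable {S Λ R J K ι ν₀ κ : Type} [Fintype S] [Fintype Λ] [Fintype R] [Fintype J] [Fintype K]
  [Fintype ι] [DecidableEq ι] [Fintype ν₀] [Fintype κ] [DecidableEq R]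

/-- The factors of a descendant invariant. -/
noncomputable def Wt.fs0 (F : Wt S Λ R J) (A : Set _) {a : ℕ} (w : Fin a → ℕ × H (F.X A)) :
    List (Fac F (Fin a ⊕ ν₀) κ) :=
  .tw 1 :: .par univ 1 :: (List.ofFn fun i => List.replicate (w i).1 (.psi (.inl (.inl i))) ++
    [.ev (.inl (.inl i)) A (w i).2]).flatten

theorem Ch.gw_iff [IsEmpty ν₀] [IsEmpty κ] {ch : Ch ι J} {ℓ : R → ι → ℤ} {T : Tgt R J K}
    {χ : K → R → ℤ} {e : K → ι → ℕ} {a : ℕ} {u : Fin a ⊕ ν₀ → J → ℕ} (hF : (T.fam χ).Good)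
    (hl : ch.Lat (T.fam χ).toWt ℓ) (hf : ch.Fits (T.fam χ) e)
    (hZ : OZ (T.fam χ).toWt (ch.solF _ κ (T.fam χ) ∩ ch.cyc κ (T.fam χ) u))
    [CompactSpace (ModS (T.fam χ) (ch.cyc κ (T.fam χ) u))] (β : BM T.X)
    (hc : IsClopen (selQ (T.fam χ).toWt ℓ (ch.solF _ κ (T.fam χ) ∩ ch.cyc κ (T.fam χ) u)
      (((T.fam χ).exK _ (T.xiB χ β)).P _ _)))
    (hv : ∃! v, IsVirF (T.fam χ) e (ch.cyc κ (T.fam χ) u) v) (m : Fin a → ℕ) (w : Fin a → Zs T.X)
    (z : ℂ) :
    (∃ v, ch.IsVir (Fin a) T e v ∧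
      z = ev v (ind {y | IsConnected (crv (Quo.out y).1) ∧ HasClass (Quo.out y) β} *
        (List.ofFn fun i => psi i ^ m i * pull (evl i) (w i).1).prod)) ↔
    z = ev (virF (T.fam χ) e (ch.cyc κ (T.fam χ) u))
      (ind (selQ _ ℓ _ (((T.fam χ).exK _ (T.xiB χ β)).P _ _)) *
        (((T.fam χ).fs0 _ fun i => (m i, T.xiH χ (H.mk (w i)))).map ((T.fam χ).coch _)).prod) := by
  obtain ⟨Φ, hΦ⟩ := (tr_act (T.fam χ).toWt).exists_quo fun _ =>
    trW_sol (ch := ch) (κ := κ) (χ := χ) (u := u)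
  have h1 : ∀ v, ch.IsVir (Fin a) T e v ↔ push Φ v = virF _ e _ := fun v =>
    (isVir_iff_push hF.toInv hf hΦ).trans ⟨fun h => hv.unique h (Classical.epsilon_spec hv.exists),
      fun h => h ▸ Classical.epsilon_spec hv.exists⟩
  have h2 := (crs_sel hΦ hF hl β hc).mul (Crs.rep_one continuous_id (Crs.rep_one
    (f := fun z => Quo.mk (T.fam χ).actL (S := univ) ⟨(Quo.out z).1.1, trivial⟩)
    (continuous_const.congr fun _ => congrArg _ (Subsingleton.elim (⟨0, trivial⟩ : univ) _))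
    (Crs.prod fun i => ((crs_psi hΦ hZ i).pow (m i)).mul (crs_ev hΦ hl.wd i (w i)))))
  simp only [Wt.fs0, List.map_cons, List.prod_cons, List.map_flatten, List.prod_flatten,
    List.map_ofFn, comp_def, List.map_append, List.map_replicate, List.prod_append,
    List.prod_replicate, List.map_nil, List.prod_nil, mul_one, Fam.coch, map_one, h1, h2.ev,
    parF, mem_univ, implies_true, dite_true, pull_id]
  exact ⟨fun ⟨_, a, b⟩ => a ▸ b, fun h => ⟨push Φ.symm _, push_symm_push Φ.symm _, by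
    rwa [show push Φ (push Φ.symm _) = _ from push_symm_push Φ.symm _]⟩⟩

theorem Ch.Vd.oz {ν : Type} [Fintype ν] {ch : Ch ι J} {F : Fam S Λ R J K} {e : K → ι → ℕ} {K₀ ℓ d}
    {S₀ O M : Set (ch.WF ν κ Λ)} (h : Ch.Vd F e S₀ O M d) (hs : ch.Std F e K₀ ℓ) :
    Ch.OZ F.toWt (ch.solF ν κ F ∩ S₀) := by
  obtain ⟨k, i, h1, -⟩ := h.exists_isKP hs
  obtain ⟨C, h2, h3⟩ := isClosed_induced_iff.1 k.isClosed_Zs
  have := h.dom.isAct
  have a := h.dom.isActZ h1
  refine ⟨hs.cuts, fun _ b => b.1.1.2.1, a, orb_mono h.dom.orb h.dom.sub ?_⟩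
  rw [show ch.solF ν κ F ∩ S₀ = O ∩ C from Set.ext fun x => ⟨fun hx => ⟨h.dom.sub hx,
    h3.ge ((h.dom.mem_Zs h1 (t := ⟨x, h.dom.sub hx⟩)).2 hx)⟩,
      fun hx => (h.dom.mem_Zs h1 (t := ⟨x, hx.1⟩)).1 (h3.le hx.2)⟩]
  exact h.cyc.lc.inter h2.isLocallyClosed

namespace Fam

theorem cor_fs0 (F : Fam S Λ R J K) (k : ℕ) (A β d j) {a : ℕ} (w : Fin a → ℕ × H (F.X A)) :
    F.cor k (F.exK A β) 0 A A d j (.ofFn w) [] [] =
      F.inv (κ := Fin 0) k (j + 1) d (fun n => (0 : Fin a ⊕ Fin 0 → ℕ) n • 0)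
        ((F.exK A β).P _ _) (F.fs0 A w) := by
  refine (F.cor_ofFn k _ 0 A A d j w (b := 0) (c := 0) Fin.elim0 Fin.elim0).trans ?_
  unfold corF
  congr 1
  · exact sub_zero _
  · simp [Wt.fsC, Wt.fs0, Wt.exK]

omit [DecidableEq R] in
theorem ok_fs1 (F : Fam S Λ R J K) {A : Set _} (hA : F.cone ⊆ A) {a : ℕ}
    (w : Fin a → ℕ × H (F.X A)) (u : Fin a ⊕ ν₀ → J → ℕ) :
    ∀ f ∈ (F.fs0 A w : List (Fac _ _ κ)), f.Ok F u := by
  simp only [List.mem_cons, Wt.fs0, List.mem_flatten, List.mem_ofFn]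
  rintro _ (rfl | rfl | ⟨_, ⟨i, rfl⟩, e⟩)
  · trivial
  · exact subset_univ _
  · rcases List.mem_append.1 e with e | e
    · rw [List.eq_of_mem_replicate e]; trivial
    · rw [List.mem_singleton.1 e]; exact fun _ a => hA a.1

theorem Tg.cor_k (hP : St.Pres) {F : Fam Empty Empty R J K} (h : F.Tg) {k k' : ℕ} (hk : F.Big k)
    (hk' : F.Big k') (β d j l) : F.cor k' (F.exK F.cone β) 0 _ F.cone d j l [] [] =
      F.cor k (F.exK F.cone β) 0 F.cone F.cone d j l [] [] := by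
  have h1 : ∀ d : R → ℤ, (fun r' => ∑ r, (if r' = r then 1 else 0) * d r) = d := fun d => by simp
  have h2 : evσ (Λ := Empty) (fun j : J => MvPolynomial.map C (X j)) = id :=
    funext fun z => Prod.ext rfl (funext fun j => by simp [evσ, evz])
  have hp : F.Pres F id (Empty.elim : Empty → J) (fun r' r => if r' = r then 1 else 0)
      fun j => MvPolynomial.map C (X j) :=
    h.pl.pres h.pl injective_id (fun _ => rfl) nofun (fun j α a r => by
      classical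
      rw [support_X, Finset.mem_singleton] at a
      simp [a, Finsupp.single_apply]) (fun d a => (h1 d).symm.trans (funext a))
      (fun d _ => ⟨d, (h1 d).symm⟩) (fun _ => ⟨0, nofun⟩) fun z => by
      simp only [eval_X]
      refine ⟨fun a => ⟨1, isUnit_one, z, a, (congrArg Prod.snd (F.actT_one z)).symm⟩,
        fun ⟨t, a, y, b, c⟩ => ?_⟩
      rw [show z = F.actT (1, t) y from Prod.ext (Subsingleton.elim _ _) c]
      exact h.cone_act (Prod.isUnit_iff.2 ⟨isUnit_one, a⟩) b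
  have h3 := (hP F F id _ _ _ k k' (F.exK F.cone β).P (F.exK F.cone β).P 1 hp h.movc
    (.of_abs h.movc _) h.nice h.nice F.cp_empty hk hk' (h.exOk_exK β) (by rw [map_one]; exact h.exOk_exK β)
    (fun _ _ m _ => and_congr_right fun _ => Eq.congr_left (congrArg
      (fun y => (⟨m.toAC, _, m.l, y⟩ : AM _ _ _ _ _).cls F.toWt F.cone)
      (funext₂ fun j z => (congrFun (congrArg Prod.snd (congrFun h2 (m.vl z))) j).symm)))
    subset_rfl j l []).1 d
  rw [map_one, h1, h2, show F.pb F.toWt id F.cone = id from funext fun c =>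
    (Wt.pb_id subset_rfl c).trans (Wt.rs_self _ c), Prod.map_id, List.map_id] at h3
  exact h3

end Fam

namespace Tgt

variable {T : Tgt R J K} {χ : K → R → ℤ} (h : (T.fam χ).Tg) {k : ℕ} (hk : (T.fam χ).Big k)
  (hW : St.Well)
include h hk hW

theorem gw_chart (g : ℤ) (d : R → ℤ) (β : BM T.X) {a n : ℕ}
    (hn : Fintype.card (Ch.Mk (Fin a ⊕ Fin 0) (Fin 0)) = n) (m : Fin a → ℕ) (w : Fin a → Zs T.X) :
    ∀ᶠ D in atTop, ∀ z, (∃ v, (T.chart g n d k D).IsVir (Fin a) T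
        (fun q o => (T.F q).totalDegree * ∑ j, (T.chart g n d k D).b j o) v ∧
      z = ev v (ind {y | IsConnected (Ch.crv (Quo.out y).1) ∧ Ch.HasClass (Quo.out y) β} *
        (List.ofFn fun i => Ch.psi i ^ m i * pull (Ch.evl i) (w i).1).prod)) ↔
      z = (T.fam χ).cor k ((T.fam χ).exK _ (T.xiB χ β)) 0 _ (T.fam χ).cone d (g - 1)
        (.ofFn fun i => (m i, T.xiH χ (H.mk (w i)))) [] [] := by
  subst hn
  rw [Fam.cor_fs0, sub_add_cancel]
  obtain ⟨K₀, b, -, -, h1⟩ := h.nice.vd (Fin 0) hk g d (0 : Fin a ⊕ Fin 0 → ℕ)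
  have h2 := (h.exOk_exK (k := k) (T.xiB χ β)).sel _ (Fin 0) g d
    fun n => (0 : Fin a ⊕ Fin 0 → ℕ) n • 0
  filter_upwards [h1, h2.2, hW _ 0 k g d 0 _ ((T.fam χ).fs0 _ fun i => (m i, T.xiH χ (H.mk (w i))))
    h.nice (Fam.cp_empty _) hk h2 (Fam.ok_fs1 _ subset_rfl _ _) isEmptyElim] with D ⟨hD, U, N, c1, c2⟩ c3 c4 z
  have := Cpt.compactSpace_mod (ν := Fin a ⊕ Fin 0) (κ := Fin 0) (g := g) (d := d) h.toGood hk hD rfl
    (T := univ) (by rw [← h.B, h.B_eq]; exact isCompact_singleton) h.B.ge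
    (fun _ _ => ⟨1, isUnit_one, trivial⟩) fun n => (0 : Fin a ⊕ Fin 0 → ℕ) n • 0
  rw [c4]
  refine (Iff.of_eq ?_).trans (Ch.gw_iff h.toGood c1.lat c1.fits (c2.oz c1.toStd) β c3
    ⟨_, (c2.isVirF_iff c1.toStd).2 rfl, fun _ => (c2.isVirF_iff c1.toStd).1⟩ m w z)
  exact congrArg (fun e => ∃ v, Ch.IsVir _ _ T e v ∧ z = ev v _) (funext₂ fun q o =>
    congrArg (Finset.sup · _ * _) (support_map_of_injective _ (C_injective _ _)).symm)

/-- **the invariants are the correlators** -/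
theorem gwC_eq (hP : St.Pres) (g : ℤ) (β : BM T.X) {a : ℕ} (m : Fin a → ℕ) (w : Fin a → Zs T.X) :
    T.gwC g β a (fun i => (m i, (w i).1)) = ∑ᶠ d, (T.fam χ).cor k ((T.fam χ).exK _ (T.xiB χ β)) 0 _
      (T.fam χ).cone d (g - 1) (.ofFn fun i => (m i, T.xiH χ (H.mk (w i)))) [] [] := by
  have a : ∀ {p : ℕ → ℕ → ℂ → Prop} {c}, (∀ᶠ k in atTop, ∀ᶠ D in atTop, ∀ z, p k D z ↔ z = c) →
      (Classical.epsilon fun z => ∀ᶠ k in atTop, ∀ᶠ D in atTop, p k D z) = c := fun {p c} e => by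
    obtain ⟨_, b, f⟩ := ((Classical.epsilon_spec (p := fun z => ∀ᶠ k in atTop, ∀ᶠ D in atTop, p k D z)
      ⟨c, e.mono fun _ b => b.mono fun _ f => (f _).2 rfl⟩).and e).exists
    obtain ⟨_, b, f⟩ := (b.and f).exists
    exact (f _).1 b
  exact finsum_congr fun d => a ((eventually_ge_atTop k).mono fun k' b =>
    (gw_chart h (hk.mono b) hW g d β (by simp [Ch.Mk]) m w).mono fun D c z =>
      (c z).trans (h.cor_k hP hk (hk.mono b) ..).congr_right)

end Tgt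

theorem St.gw (hW : St.Well) (hP : St.Pres) : St.GW := fun T χ k h hk g β l => by
  refine (Tgt.gwC_eq h hk hW hP g β (fun i => (l.get i).1)
    fun i => ⟨rep (l.get i).2, DgI.rep_cocycle _⟩).trans ?_
  simp only [← hcls_val, DgI.hcls_rep]
  exact congrArg (fun l => ∑ᶠ d, Fam.cor _ k _ 0 _ _ d _ l [] [])
    ((congrArg (List.map (Prod.map id (T.xiH χ))) (List.ofFn_get l).symm).trans List.map_ofFn).symm

theorem St.gwc (hW : St.Well) (hP : St.Pres) : St.GWC := fun T χ k h hk g β n m a a' e => by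
  rw [Tgt.gwC_eq h hk hW hP, Tgt.gwC_eq h hk hW hP]
  simp only [e]

end Vale.Agent.P269
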