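import Vale.Agent.P269.Coh.Ad

/-!
# A grading which is diagonal in a basis is admissible
-/

namespace Vale.Agent.P269.Br.HgA

open P291Z Function Module Finset Coh Mono

section lin

variable {H : Type} [AddCommGroup H] [Module ℂ H]

/-- The eigenvalues do not depend on the basis of eigenvectors. -/
theorem eig_eq {ι κ : Type} [Fintype ι] [Fintype κ] (b : Basis ι ℂ H) (b' : Basis κ ℂ H)
    {ν : End ℂ H} {c : ι → ℂ} {c' : κ → ℂ} (h : ∀ i, ν (b i) = c i • b i)
    (h' : ∀ i, ν (b' i) = c' i • b' i) : univ.val.map c = univ.val.map c' := by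
  classical
  have := b.finiteDimensional_of_finite
  have key : ∀ {ι : Type} [Fintype ι] (b : Basis ι ℂ H) (c : ι → ℂ), (∀ i, ν (b i) = c i • b i) →
      ν.charpoly.roots = univ.val.map c := fun b c h => by
    have : LinearMap.toMatrix b b ν = Matrix.diagonal c := by
      ext i j
      rw [LinearMap.toMatrix_apply, h, map_smul, b.repr_self, Matrix.diagonal_apply,
        Finsupp.smul_apply, Finsupp.single_apply]
      split_ifs with h1 h2 h2 <;> simp_all
    rw [← ν.charpoly_toMatrix b, this, Matrix.charpoly_diagonal,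
      ← Polynomial.roots_multiset_prod_X_sub_C (univ.val.map c), Multiset.map_map]
    rfl
  rw [← key b c h, key b' c' h']

/-- A basis of eigenvectors of a direct summand which contains the image. -/
theorem exists_basis {B : Type} [Fintype B] (φ : Basis B ℂ H) {ν : End ℂ H} {c : B → ℝ}
    (h : ∀ a, ν (φ a) = (c a : ℂ) • φ a) {A V : Submodule ℂ H} (hc : IsCompl V A)
    (hA : ∀ x ∈ A, ν x = 0) (hV : ∀ x, ν x ∈ V) :
    ∃ (e : Basis (Fin (finrank ℂ V)) ℂ V) (a : Fin (finrank ℂ V) → ℝ),
      (∀ b, ν (e b) = (a b : ℂ) • (e b : H)) ∧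
      univ.val.map c = univ.val.map a + Multiset.replicate (finrank ℂ A) 0 := by
  have := φ.finiteDimensional_of_finite
  let P := V.projectionOnto A hc
  obtain ⟨T, h1, h2, h3⟩ := exists_linearIndependent ℂ (Set.range fun a => P (φ a))
  let b₀ : Basis T ℂ V := Basis.mk h3 (by
    rw [Subtype.range_coe, h2, Set.range_comp' P, ← Submodule.map_span, φ.span_eq,
      Submodule.map_top, Submodule.range_projectionOnto hc])
  let e := b₀.reindex (b₀.indexEquiv (finBasis ℂ V))
  have h4 : ∀ b, ∃ a, P (φ a) = e b := fun b => h1 (by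
    rw [Basis.reindex_apply, Basis.mk_apply]
    exact Subtype.prop _)
  choose s hs using h4
  have h5 : ∀ x, ν (P x) = ν x := fun x =>
    (sub_eq_zero.1 ((map_sub ν _ _).symm.trans (hA _ (Submodule.sub_projection_mem hc x)))).symm
  have h6 : ∀ b, ν (e b) = (c (s b) : ℂ) • (e b : H) := fun b => by
    rw [← hs, h5, ← Submodule.coe_smul, ← map_smul, ← h]
    exact (congrArg Subtype.val (Submodule.projectionOnto_apply_left hc ⟨_, hV _⟩)).symm
  refine ⟨e, fun b => c (s b), h6, Multiset.map_injective Complex.ofReal_injective ?_⟩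
  have h7 := eig_eq φ ((e.prod (finBasis ℂ A)).map (V.prodEquivOfIsCompl A hc)) h
    (c' := Sum.elim (fun b => (c (s b) : ℂ)) 0) (by
      rintro (b | b)
      · simpa [Basis.prod_apply] using h6 b
      · simpa [Basis.prod_apply] using hA _ (finBasis ℂ A b).2)
  rw [Multiset.map_map, Multiset.map_add, Multiset.map_map, Multiset.map_replicate]
  refine h7.trans ?_
  rw [← univ_disjSum_univ, val_disjSum, Multiset.map_disjSum]
  simp

/-- The frame of a basis. -/
theorem exists_frame [FiniteDimensional ℂ H] {η : H →ₗ[ℂ] H →ₗ[ℂ] ℂ} {V : Submodule ℂ H} {ε : ℂ}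
    (h : Inv.IsForm η V ε) {κ : Type} [Fintype κ] (e : Basis κ ℂ V) :
    ∃ f : κ → H, Inv.Frame η V (fun b => e b) f ∧ ∀ b, η (e b) (f b) = 1 := by
  let B' : LinearMap.BilinForm ℂ V := (LinearMap.BilinForm.restrict η V).flip
  have hi : Injective B' := (injective_iff_map_eq_zero _).2 fun x hx =>
    Subtype.ext (h.nondeg x x.2 fun v hv => LinearMap.congr_fun hx ⟨v, hv⟩)
  choose f hf using fun a => (LinearMap.injective_iff_surjective_of_finrank_eq_finrank
    Subspace.dual_finrank_eq.symm).1 hi (e.coord a)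
  have h1 : ∀ a (x : V), η x (f a) = e.repr x a := fun a x => LinearMap.congr_fun (hf a) x
  refine ⟨fun a => f a, ⟨fun a => Subtype.prop _, fun a => Subtype.prop _, fun x hx => ?_⟩,
    fun b => by simp [h1]⟩
  simpa [← h1] using congrArg Subtype.val (e.sum_repr ⟨x, hx⟩)

end lin

variable {Y : PS} {h : H Y.X} {B : Type} [Fintype B] (φ : Basis B ℂ (H Y.X)) (p q : B → ℕ)

/-- The operator `(p - q) / 2`. -/
noncomputable def nu : End ℂ (H Y.X) := φ.constr ℂ fun a => (((p a - q a) / 2 : ℝ) : ℂ) • φ a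

omit [Fintype B] in
theorem nu_apply (a : B) : nu φ p q (φ a) = (((p a - q a) / 2 : ℝ) : ℂ) • φ a := φ.constr_basis ℂ _ a

variable {φ p q}

theorem ad (L : Lf Y h) {n : ℕ} (hn : (n : ℤ) = Y.n) {l : Multiset ℝ}
    (hJ : ∀ a b, Y.J (φ a * φ b) ≠ 0 → p a + p b = n ∧ q a + q b = n)
    (hp : ∀ m b, φ.repr (h ^ m) b ≠ 0 → p b = q b) (ht : ∀ a, p a + q a ≠ n → p a = q a)
    (hl : (univ.filter fun a => p a + q a = n).val.map (fun a => (p a : ℝ) - n / 2) =
      l + if Even n then {0} else 0)
    (hc : finrank ℂ (H.deg Y.X n) = (if Even n then 1 else 0) + l.card) : Ad Y h l (nu φ p q) := by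
  have h1 : ∀ x y, bil Y.J (nu φ p q x) y + bil Y.J x (nu φ p q y) = 0 :=
    LinearMap.congr_fun₂ (f := bil Y.J ∘ₗ nu φ p q + (bil Y.J).compl₂ (nu φ p q)) (g := 0)
      (φ.ext fun a => φ.ext fun b => by
        change bil Y.J (nu φ p q (φ a)) (φ b) + bil Y.J (φ a) (nu φ p q (φ b)) = 0
        rw [nu_apply, nu_apply, map_smul, map_smul, LinearMap.smul_apply, ← add_smul, bil_apply,
          smul_eq_zero, or_iff_not_imp_right, ← Complex.ofReal_add, Complex.ofReal_eq_zero]
        intro h0
        have h2 : (p a + p b : ℝ) = n := by exact_mod_cast (hJ a b h0).1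
        have h3 : (q a + q b : ℝ) = n := by exact_mod_cast (hJ a b h0).2
        linarith)
  have h2 : ∀ m, nu φ p q (h ^ m) = 0 := fun m => by
    rw [← φ.sum_repr (h ^ m), map_sum]
    refine sum_eq_zero fun b _ => ?_
    by_cases h0 : φ.repr (h ^ m) b = 0
    · rw [h0, zero_smul, map_zero]
    · simp [nu_apply, hp m b h0]
  have h3 : ∀ x, nu φ p q x ∈ van h Y.J := fun x => mem_van.2 fun j => by
    simpa [h2, bil_apply] using h1 (h ^ j) x
  obtain ⟨e, a, h4, h5⟩ := exists_basis φ (nu_apply φ p q) L.isCompl.symm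
    (fun x hx => (Submodule.span_le (p := LinearMap.ker (nu φ p q))).2
      (by rintro _ ⟨j, rfl⟩; exact h2 j) hx) h3
  obtain ⟨f, h6, h7⟩ := exists_frame (L.isForm (ε := (-1) ^ n) (by rw [← mul_pow]; simp)
    fun m hm => by rw [Nat.cast_injective (hm.trans hn.symm)]) e
  refine ⟨⟨h3, fun x v _ => h1 x v⟩, _, _, f, a, h6, h7, h4, ?_⟩
  have h8 : univ.val.map (fun a => ((p a - q a) / 2 : ℝ)) = l + Multiset.replicate
      ((if Even n then 1 else 0) + #(univ.filter fun a => ¬p a + q a = n)) 0 := by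
    rw [← Multiset.filter_add_not (fun a => p a + q a = n) univ.val, Multiset.map_add,
      Multiset.replicate_add, ← add_assoc]
    congr 1
    · refine (Multiset.map_congr rfl fun a ha => ?_).trans (hl.trans (by split_ifs <;> rfl))
      rw [← (Multiset.mem_filter.1 ha).2]
      push_cast
      ring
    · refine Multiset.eq_replicate.2 ⟨Multiset.card_map _ _, fun x hx => ?_⟩
      obtain ⟨a, ha, rfl⟩ := Multiset.mem_map.1 hx
      simp [ht a (Multiset.mem_filter.1 ha).2]
  have h9 := congrArg Multiset.card (h5.symm.trans h8)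
  rw [L.finrank_van hn, add_right_inj] at hc
  simp only [Multiset.card_add, Multiset.card_map, Multiset.card_replicate, card_val, card_univ,
    Fintype.card_fin, hc, add_right_inj] at h9
  rw [h8, h9] at h5
  exact (add_right_cancel h5).symm

end Vale.Agent.P269.Br.HgA
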