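import Vale.Agent.P269.Prj.TgtM
import Vale.Agent.P269.Asm.Ci
import Vale.Agent.P269.Coh.PA1

/-!
# The degree of a complete intersection; Poincare duality
-/

set_option linter.unusedSectionVars false
set_option linter.style.haveILetI false

namespace Vale.Agent.P269.Br.HgB

open P291Z P291Z.Fl Set Function Topology Filter Holo Mono Tq Coh MvPolynomial

section top

variable {X : Type} [TopologicalSpace X] [P291Z.Nice X] [CompactSpace X] {β : BM X}

theorem intg_toH (β : BM X) (a : Hc X) : Loc.intg β (toH a) = β a :=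
  congrArg β (toH_bijective.1 (by
    rw [toH_act, toH_cls Loc.one_mem_Zc, hcls_one, one_mul]))

theorem pd_intg {n : ℤ} (h : Orb.Ori (2 * n) β) : PD X n (Loc.intg β) :=
  ⟨fun _ hk _ hx => Loc.intg_deg h.deg hx hk, fun x hx => h.pd_bijective.1 (by
    rw [map_zero]
    exact LinearMap.ext fun a => (intg_toH _ a).symm.trans
      ((Loc.intg_cap β _ x).trans (hx _))),
    Basis.linearEquiv_dual_iff_finiteDimensional.1 ⟨(LinearEquiv.ofBijective _ h.pd_bijective).trans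
      (LinearEquiv.ofBijective (toH : Hc X →ₗ[ℂ] H X) toH_bijective).symm.dualMap⟩⟩

theorem intg_one_ne (h : Orb.Ori 0 β) (x : X) (hx : ∀ y, y = x) : Loc.intg β 1 ≠ 0 := by
  obtain ⟨a, h1, h2⟩ := h.gen x
  rw [h1.deg.eq_fn, funext fun y => congrArg (fun y => a.1 [y]) (hx y), fn_const,
    Orb.ev_smul _ _ Loc.one_mem_Zc] at h2
  rw [← hcls_one, Loc.intg_hcls _ cocycle_one]
  exact right_ne_zero_of_mul h2

end top

theorem tan_open {W : Type} [NormedAddCommGroup W] [NormedSpace ℂ W] {A : Set W} (h : IsOpen A)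
    (x : A) (v : W) : v ∈ tan (Subtype.val : A → W) x := fun Φ _ h2 => by
  have h3 : Φ =ᶠ[𝓝 x.1] fun _ => 0 := by
    rw [← h.isOpenEmbedding_subtypeVal.map_nhds_eq]
    exact h2
  rw [h3.fderiv_eq]
  simp

variable {J K : Type} [Fintype J] [Fintype K] {T : Wt Empty Empty Unit J}
  {A Z : Set ((Empty → ℂ) × (J → ℂ))} [FP T.actT A] {n : ℕ}

theorem lce_eq (ψ : Empty → ℤ) (χ : Unit → ℤ) : T.lce A (ψ, χ) = χ () • T.lce A (0, 1) := by
  rw [← map_zsmul]
  exact congrArg _ (Prod.ext (Subsingleton.elim _ _) (funext fun _ => (mul_one _).symm))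

theorem lc_eq (ψ : Empty → ℤ) (χ : Unit → ℤ) : T.lc A ψ χ = (χ () : ℂ) • T.lc A 0 1 := by
  rw [← Wt.lce_val, ← Wt.lce_val, lce_eq, Int.cast_smul_eq_zsmul]
  rfl

/-- transverse zero sets in an open cone -/
theorem cut [FP T.actT Z] [CompactSpace (T.X A)] [CompactSpace (T.X Z)] {ψ : K → Empty → ℤ}
    {χ : K → Unit → ℤ} {s : _ → K → ℂ} (h : Sec T.actT A (fun i => chT (ψ i) (χ i)) s)
    (ho : IsOpen A) (hd : Dim T.actT A (n + Fintype.card K)) (hZ : ∀ x, x ∈ Z ↔ x ∈ A ∧ s x = 0)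
    (ha : ∀ x, AnalyticAt ℂ s x) (ht : ∀ x ∈ Z, ∀ w, ∃ η : J → ℂ,
      HasDerivAt (fun ε : ℂ => s (x.1, fun j => x.2 j + ε * η j)) w 0) :
    Dim T.actT Z n ∧ T.intX Z (T.lc Z 0 1 ^ n) =
      (∏ i, (χ i () : ℂ)) * T.intX A (T.lc A 0 1 ^ (n + Fintype.card K)) := by
  have e : Z ⊆ A := fun x hx => ((hZ x).1 hx).1
  obtain ⟨h1, -, h2⟩ := h.gys hd T.lin_actT hZ (fun x _ => ha x) (fun x hx hz w => by
    obtain ⟨η, hη⟩ := ht x hz w
    refine ⟨_, tan_open ho _ _, HasDerivAt.unique (HasFDerivAt.comp_hasDerivAt_of_eq 0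
      (ha x).differentiableAt.hasFDerivAt (Fam.an_line x η).differentiableAt.hasDerivAt
      (by simp)) hη⟩) e
  refine ⟨h1, ?_⟩
  haveI : P291Z.Nice (Quo T.actT A) := inferInstanceAs (P291Z.Nice (sp T.actT A).X)
  haveI : P291Z.Nice (Quo T.actT Z) := inferInstanceAs (P291Z.Nice (sp T.actT Z).X)
  have h3 : ∏ i, lce T.actT A (h.hm i) = (∏ i, χ i ()) • T.lce A (0, 1) ^ Fintype.card K := by
    rw [← Finset.card_univ, ← Finset.prod_const, ← Finset.prod_smul]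
    exact Finset.prod_congr rfl fun i _ => lce_eq _ _
  rw [Wt.intX_eq, Wt.intX_eq, ← Wt.rs_lc e, ← map_pow, Wt.rs_eq, ← Loc.intg_push, h2, Loc.intg_cap,
    h3, ← Int.cast_smul_eq_zsmul ℂ, Subalgebra.coe_smul, Subalgebra.coe_pow, Wt.lce_val,
    mul_smul_comm, ← pow_add, map_smul, Int.cast_prod, smul_eq_mul]

variable (J) in
/-- Projective space. -/
noncomputable abbrev PJ : Fam Empty Empty Unit J (Fin 0) := ciF Fin.elim0 Fin.elim0

theorem sm_PJ : SmCI (Fin.elim0 : Fin 0 → MvPolynomial J ℂ) Fin.elim0 :=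
  ⟨fun k => k.elim0, fun k => k.elim0, fun k => k.elim0, fun _ _ => linearIndependent_empty_type⟩

theorem mem_PJ {z} : z ∈ (PJ J).cone ↔ z.2 ≠ 0 :=
  mem_ciF.trans ⟨fun h => h.1, fun h => ⟨h, fun k => k.elim0⟩⟩

theorem open_PJ : IsOpen (PJ J).cone := by
  rw [show (PJ J).cone = Prod.snd ⁻¹' {0}ᶜ from Set.ext fun _ => mem_PJ]
  exact isOpen_compl_singleton.preimage continuous_snd

theorem dim_PJ (h : n + 1 = Fintype.card J) : Dim (PJ J).actT (PJ J).cone n := by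
  haveI : Nonempty J := Fintype.card_pos_iff.1 (by omega)
  simpa [← h] using (sm_PJ (J := J)).tg.dim

theorem intX_PJ (h : n + 1 = Fintype.card J) : (PJ J).intX (PJ J).cone ((PJ J).lc _ 0 1 ^ n) ≠ 0 := by
  classical
  obtain ⟨j⟩ : Nonempty J := Fintype.card_pos_iff.1 (by omega)
  haveI : Nonempty J := ⟨j⟩
  have hg := (sm_PJ (J := J)).good
  haveI := hg.fp
  haveI := (sm_PJ (J := J)).tg.compact
  have hi : ∀ t, IsUnit t → ∀ z ∈ (PJ J).cone ∩ {z | ∀ i ∈ ({j}ᶜ : Set J), z.2 i = 0},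
      (PJ J).actT t z ∈ (PJ J).cone ∩ {z | ∀ i ∈ ({j}ᶜ : Set J), z.2 i = 0} := fun t ht z hz =>
    ⟨hg.cone_act ht hz.1, fun i hi => by rw [Wt.actT_snd, hz.2 i hi, mul_zero]⟩
  haveI := hg.fp_of inter_subset_left hi (hg.lc_cone.inter (Fam.isClosed_fld _).isLocallyClosed)
  haveI := hg.compact_of (Fam.cp_empty _) rfl (Fam.isClosed_fld _) hi
  have hn : n = 0 + Fintype.card {i // i ≠ j} := by simp [← h]
  obtain ⟨h1, h2⟩ := cut (T := (PJ J).toWt) (n := 0)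
    (Z := (PJ J).cone ∩ {z | ∀ i ∈ ({j}ᶜ : Set J), z.2 i = 0})
    (Wt.sec_fld (Subtype.val : {i // i ≠ j} → J)) open_PJ (hn ▸ dim_PJ h)
    (fun x => and_congr_right fun _ => ⟨fun k => funext fun i => k i i.2,
      fun k i hi => congrFun k ⟨i, hi⟩⟩)
    (fun x => analyticAt_pi_iff.2 fun i => analyticAt_pi_iff.1 analyticAt_snd i.1)
    fun x _ w => ⟨fun i => if e : i ≠ j then w ⟨i, e⟩ else 0, hasDerivAt_pi.2 fun i => by
      simpa [i.2] using ((hasDerivAt_id' (0 : ℂ)).mul_const (w i)).const_add (x.2 i)⟩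
  rw [← hn, pow_zero, Wt.intX_eq] at h2
  haveI : P291Z.Nice (Quo (PJ J).actT ((PJ J).cone ∩ {z | ∀ i ∈ ({j}ᶜ : Set J), z.2 i = 0})) :=
    inferInstanceAs (P291Z.Nice (sp _ _).X)
  have h3 : ((0, Pi.single j 1) : (Empty → ℂ) × (J → ℂ)) ∈
      (PJ J).cone ∩ {z | ∀ i ∈ ({j}ᶜ : Set J), z.2 i = 0} :=
    ⟨mem_PJ.2 (by simp), fun i hi => Pi.single_eq_of_ne hi _⟩
  refine right_ne_zero_of_mul (h2 ▸ intg_one_ne (by simpa using h1.ori) (Quo.mk _ ⟨_, h3⟩) fun y => ?_)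
  obtain ⟨⟨y, hy⟩, rfl⟩ := mk_surj y
  have h4 : y.2 = y.2 j • Pi.single j 1 := funext fun i => by
    by_cases e : i = j
    · simp [e]
    · simp [e, hy.2 i e]
  refine (Quot.sound ⟨(1, fun _ => y.2 j), isUnit_T.2 ⟨fun _ => one_ne_zero, fun _ e => ?_⟩,
    Prod.ext (Subsingleton.elim _ _) (h4.trans (ciF_act (1, fun _ => y.2 j) (0, _)).symm)⟩).symm
  exact mem_PJ.1 hy.1 (by rw [h4, show y.2 j = 0 from e, zero_smul])

variable {F : K → MvPolynomial J ℂ} {d : K → ℕ}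

theorem cone_sub : (ciF F d).cone ⊆ (PJ J).cone := fun _ hz => mem_PJ.2 (mem_ciF.1 hz).1

/-- **The degree does not vanish.** -/
theorem intX_pow (h : SmCI F d) (hn : n + Fintype.card K + 1 = Fintype.card J) :
    (ciF F d).intX (ciF F d).cone ((ciF F d).lc _ 0 1 ^ n) ≠ 0 := by
  haveI : Nonempty J := Fintype.card_pos_iff.1 (by omega)
  haveI : FP (ciF F d).actT (PJ J).cone := (sm_PJ (J := J)).good.fp
  haveI : CompactSpace ((ciF F d).X (PJ J).cone) := (sm_PJ (J := J)).tg.compact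
  haveI := h.good.fp
  haveI := h.tg.compact
  rw [(cut (T := (ciF F d).toWt) (h.good.sec_eqn (PJ J).cone id) open_PJ (dim_PJ hn)
    (fun x => ?_) (fun x => analyticAt_pi_iff.2 fun k => Fam.an_eqn _ x) fun x hx w => ?_).2]
  · exact mul_ne_zero (Finset.prod_ne_zero_iff.2 fun k _ => Int.cast_ne_zero.2
      (Int.natCast_ne_zero.2 (Nat.one_le_iff_ne_zero.1 (h.pos k)))) (intX_PJ hn)
  · rw [mem_PJ]
    simp only [mem_ciF, mem_ciK, funext_iff, Fam.eqn, ciF_fib, id, Pi.zero_apply]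
  · obtain ⟨η, -, h2⟩ := h.tg.reg.ind x hx w
    exact ⟨η, hasDerivAt_pi.2 fun k =>
      (Vir.hasDerivAt_eval (((ciF F d).fib x.1).F k) x.2 η).congr_deriv (h2 k trivial)⟩

end Vale.Agent.P269.Br.HgB
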