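import Vale.Agent.P269.Br.Iface
import Vale.Agent.P269.Br.HgA
import Vale.Agent.P269.Br.HgB
import Vale.Agent.P269.Hdg.Bridge
import Vale.Agent.P269.Hdg.PrimGeo

/-!
# The Hodge grading of a complete intersection is admissible
-/

set_option linter.unusedSectionVars false
set_option linter.style.haveILetI false

namespace Vale.Agent.P269

open P291Z Set Function Topology Filter Mono Tq Coh MvPolynomial Module

namespace Br.Hg

open HgA HgB Hdg

variable {N c : ℕ} {d : Fin c → ℕ} {F : Fin c → MvPolynomial (Fin (N + 1)) ℂ}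

variable (F d) in
/-- The projection from the cone. -/
noncomputable def prj (y : cone F) : (ciF F d).X (ciF F d).cone :=
  ((ci F).xi fun k _ => d k).symm (piC F y)

theorem isProj_prj : IsProj (prj d F) :=
  ⟨((ci F).xi fun k _ => d k).symm.isQuotientMap.comp (isProj_ci F).quot, fun x y =>
    ((ci F).xi fun k _ => d k).symm.injective.eq_iff.trans ((isProj_ci F).fib x y)⟩

theorem isHodge_map {X Y : Type} [TopologicalSpace X] [TopologicalSpace Y] {π : cone F → X}
    (f : C(X, Y)) {π' : cone F → Y} (e : ∀ y, f (π y) = π' y) {p q : ℕ} {a : H Y}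
    (h : IsHodge F π' p q a) : IsHodge F π p q (H.map f a) := by
  obtain ⟨a, h1, rfl, h2⟩ := h
  refine ⟨Zs.map f a, h1.pull _, rfl, fun x => (h2 x).imp fun g h3 =>
    ⟨h3.1, h3.2.1.mono fun y hy => Eq.trans (congrArg a.1.1 ?_) hy, h3.2.2⟩⟩
  rw [List.map_ofFn]
  exact congrArg _ (funext fun _ => e _)

theorem isHodge_prj {p q : ℕ} {a : H (ci F).X} (h : (ci F).IsHodge p q a) :
    IsHodge F (prj d F) p q (ciH F d a) :=
  isHodge_map _ (fun _ => ((ci F).xi fun k _ => d k).apply_symm_apply _) (isHodge_ci.1 h)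

theorem ciH_bij : Bijective (ciH F d) :=
  H.map_bijective_of_homeomorph ((ci F).xi fun k _ => d k)

variable (h : SmCI F d)
include h

theorem dim : Dim (ciF F d).actT (ciF F d).cone (N - c) := by
  simpa [Nat.sub_right_comm _ c] using h.tg.dim

/-- The complete intersection as a space with Poincare duality. -/
@[reducible] noncomputable def ps : PS where
  X := (ciF F d).X (ciF F d).cone
  n := (N - c : ℕ)
  J := Loc.intg (fnd (ciF F d).actT (ciF F d).cone)
  pd :=
    haveI := h.good.fp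
    haveI := h.good.nice
    haveI := h.tg.compact
    pd_intg (dim h).ori

theorem isCI : IsCI F d := ⟨h.hom, h.pos, h.li⟩

theorem is11 : Is11 (isCI h) isProj_prj ((ciF F d).lc (ciF F d).cone 0 1) := by
  haveI : FP (ciF F d).actT (PJ _).cone := sm_PJ.good.fp
  haveI := h.good.fp
  rw [← Wt.rs_lc cone_sub]
  exact is11_of_amb (isCI h) isProj_prj (isProj_prj (F := Fin.elim0) (d := Fin.elim0))
    (qinc (ciF F d).actT cone_sub) (fun _ => rfl) (Wt.lc_deg _ _)

theorem card_eq (hne : (ci F).cone.Nonempty) : N - c + Fintype.card (Fin c) = N := by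
  have := h.tg.card_le (hne.elim fun x hx => ⟨(0, x), mem_ciF.2 hx⟩)
  simp only [Fintype.card_unique, Fintype.card_fin] at this ⊢
  omega

/-- **The Lefschetz theorem.** -/
theorem lf (hne : (ci F).cone.Nonempty) : Lf (ps h) ((ciF F d).lc (ciF F d).cone 0 1) := by
  haveI := h.good.fp
  haveI := h.tg.compact
  have hn := card_eq h hne
  have h1 := intX_pow h (n := N - c) (by rw [hn, Fintype.card_fin])
  rw [Wt.intX_eq] at h1
  refine ⟨Wt.lc_deg _ _, fun k hk x hx => ?_, fun m hm => Nat.cast_injective hm ▸ h1⟩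
  rcases Int.even_or_odd k with ⟨j, rfl⟩ | e
  swap
  · exact deg_odd (isCI h) isProj_prj hn hk e hx ▸ zero_mem _
  by_cases h2 : j < 0
  · exact hx.eq_zero (by omega) ▸ zero_mem _
  by_cases h3 : ((N - c : ℕ) : ℤ) < j
  · exact deg_big (isCI h) isProj_prj hn (by omega) hx ▸ zero_mem _
  lift j to ℕ using by omega
  obtain ⟨t, rfl⟩ := deg_smul (isCI h) isProj_prj hn hk
    (two_mul (j : ℤ) ▸ isDeg_pow (Wt.lc_deg 0 1) j) (fun e => h1 (by
      rw [← Nat.add_sub_cancel' (show j ≤ N - c by omega), pow_add, e, zero_mul, map_zero])) hx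
  exact Submodule.smul_mem _ _ (pow_mem_amb _ j)

theorem lc_amb (ψ χ) : (ciF F d).lc (ciF F d).cone ψ χ ∈ amb ((ciF F d).lc (ciF F d).cone 0 1) := by
  haveI := h.good.fp
  rw [lc_eq ψ χ]
  exact Submodule.smul_mem _ _ (Submodule.subset_span ⟨1, pow_one _⟩)

omit h in
theorem c1_mem {M : Submodule ℂ (H ((ciF F d).X (ciF F d).cone))}
    (hM : ∀ ψ χ, (ciF F d).lc (ciF F d).cone ψ χ ∈ M) : (ciF F d).c1 (ciF F d).cone ∈ M :=
  sub_mem (finsum_mem_induction (· ∈ M) (zero_mem _) (fun _ _ => add_mem) fun _ _ => hM _ _)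
    (sum_mem fun _ _ => hM _ _)

end Br.Hg

open Br.Hg Br.HgA Hdg in
theorem St.brH : St.BrH := fun N c d F h hne B φ p q hφ => by
  haveI := h.good.fp
  haveI := h.tg.compact
  have hn := card_eq h hne
  have L := lf h hne
  let e := LinearEquiv.ofBijective (ciH F d).toLinearMap ciH_bij
  have h1 : ∀ a, IsHodge F (prj d F) (p a) (q a) (φ.map e a) := fun a => isHodge_prj (hφ a)
  have hJ := fun k x hk hx => (ps h).pd.deg k hk x hx
  have pd : ∀ x, (∀ y, (ps h).J (x * y) = 0) → x = 0 := fun x hx =>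
    (ps h).ext_left fun y => by rw [hx, zero_mul, map_zero]
  have hb := fun j (hj : j ≤ N - c) => L.exists_ne (j := j) (Nat.cast_le.2 hj)
  have A : Ad (ps h) _ (eig N (Finset.univ.val.map d)) (nu (φ.map e) p q) := ad L rfl
    (fun a b => pair_type₀ (isCI h) isProj_prj hn _ h1 hJ)
    (fun m b h0 => by have := repr_pow (isCI h) isProj_prj hn _ h1 hJ pd (is11 h) h0; omega)
    (fun a => type_eq (isCI h) isProj_prj hn _ h1 hJ pd)
    (eig_mid (isCI h) isProj_prj hn _ h1 hJ pd hb) (finrank_mid (isCI h) isProj_prj hn hb)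
  have h2 := c1_mem (lc_amb h)
  have h3 : H.IsDeg 2 ((ciF F d).c1 (ciF F d).cone) := c1_mem (M := H.deg _ 2) Wt.lc_deg
  have h4 : Fintype.card (Fin (N + 1)) - 1 - Fintype.card (Fin c) = N - c := by simp
  obtain ⟨pr, h5, -, h6⟩ := L.exists_prim A h3 (L.cm A h2) h2
    (ε := (-1) ^ (Fintype.card (Fin (N + 1)) - 1 - Fintype.card (Fin c))) (by rw [← mul_pow]; simp)
    fun m hm => by rw [h4, Nat.cast_injective hm]
  refine ⟨(ps h).coh, LinearMap.id, PS.vd (L.nu A) h3 (L.cm A h2), e,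
    ⟨⟨bijective_id, fun _ => rfl, fun a b => ((ps h).η_eq a b).trans (Wt.intX_eq _).symm,
      (ps h).one_eq⟩, fun _ => rfl, fun m v hv => (H.deg _ m).add_mem (PS.A1.mu0_deg m v hv)
        ((L.nu A).deg m v hv), fun χ v v' hv => ?_⟩,
    ⟨pr, fun v => h5 ▸ Iff.rfl, ?_, ?_⟩, fun _ => rfl, fun a => ?_, fun a b x hx => ?_⟩
  · obtain rfl : v' = _ * v := hv
    change (ps h).mu0 _ + nu _ p q _ = _ * ((ps h).mu0 v + nu _ p q v) + _ * v
    rw [PS.mu0_mul (Y := ps h) (Wt.lc_deg _ _), L.cm A (lc_amb h _ _), mul_add, add_right_comm]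
  · rw [PS.one_eq, h4]
    change (ps h).mu0 1 + nu _ p q 1 = _
    rw [(L.nu A).one, PS.mu0_of_deg H.isDeg_one, add_zero]
    simp [neg_div]
  · rw [h6, Deg.lP_eq _ _ (isCI h).pos_map]
    simp
  · change (ps h).mu0 (φ.map e a) + nu (Y := ps h) (φ.map e) p q (φ.map e a) = _ • φ.map e a
    rw [nu_apply, PS.mu0_of_deg (Y := ps h) (FH_deg ((h1 a).mem_FH (isCI h) isProj_prj true)),
      ← add_smul]
    congr 1
    push_cast
    ring
  · have h7 := fun s => repr_FH (isCI h) isProj_prj hn _ h1 hJ pd (a := x)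
      (FH_mul ((h1 a).mem_FH (isCI h) isProj_prj s) ((h1 b).mem_FH (isCI h) isProj_prj s))
      (by rwa [show φ.map e a * φ.map e b = e (φ a * φ b) from (map_mul (ciH F d) _ _).symm,
        Basis.map_repr, LinearEquiv.trans_apply, e.symm_apply_apply])
    have h8 := h7 true
    have h9 := h7 false
    simp only [cond_true, cond_false] at h8 h9
    omega

end Vale.Agent.P269
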