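import Vale.Agent.P269.Br.Main
import Vale.Agent.P269.Br.GW
import Vale.Agent.P269.Br.C1
import Vale.Agent.P269.Br.Hg
import Vale.Agent.P269.Bas.SpA
import Vale.Agent.P269.Bas.Supp

/-!
# The bridge from the basic properties of the invariants
-/

namespace Vale.Agent.P269.St

theorem brHy (hC : Cor) (hP : Par) (hA : Add) (hM : Prod) (hD : Div) (hT : Three) (hN : Norm) :
    BrHy := ⟨spec hC, hP, supp, hA, hM, hD, hT, hN, selC⟩

/-- **the bridge** -/
theorem bridge' (hW : Well) (hP : Pres) (hy : BrHy) : Bridge := bridge hy (gw hW hP) brC brH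

end Vale.Agent.P269.St
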