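import Vale.Agent.P269.Grr.CofA
import Vale.Agent.P269.Ch.Tot

/-!
# The canonical bundle of a quotient by scalars
-/

set_option linter.unusedSectionVars false

namespace Vale.Agent.P269.Br.C1

open Set Function Topology Filter Module P291Z Ch Grr

section alg

variable {V : Type*} [AddCommGroup V] [Module ℂ V] {ι κ : Type} {n : ℕ}

/-- a form with some of its arguments fixed -/
noncomputable def fixR (f : V [⋀^(ι ⊕ κ)]→ₗ[ℂ] ℂ) (w : κ → V) : V [⋀^ι]→ₗ[ℂ] ℂ where
  toFun v := f (Sum.elim v w)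
  map_update_add' v i x y := by
    classical simp only [← Sum.update_elim_inl, f.map_update_add]
  map_update_smul' v i c x := by
    classical simp only [← Sum.update_elim_inl, f.map_update_smul]
  map_eq_zero_of_eq' v i j h e :=
    f.map_eq_zero_of_eq _ (i := .inl i) (j := .inl j) h fun k => e (Sum.inl_injective k)

theorem exists_det_ne [Fintype κ] [DecidableEq κ] (b : Basis (Fin n ⊕ Option κ) ℂ V)
    {T : Submodule ℂ V} (hT : finrank ℂ T = n + 1) {w : Option κ → V} (hx : w none ∈ T)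
    (h0 : w none ≠ 0) (hs : ∀ y, ∃ a : κ → ℂ, y - ∑ k, a k • w (some k) ∈ T) :
    ∃ v : Fin n → V, (∀ i, v i ∈ T) ∧ b.det (Sum.elim v w) ≠ 0 := by
  have := b.finiteDimensional_of_finite
  obtain ⟨l, hl, -⟩ := exists_form (S := ⊥) h0
  have h1 := finrank_map_add T l
  rw [hT, show T.map l = ⊤ from eq_top_iff.2 fun c _ => ⟨c • w none, T.smul_mem c hx, by simp [hl]⟩,
    finrank_top, finrank_self, add_comm, Nat.add_right_cancel_iff] at h1
  let c := finBasisOfFinrankEq ℂ _ h1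
  have h2 : ⊤ ≤ Submodule.span ℂ (range (Sum.elim (fun i => (c i : V)) w)) := fun y _ => by
    obtain ⟨a, ha⟩ := hs y
    have k : ∀ o, w o ∈ Submodule.span ℂ (range (Sum.elim (fun i => (c i : V)) w)) := fun o =>
      Submodule.subset_span ⟨.inr o, rfl⟩
    obtain ⟨z, hz⟩ : ∃ z, z = y - ∑ k, a k • w (some k) := ⟨_, rfl⟩
    have e := congrArg Subtype.val (c.sum_repr ⟨z - l z • w none,
      sub_mem (hz ▸ ha) (T.smul_mem _ hx), by simp [hl]⟩)
    rw [show y = z - l z • w none + l z • w none + ∑ k, a k • w (some k) by simp [hz]]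
    refine add_mem (add_mem ?_ (Submodule.smul_mem _ _ (k _)))
      (Submodule.sum_mem _ fun _ _ => Submodule.smul_mem _ _ (k _))
    rw [← show _ = z - l z • w none from e, AddSubmonoidClass.coe_finsetSum]
    exact Submodule.sum_mem _ fun i _ => Submodule.smul_mem _ _ (Submodule.subset_span ⟨.inl i, rfl⟩)
  exact ⟨_, fun i => (c i).2.1, (b.is_basis_iff_det.1
    ⟨linearIndependent_of_top_le_span_of_card_eq_finrank h2 (finrank_eq_card_basis b).symm,
      top_le_iff.1 h2⟩).ne_zero⟩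

end alg

variable {Y : Ch.Sp} (T : VB Y) (n : ℕ)

/-- restriction of forms to the bundle -/
noncomputable def rsF (t : Y.T) : (frm T n).W →ₗ[ℂ] (frm T n).W :=
  ContinuousAlternatingMap.compContinuousLinearMapₗ (T.P t)

variable {T n} {t : Y.T} {ω : (frm T n).W}

theorem fc_rsF (v : Fin n → T.W) : fc (rsF T n t ω) v = fc ω fun i => T.P t (v i) := rfl

theorem rsF_mem : rsF T n t ω ∈ (frm T n).F t :=
  mem_frm.2 ⟨fun _ => trivial, fun _ i h => (fc ω).map_coord_zero i h⟩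

theorem rsF_of {v : Fin n → T.W} (h : ∀ i, v i ∈ T.F t) : fc (rsF T n t ω) v = fc ω v :=
  congrArg (fc ω) (funext fun i => T.P_eq (h i))

theorem rsF_eq (h : ω ∈ (frm T n).F t) : rsF T n t ω = ω :=
  sub_eq_zero.1 (frm_eq_zero (sub_mem rsF_mem h) fun _ hv => sub_eq_zero.2 (rsF_of hv))

theorem rsF_smul (g : Y.G) : rsF T n (g • t) (g • ω) = g • rsF T n t ω := fc_ext fun v => by
  rw [fc_rsF, fc_smul, fc_smul, fc_rsF]
  exact congrArg (fc ω) (funext fun i => by rw [inv_smul_eq_iff, ← T.P_smul, smul_inv_smul])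

theorem continuous_rsF : Continuous fun z : Y.T × (frm T n).W => rsF T n z.1 z.2 :=
  continuous_frm fun _ => (continuous_fc.comp continuous_snd).eval
    (continuous_pi fun _ => T.continuous_P continuous_fst continuous_const)

theorem exists_top (hT : T.r = n + 1) {x : Y.T → T.W} (hc : Continuous x) (hx : ∀ t, x t ∈ T.F t)
    (h0 : ∀ t, x t ≠ 0) (he : ∀ (g : Y.G) t, g • x t = x (g • t)) :
    ∃ F : Y.T → Submodule ℂ (frm T n).W, IsClosed {z : Y.T × (frm T n).W | z.2 ∈ F z.1} ∧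
      (∀ t, finrank ℂ (F t) = 1) ∧ (∀ (g : Y.G) t ω, ω ∈ F t → g • ω ∈ F (g • t)) ∧
      ∀ t ω, ω ∈ F t ↔ ω ∈ (frm T n).F t ∧ ∀ v s, v s = x t → fc ω v = 0 := by
  let E : VB Y := ((cpl T).adj (χ := 1) hc (fun g t => (he g t).trans (one_smul ℂ _).symm)
    fun t (h : T.P t _ = 0) => h0 t ((T.P_eq (hx t)).symm.trans h)).alt (char 1) n
  refine ⟨E.F, E.closed, fun t => (E.rank t).trans ?_, E.inv, fun t ω => ⟨fun h =>
    ⟨⟨h.1, fun v i e => h.2 v i (Submodule.mem_sup_left e)⟩, fun v s e => h.2 v s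
      (e ▸ Submodule.mem_sup_right (Submodule.mem_span_singleton_self _))⟩,
    fun h => ⟨h.1.1, zero_of_sup (α := (fc ω).toAlternatingMap) h.1.2 h.2⟩⟩⟩
  have := r_le T t
  change (finrank ℂ T.W - (finrank ℂ T.W - T.r + 1)).choose n * 1 = 1
  rw [show finrank ℂ T.W - (finrank ℂ T.W - T.r + 1) = n by omega, Nat.choose_self]

theorem finrank_comap {F : Submodule ℂ (frm T n).W} (h : F ≤ (frm T n).F t) :
    finrank ℂ (F.comap (rsF T n t)) = finrank ℂ F + (finrank ℂ (frm T n).W - (frm T n).r) := by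
  have e : LinearMap.range (rsF T n t) = (frm T n).F t :=
    le_antisymm (by rintro _ ⟨_, rfl⟩; exact rsF_mem) fun ω h => ⟨ω, rsF_eq h⟩
  rw [← finrank_map_add _ (rsF T n t), Submodule.map_comap_eq_self (e ▸ h),
    inf_eq_right.2 (LinearMap.ker_le_comap _), ← (rsF T n t).finrank_range_add_finrank_ker, e,
    (frm T n).rank, Nat.add_sub_cancel_left]

variable {A W : Type} [NormedRing A] [NormedAlgebra ℂ A] [NormedAddCommGroup W] [NormedSpace ℂ W]
  {act : A → W → W} {S : Set W}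

/-- **The forms of top degree on `T / x`.** -/
theorem eu_can (hT : T.r = n + 1) {κ : Type} [Fintype κ] {w : Y.T → Option κ → T.W}
    (hw : Continuous w) (hx : ∀ t, w t none ∈ T.F t) (h0 : ∀ t, w t none ≠ 0)
    (he : ∀ (g : Y.G) t, g • w t none = w (g • t) none) (D : T.W [⋀^(Fin n ⊕ Option κ)]→ₗ[ℂ] ℂ)
    (hD : Continuous D) {φ : Y.G →ₜ* ℂˣ}
    (hφ : ∀ (g : Y.G) t v, φ g * D (Sum.elim (fun i => g • v i) (w (g • t))) = D (Sum.elim v (w t)))
    (hn : ∀ t, ∃ v : Fin n → T.W, (∀ i, v i ∈ T.F t) ∧ D (Sum.elim v (w t)) ≠ 0)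
    (p : Pres Y act S) {ρ : A → T.W [⋀^Fin n]→L[ℂ] ℂ → T.W [⋀^Fin n]→L[ℂ] ℂ}
    {B N : W → Submodule ℂ (T.W [⋀^Fin n]→L[ℂ] ℂ)}
    (hρ : ∀ (g : Y.G) ω v, ρ (p.u g) ω v = ω fun i => g⁻¹ • v i)
    (hB : ∀ t ω, ω ∈ B (p.i t) ↔ ∀ v, (∀ s, v s ∈ T.F t) → (∃ s, v s = w t none) → ω v = 0)
    (hN : ∀ t ω, ω ∈ N (p.i t) ↔ ∀ v, (∀ s, v s ∈ T.F t) → ω v = 0) :
    supp (δ (eulerC act ρ S B N)) = ∅ ∧ hcls (eulerC act ρ S B N) = H.map p.e (c1 φ).1 := by
  obtain ⟨F, a1, a2, a3, a4⟩ := exists_top hT ((continuous_apply none).comp hw) hx h0 he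
  have h1 : ∀ t (ω : (frm T n).W), fc ω ∈ B (p.i t) ↔ rsF T n t ω ∈ F t := fun t ω =>
    (hB t _).trans (Iff.trans ⟨fun h => ⟨rsF_mem, fun v i e => h _ (fun _ => T.P_mem _ _)
      ⟨i, (congrArg (T.P t) e).trans (T.P_eq (hx t))⟩⟩, fun h v hv ⟨s, e⟩ =>
      (rsF_of hv).symm.trans (h.2 v s e)⟩ (a4 t _).symm)
  have h2 : ∀ t (ω : (frm T n).W), rsF T n t ω = 0 ↔ fc ω ∈ N (p.i t) := fun t ω =>
    ⟨fun h => (hN t _).2 fun v hv => (rsF_of hv).symm.trans (by rw [h]; rfl),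
      fun h => fc_ext fun v => (hN t _).1 h _ fun _ => T.P_mem _ _⟩
  have h3 : ∀ t, F t ≤ (frm T n).F t := fun t _ h => ((a4 t _).1 h).1
  have hm : IsMod p ρ B N ((frm T n).sub (fun t => (F t).comap (rsF T n t)) _
      (a1.preimage (f := fun z : Y.T × (frm T n).W => (z.1, rsF T n z.1 z.2))
        (continuous_fst.prodMk continuous_rsF))
      (fun t => (finrank_comap (h3 t)).trans (congrArg (· + _) (a2 t)))
      fun g t ω h => (congrArg (· ∈ F (g • t)) (rsF_smul g)).mpr (a3 g t _ h))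
      ((frm T n).sub F 1 a1 a2 a3) LinearMap.id (rsF T n) :=
    { emb := IsEmbedding.id
      map := fun t => (Submodule.map_id _).trans (Submodule.ext fun ω => (h1 t ω).symm)
      eqv := fun g t ω _ => (congrArg (· ∈ N _) (sub_eq_zero.2 (ContinuousAlternatingMap.ext
        fun v => (fc_smul g ω v).trans (hρ g _ v).symm))).mpr (zero_mem _)
      le := fun t ω h => (hB t ω).2 fun v hv _ => (hN t ω).1 h v hv
      hom := Hom.of_continuous (fun _ _ h => h) continuous_rsF fun g _ _ _ => rsF_smul g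
      surj := fun t ω h => ⟨ω, (congrArg (· ∈ F t) (rsF_eq (h3 t h))).mpr h, rsF_eq (h3 t h)⟩
      ker := fun t ω _ => h2 t ω }
  obtain ⟨o, h4, h5⟩ : ∃ o : Y.T → (frm T n).W, (∀ t, o t ∈ F t) ∧
      ∀ t v, fc (o t) v = D (Sum.elim (fun i => T.P t (v i)) (w t)) :=
    ⟨fun t => rsF T n t (fa T (toC _ _ n (fixR D (w t)))), fun t => (h1 t _).1 ((hB t _).2
      fun v _ ⟨s, e⟩ => D.map_eq_zero_of_eq (Sum.elim v (w t)) (i := .inl s) (j := .inr none) e
        Sum.inl_ne_inr), fun _ _ => rfl⟩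
  have h6 : Continuous o := continuous_frm fun v => by
    simp only [h5]
    exact hD.comp (continuous_pi fun i => i.rec
      (fun _ => T.continuous_P continuous_id continuous_const) fun k => (continuous_apply k).comp hw)
  have hi : Iso (Mor.id Y) (char φ) ((frm T n).sub F 1 a1 a2 a3)
      fun t => LinearMap.toSpanSingleton ℂ _ (o t) := by
    refine Iso.of_inj (Hom.of_continuous (fun t c _ => (F t).smul_mem c (h4 t))
      (show Continuous fun z : Y.T × ℂ => z.2 • o z.1 by fun_prop) fun g t (c : ℂ) _ => ?_)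
      (fun t (c : ℂ) _ (e : c • o t = 0) => ?_) rfl
    · refine fc_ext fun v => Eq.trans (?_ : φ g * c * fc (o (g • t)) v = c * fc (o t) _)
        (fc_smul g (c • o t) v).symm
      rw [h5, h5, mul_right_comm, mul_comm, ← hφ g t]
      simp only [← T.P_smul, smul_inv_smul]
    · obtain ⟨v, k1, k2⟩ := hn t
      refine (smul_eq_zero.1 e).resolve_right fun k => k2 ?_
      rw [← funext fun i => T.P_eq (k1 i), ← h5, k]
      rfl
  exact ⟨hm.eulerC_cocycle, hm.hcls_eulerC.trans (congrArg (H.map p.e ·.1) hi.eu'.symm)⟩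

/-- **The adjunction formula.** -/
theorem eu_ker {E E' : VB Y} {D : Y.T → E.W →ₗ[ℂ] E'.W} (hD : Hom (Mor.id Y) E E' D)
    (h₁ : ∀ t v, v ∈ E.F t) (h₂ : ∀ t v, v ∈ E'.F t) (hs : ∀ t, Surjective (D t)) {κ : Type}
    [Fintype κ] (b : Basis (Fin n ⊕ Option κ) ℂ E.W) (e : Basis κ ℂ E'.W) {s : Y.G → ℂ}
    {χ : κ → Y.G → ℂ} (h₃ : ∀ (g : Y.G) (v : E.W), g • v = s g • v)
    (h₄ : ∀ (g : Y.G) k, g • e k = χ k g • e k) (h₅ : ∀ g k, χ k g ≠ 0) {x : Y.T → E.W}
    (hc : Continuous x) (hx : ∀ t, D t (x t) = 0) (h0 : ∀ t, x t ≠ 0)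
    (he : ∀ (g : Y.G) t, g • x t = x (g • t)) {φ : Y.G →ₜ* ℂˣ}
    (hφ : ∀ g, φ g * s g ^ (n + (Fintype.card κ + 1)) = ∏ k, χ k g)
    (p : Pres Y act S) {ρ : A → E.W [⋀^Fin n]→L[ℂ] ℂ → E.W [⋀^Fin n]→L[ℂ] ℂ}
    {B N : W → Submodule ℂ (E.W [⋀^Fin n]→L[ℂ] ℂ)}
    (hρ : ∀ (g : Y.G) ω v, ρ (p.u g) ω v = ω fun i => (s g)⁻¹ • v i)
    (hB : ∀ t ω, ω ∈ B (p.i t) ↔ ∀ v, (∀ i, D t (v i) = 0) → (∃ i, v i = x t) → ω v = 0)
    (hN : ∀ t ω, ω ∈ N (p.i t) ↔ ∀ v, (∀ i, D t (v i) = 0) → ω v = 0) :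
    supp (δ (eulerC act ρ S B N)) = ∅ ∧ hcls (eulerC act ρ S B N) = H.map p.e (c1 φ).1 := by
  classical
  obtain ⟨Q, hQ, hQ'⟩ := hD.exists_sect fun t v _ => (hs t v).imp fun _ k => ⟨h₁ _ _, k⟩
  have hr : ∀ t, finrank ℂ (LinearMap.ker (D t)) = n + 1 := fun t => by
    have := (D t).finrank_range_add_finrank_ker
    rw [LinearMap.range_eq_top.2 (hs t), finrank_top, finrank_eq_card_basis b,
      finrank_eq_card_basis e, Fintype.card_sum, Fintype.card_option, Fintype.card_fin] at this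
    omega
  refine eu_can (T := E.sub (fun t => LinearMap.ker (D t)) _
      (isClosed_eq (hD.continuous continuous_fst continuous_snd fun _ => h₁ _ _) continuous_const)
      hr fun g t v k => (hD.eqv g t v (h₁ _ _)).trans ((congrArg _ k).trans (smul_zero _))) rfl
    (w := fun t o => o.elim (x t) fun k => Q t (e k)) (continuous_pi fun o => o.rec hc
      fun k => hQ.continuous continuous_id continuous_const fun _ => h₂ _ _) hx h0 he b.det
    (Continuous.matrix_det (continuous_pi fun i => continuous_pi fun j =>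
      (b.coord i).continuous_of_finiteDimensional.comp (continuous_apply j)))
    (fun g t v => mul_left_cancel₀ (a := ∏ k, χ k g)
      (Finset.prod_ne_zero_iff.2 fun k _ => h₅ g k) ?_)
    (fun t => exists_det_ne b (hr t) (hx t) (h0 t) fun y => ⟨e.repr (D t y), ?_⟩) p
    (fun g ω v => (hρ g ω v).trans (congrArg ω (funext fun i => ?_))) hB hN
  · have k1 := b.det.map_smul_univ (Sum.elim 1 fun o => o.elim 1 (χ · g))
      (Sum.elim (fun i => g • v i) fun o => o.elim (x (g • t)) fun k => Q (g • t) (e k))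
    have k2 := b.det.map_smul_univ (fun _ => s g)
      (Sum.elim v fun o => o.elim (x t) fun k => Q t (e k))
    simp only [Fintype.prod_sum_type, Fintype.prod_option, Sum.elim_inl, Sum.elim_inr, Option.elim,
      Pi.one_apply, Finset.prod_const_one, one_mul, smul_eq_mul] at k1
    rw [Finset.prod_const, Finset.card_univ, Fintype.card_sum, Fintype.card_option,
      Fintype.card_fin, smul_eq_mul] at k2
    rw [mul_left_comm]
    refine (congrArg _ (k1.symm.trans ((congrArg b.det (funext fun i => ?_)).trans k2))).trans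
      (by rw [← mul_assoc, hφ])
    rcases i with i | _ | k
    exacts [(one_smul _ _).trans (h₃ _ _), (one_smul _ _).trans ((he g t).symm.trans (h₃ _ _)),
      (map_smul _ _ _).symm.trans ((congrArg _ (h₄ g k).symm).trans
        ((hQ.eqv g t _ (h₂ _ _)).trans (h₃ _ _)))]
  · rw [LinearMap.mem_ker, map_sub, map_sum, sub_eq_zero]
    simp only [Option.elim, map_smul, hQ' _ _ (h₂ _ _), e.sum_repr]
  · rcases eq_or_ne (s g) 0 with k | k
    · rw [show v i = 0 by rw [← smul_eq_zero_iff_eq g, h₃, k, zero_smul], smul_zero, smul_zero]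
    · rw [eq_inv_smul_iff, h₃, smul_inv_smul₀ k]

end Vale.Agent.P269.Br.C1
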