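import Vale.Agent.P269.Orb.Brg
import Vale.Agent.P269.Orb.Dim
import Vale.Agent.P269.Cv.Dict

/-!
# The normalisation map of a nodal curve
-/

set_option linter.unusedSectionVars false
set_option linter.style.haveILetI false

namespace Vale.Agent.P269

open P291Z Set Function Topology Filter

namespace Cv

open Holo

variable {X : Type} [TopologicalSpace X] [T2Space X] [CompactSpace X] {R : RS X} {ι : Type}
  [Fintype ι] {M : ι → ℕ} {o : ι} {C : Set (V M)} {N : Finset (X × X)} {A : ι → LB R} {π : X → V M}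

/-- the normalisation map -/
noncomputable def Par.nrm (h : Par o C N A π) (z : X) :
    Quo (fun (t : ι → ℂ) (c : V M) => t • c) C :=
  Quo.mk _ ⟨π z, (h.img _).2 ⟨z, 1, fun _ => one_ne_zero, (one_smul _ _).symm⟩⟩

namespace Crv

theorem isUnit_iff {t : ι → ℂ} : IsUnit t ↔ ∀ i, t i ≠ 0 := by
  simp only [Pi.isUnit_iff, isUnit_iff_ne_zero]

theorem unit_ne (g : (ι → ℂ)ˣ) (i : ι) : (g : ι → ℂ) i ≠ 0 := isUnit_iff.1 g.isUnit i

theorem finite_not_sm (N : Finset (X × X)) : {x | ¬Sm N x}.Finite := by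
  refine ((N.finite_toSet.image Prod.fst).union (N.finite_toSet.image Prod.snd)).subset
    fun x hx => ?_
  simp only [Sm, mem_ofPred_eq, not_forall, not_and_or, not_not] at hx
  obtain ⟨n, hn, h | h⟩ := hx
  exacts [.inl ⟨n, hn, h⟩, .inr ⟨n, hn, h⟩]

theorem isOpen_sm (N : Finset (X × X)) : IsOpen {x | Sm N x} := by
  have := (finite_not_sm N).isClosed.isOpen_compl
  rwa [compl_ofPred, funext fun x => propext (not_not (a := Sm N x))] at this

theorem dense_sm (R : RS X) (N : Finset (X × X)) : Dense {x | Sm N x} := by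
  haveI := R.neBot
  refine (dense_univ.sdiff_finite (finite_not_sm N)).mono fun x hx => not_not.1 hx.2

theorem eq_of_sm {x y : X} (hx : Sm N x) (e : x = y ∨ (x, y) ∈ N ∨ (y, x) ∈ N) : y = x := by
  rcases e with e | e | e
  exacts [e.symm, ((hx _ e).1 rfl).elim, ((hx _ e).2 rfl).elim]

end Crv

open Crv

namespace Par

variable (h : Par o C N A π)
include h

theorem isAct : IsAct (fun (t : ι → ℂ) (c : V M) => t • c) C :=
  ⟨fun x _ => one_smul _ x, fun a b _ _ x _ => mul_smul a b x,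
    fun a ha x hx => h.cone a (isUnit_iff.1 ha) x hx,
    fun _ _ _ _ => Dict.an_smul analyticAt_fst analyticAt_snd⟩

theorem locallyCompactSpace : LocallyCompactSpace C := by
  refine IsLocallyClosed.locallyCompactSpace ⟨{c | ∀ i, c i ≠ 0}, closure C, ?_, isClosed_closure,
    Subset.antisymm (fun c hc => ⟨h.ne_zero c hc, subset_closure hc⟩)
      fun c hc => h.closed c hc.2 hc.1⟩
  rw [ofPred_forall]
  exact isOpen_iInter_of_finite fun i => isOpen_ne_fun (continuous_apply i) continuous_const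

theorem properSMul : haveI := h.isAct
    ProperSMul (ι → ℂ)ˣ (Sp (fun (t : ι → ℂ) (c : V M) => t • c) C) := by
  haveI := h.isAct
  refine properSMul_units fun x y => ?_
  choose j hj using fun i => Function.ne_iff.1 (h.ne_zero _ x.val_mem i)
  replace hj : ∀ i, x.val i (j i) ≠ 0 := hj
  have h1 : ∀ i, Continuous fun p : Sp (fun (t : ι → ℂ) (c : V M) => t • c) C => p.val i (j i) :=
    fun i => (continuous_apply _).comp ((continuous_apply i).comp Sp.continuous_val)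
  have h2 : ContinuousAt (fun (p : Sp (fun (t : ι → ℂ) (c : V M) => t • c) C ×
      Sp (fun (t : ι → ℂ) (c : V M) => t • c) C) i => p.2.val i (j i) / p.1.val i (j i)) (x, y) :=
    continuousAt_pi.2 fun i => ((h1 i).comp continuous_snd).continuousAt.div
      ((h1 i).comp continuous_fst).continuousAt (hj i)
  have h3 : ∀ᶠ p in 𝓝 (x, y), ∀ i, p.1.val i (j i) ≠ 0 := eventually_all.2 fun i =>
    ((h1 i).comp continuous_fst).continuousAt.eventually_ne (hj i)
  refine ⟨_, ((h2.norm.eventually_le_const (lt_add_one _)).and h3).mono fun p hp g e =>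
    le_of_eq_of_le (congrArg norm (funext fun i => ?_)) hp.1⟩
  rw [← e]
  exact (mul_div_cancel_right₀ _ (hp.2 i)).symm

theorem free (c : Sp (fun (t : ι → ℂ) (c : V M) => t • c) C) (g : (ι → ℂ)ˣ) :
    haveI := h.isAct
    g • c = c → g = 1 := fun e =>
  Units.ext (Dict.smul_cancel (h.ne_zero _ c.val_mem) ((congrArg Sp.val e).trans
    (one_smul _ _).symm))

theorem nice_quo : Nice (Quo (fun (t : ι → ℂ) (c : V M) => t • c) C) :=
  haveI := h.isAct
  haveI := h.properSMul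
  haveI := h.locallyCompactSpace
  Orb.nice_quo

theorem mk_eq {c : Sp (fun (t : ι → ℂ) (c : V M) => t • c) C} {x : X} :
    c.mk = h.nrm x ↔ ∃ t : ι → ℂ, (∀ i, t i ≠ 0) ∧ c.val = t • π x := by
  haveI := h.isAct
  rw [eq_comm]
  refine (Sp.mk_eq_iff (x := Sp.of _ _ (h.mem x))).trans
    ⟨fun ⟨g, e⟩ => ⟨g, unit_ne g, (congrArg Sp.val e).symm⟩,
      fun ⟨t, ht, e⟩ => ⟨(isUnit_iff.2 ht).unit, Sp.ext e.symm⟩⟩

theorem nrm_eq_iff {x y : X} : h.nrm x = h.nrm y ↔ x = y ∨ (x, y) ∈ N ∨ (y, x) ∈ N :=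
  ⟨fun e => let ⟨t, _, e⟩ := (h.mk_eq (c := Sp.of _ _ (h.mem y))).1 e.symm; h.inj x y t e,
    fun e => congrArg (Quo.mk _) (Subtype.ext (h.π_eq e))⟩

theorem mk_br (x : X) (z : ℂ) : (Sp.of _ _ (h.br_mem x z)).mk = h.nrm (R.i x z) :=
  h.mk_eq.2 ⟨_, fun i => inv_ne_zero ((A i).ne _ _), br_eq x z⟩

theorem continuous_nrm : Continuous h.nrm := continuous_iff_continuousAt.2 fun x => by
  have h1 : Tendsto (fun y => (Sp.of (fun (t : ι → ℂ) (c : V M) => t • c) _
      (h.br_mem x (R.e x y)))) (𝓝 x) (𝓝 (Sp.of _ _ (h.mem x))) :=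
    Sp.isEmbedding_val.tendsto_nhds_iff.2 (tends_br h.sec x)
  exact ((Sp.continuous_mk.tendsto _).comp h1).congr' ((R.src_nhds x).mono fun y hy =>
    (h.mk_br x _).trans (congrArg h.nrm (R.i_e hy)))

theorem surjective_nrm : Surjective h.nrm := fun q => by
  obtain ⟨c, rfl⟩ := Sp.surjective_mk q
  obtain ⟨x, e⟩ := (h.img _).1 c.val_mem
  exact ⟨x, (h.mk_eq.2 e).symm⟩

/-- the branch at a smooth point is a slice -/
theorem isSlice {x : X} (hx : Sm N x) : haveI := h.isAct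
    Orb.IsSlice (ι → ℂ)ˣ Sp.val fun z : Fin 1 → ℂ =>
      Sp.of (fun (t : ι → ℂ) (c : V M) => t • c) _ (h.br_mem x (z 0)) := by
  haveI := h.isAct
  have hγ := an_br h.sec x
  have e0 : br A π x 0 = π x := br_zero x
  obtain ⟨S, Z, h1, h2⟩ := Dict.exists_retr hγ (e0 ▸ h.ne x) (e0 ▸ h.imm x)
  obtain ⟨hS, hZ⟩ := h1 1 fun _ => one_ne_zero
  obtain ⟨-, hS1⟩ := h2.self_of_nhds 1 fun _ => one_ne_zero
  rw [one_smul] at hS hZ hS1
  obtain ⟨κ, k1, k2, k3, k4⟩ := ((Units.isOpenEmbedding_val (R := ι → ℂ)).lh 1).exists_inv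
  have a0 : ∀ w : Fin 1 → ℂ, AnalyticAt ℂ (fun z : Fin 1 → ℂ => z 0) w := fun w =>
    (ContinuousLinearMap.proj (R := ℂ) (φ := fun _ : Fin 1 => ℂ) 0).analyticAt w
  have t0 : Tendsto (fun p : (ι → ℂ)ˣ × (Fin 1 → ℂ) => p.2 0) (𝓝 (1, 0)) (𝓝 0) :=
    ((continuous_apply 0).comp continuous_snd).tendsto (1, 0)
  have h3 : ∀ᶠ p : (ι → ℂ)ˣ × (Fin 1 → ℂ) in 𝓝 (1, 0),
      (fun _ => Z ((p.1 : ι → ℂ) • br A π x (p.2 0))) = p.2 ∧
        S ((p.1 : ι → ℂ) • br A π x (p.2 0)) = p.1 :=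
    (t0.eventually h2).mono fun p hp => ⟨funext fun i => by
      rw [(hp _ (unit_ne p.1)).1, Subsingleton.elim i 0], (hp _ (unit_ne p.1)).2⟩
  refine ⟨?_, hγ.comp_of_eq (a0 0) rfl, fun c _ => Z c, analyticAt_pi_iff.2 fun _ => hZ,
    h3.mono fun p hp => hp.1⟩
  have tv : Tendsto Sp.val (𝓝 ((1 : (ι → ℂ)ˣ) •
      Sp.of (fun (t : ι → ℂ) (c : V M) => t • c) _ (h.br_mem x 0))) (𝓝 (br A π x 0)) := by
    rw [one_smul]
    exact Sp.continuous_val.tendsto _
  have tS : Tendsto S (𝓝 (br A π x 0)) (𝓝 1) := hS1 ▸ hS.continuousAt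
  refine LH.of_inv (fun c => (κ (S c.val), fun _ => Z c.val)) ?_ ?_ ?_ ?_
  · refine (t0.eventually hγ.eventually_analyticAt).mono fun p hp => continuousAt_fst.smul ?_
    exact Sp.isEmbedding_val.continuousAt_iff.2 (hp.continuousAt.comp_of_eq
      ((continuous_apply 0).comp continuous_snd).continuousAt rfl)
  · filter_upwards [tv.eventually hS.eventually_analyticAt, tv.eventually hZ.eventually_analyticAt,
      (tS.comp tv).eventually k2.eventually_cont] with c c1 c2 c3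
    exact (c3.comp (c1.continuousAt.comp Sp.continuous_val.continuousAt)).prodMk
      (continuousAt_pi.2 fun _ => c2.continuousAt.comp Sp.continuous_val.continuousAt)
  · filter_upwards [h3, continuous_fst.continuousAt.eventually k3] with p c1 c2
    exact Prod.ext ((congrArg κ c1.2).trans c2) c1.1
  · have h4 := h.loc (x := x) (x' := x) (fun y e => .inl (eq_of_sm hx e)) (t := 1)
      (fun _ => one_ne_zero) h2
    rw [one_smul, ← e0] at h4
    filter_upwards [tv.eventually h4, (tS.comp tv).eventually k4] with c c1 c2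
    obtain ⟨s, z, hs, c3, c4⟩ := c1 c.val_mem
    replace c4 := or_self_iff.1 c4
    obtain ⟨c5, c6⟩ := c3 s hs
    rw [← c4] at c5 c6
    refine Sp.ext ?_
    change (κ (S c.val) : ι → ℂ) • br A π x (Z c.val) = c.val
    rw [show (κ (S c.val) : ι → ℂ) = S c.val from c2, c5, c6, ← c4]

theorem isOpenEmbedding_nrm : IsOpenEmbedding fun v : {x | Sm N x} => h.nrm v := by
  haveI := h.nice_quo
  refine .of_continuous_injective_isOpenMap (h.continuous_nrm.comp continuous_subtype_val)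
    (fun v w e => Subtype.ext (eq_of_sm v.2 (h.nrm_eq_iff.1 e)).symm) fun U hU => ?_
  have h1 := (h.continuous_nrm.isClosedMap _
    ((isOpen_sm N).isOpenMap_subtype_val U hU).isClosed_compl).isOpen_compl
  refine (congrArg IsOpen (Subset.antisymm ?_ ?_)).mp h1
  · intro q hq
    obtain ⟨x, rfl⟩ := h.surjective_nrm q
    obtain ⟨v, hv, rfl⟩ : x ∈ Subtype.val '' U := by_contra fun a => hq ⟨x, a, rfl⟩
    exact ⟨v, hv, rfl⟩
  · rintro _ ⟨v, hv, rfl⟩ ⟨x, hx, e⟩
    exact hx ⟨v, hv, (eq_of_sm v.2 (h.nrm_eq_iff.1 e.symm)).symm⟩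

theorem range_nrm : range (fun v : {x | Sm N x} => h.nrm v) = (h.nrm '' {x | ¬Sm N x})ᶜ := by
  refine Subset.antisymm ?_ fun q hq => ?_
  · rintro _ ⟨v, rfl⟩ ⟨x, hx, e⟩
    exact hx (eq_of_sm v.2 (h.nrm_eq_iff.1 e.symm) ▸ v.2)
  · obtain ⟨x, rfl⟩ := h.surjective_nrm q
    exact ⟨⟨x, by_contra fun a => hq ⟨x, a, rfl⟩⟩, rfl⟩

/-- the fundamental class is the push-forward of the class of the normalisation -/
theorem isFund_iff_of [Nice X] {β : BM X} (hβ : BM.IsDeg 2 β)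
    (hv : ∀ x, Orb.Val β (fun z : Fin 1 → ℂ => R.i x (z 0)) 1)
    {γ : BM (Quo (fun (t : ι → ℂ) (c : V M) => t • c) C)} :
    IsFund _ C γ ↔ γ = push h.nrm β := by
  haveI := h.isAct
  haveI := h.properSMul
  haveI := h.locallyCompactSpace
  haveI := h.nice_quo
  have hJ := h.isOpenEmbedding_nrm
  let T : SubMulAction (ι → ℂ)ˣ (Sp (fun (t : ι → ℂ) (c : V M) => t • c) C) :=
    ⟨Sp.mk ⁻¹' range fun v : {x | Sm N x} => h.nrm v, fun g c hc => by
      rwa [mem_preimage, Sp.mk_smul]⟩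
  have hj : IsOpenEmbedding (Subtype.val : T → _) :=
    (hJ.isOpen_range.preimage Sp.continuous_mk).isOpenEmbedding_subtypeVal
  choose p hp using fun t : T => t.2
  replace hp : ∀ t : T, h.nrm (p t) = t.1.mk := hp
  have hq : Orb.IsQuo (ι → ℂ)ˣ p := by
    refine ⟨⟨fun v => ?_, hJ.isEmbedding.continuous_iff.2 ((Sp.continuous_mk.comp
      hj.continuous).congr fun t => (hp t).symm), fun U hU => ?_⟩, fun t t' => ?_⟩
    · exact ⟨⟨Sp.of _ _ (h.mem v), v, rfl⟩, hJ.injective (hp _)⟩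
    · rw [← preimage_image_eq (p '' U) hJ.injective, image_image, image_congr fun t _ => hp t]
      exact ((Sp.isOpenQuotientMap_mk.isOpenMap.comp hj.isOpenMap) U hU).preimage hJ.continuous
    · rw [← hJ.injective.eq_iff, hp, hp, Sp.mk_eq_iff]
      exact exists_congr fun g => (Subtype.ext_iff (a1 := g • t)).symm
  have hO : Orb.HolOrb (ι → ℂ)ˣ (fun t : T => t.1.val) 1 :=
    Orb.preOrb_sp.of_open hj (fun _ _ => rfl) fun t => by
      obtain ⟨g, e⟩ := (Sp.mk_eq_iff (x := Sp.of _ _ (h.mem (p t)))).1 (hp t)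
      exact e ▸ (Orb.preOrb_sp.sm 1).smul_mem g ⟨_, h.isSlice (p t).2, Sp.ext (br_zero _)⟩
  have hd : Dense (range (Subtype.val : T → _)) := by
    rw [Subtype.range_coe]
    exact Dense.preimage (f := Sp.mk) (h.surjective_nrm.denseRange.comp
      (dense_sm R N).denseRange_val h.continuous_nrm) Sp.isOpenQuotientMap_mk.isOpenMap
  have hf := (finite_not_sm N).image h.nrm
  have hi := hf.isClosed.isClosedEmbedding_subtypeVal
  have hc := h.range_nrm
  rw [← Subtype.range_coe (s := h.nrm '' _)] at hc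
  have hZ : Top (h.nrm '' {x | ¬Sm N x}) (2 * (1 : ℕ) - 2) :=
    (Orb.cd_finite hf _ Subset.rfl hf.isClosed.isLocallyClosed).mono (by norm_num)
  have hk := (isOpen_sm N).isOpenEmbedding_subtypeVal
  have hfr : ∀ (t : T) (g : (ι → ℂ)ˣ), g • t = t → g = 1 := fun t g e =>
    h.free t.1 g (congrArg Subtype.val e)
  have hβ' : BM.IsDeg (2 * (1 : ℕ)) β := by simpa using hβ
  have e1 : push h.nrm β = Orb.fundQ (ι → ℂ)ˣ Sp.val Sp.mk 1 := by
    rw [← one_smul ℂ (Orb.fundQ _ _ _ 1)]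
    refine Orb.preOrb_sp.push_eq_of_top hO hq Orb.isQuo_sp hj (fun _ _ => rfl) hp hd hi hc hZ
      (IsPr.of_compact h.continuous_nrm) hk (fun _ => rfl) ?_ hβ' ?_
    · rintro x ⟨v, e⟩
      exact ⟨v, (eq_of_sm v.2 (h.nrm_eq_iff.1 e)).symm⟩
    rw [one_smul]
    refine hO.res_eq_of_val hq hk hβ' (D := {t | t.1.val = π (p t)}) (fun S _ e => ?_) fun t ht => ?_
    · refine eq_univ_of_forall fun v => ?_
      have : p ⟨Sp.of _ _ (h.mem v), v, rfl⟩ = v := hJ.injective (hp _)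
      exact e ⟨_, congrArg (fun w : {x | Sm N x} => π w) this.symm, this⟩
    · obtain ⟨φ, h1, h2, h3⟩ := (h.isSlice (p t).2).lift_lh (j := Subtype.val) (t := t)
        (fun _ _ => rfl) (hj.lh t) (Sp.ext ((br_zero _).trans ht.symm))
      refine ⟨φ, h1, h2, ?_⟩
      rw [Orb.stab_eq_one (hfr t), Nat.cast_one]
      exact (hv (p t)).congr (h3.mono fun z hz => eq_of_sm (p (φ z)).2
        (h.nrm_eq_iff.1 ((hp _).trans ((congrArg Sp.mk hz).trans (h.mk_br _ _)))))
  rw [e1]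
  exact ⟨fun a => a.eq_of_top hO hq hj (fun _ _ => rfl) hp (fun S _ e => eq_univ_of_forall fun v =>
    let ⟨t, ht⟩ := hq.surj v; e ⟨t, hfr t, ht⟩) hd hi hc hZ,
    fun a => a ▸ Orb.isFund_of_top hO hq hj (fun _ _ => rfl) hp hd hi hc hZ⟩

end Par

end Cv

end Vale.Agent.P269
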