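import Vale.Agent.P269.Br.Fund
import Vale.Agent.P269.Br.CrvA

/-!
# The fundamental class of a nodal curve
-/

set_option linter.unusedSectionVars false

namespace Vale.Agent.P269

open P291Z Set Function Topology Filter

namespace Cv

variable {X : Type} [TopologicalSpace X] [T2Space X] [CompactSpace X] {R : RS X} {ι : Type}
  [Fintype ι] {M : ι → ℕ} {o : ι} {C : Set (V M)} {N : Finset (X × X)} {A : ι → LB R} {π : X → V M}

theorem Par.isFund_iff (h : Par o C N A π) {γ : BM (Quo (fun (t : ι → ℂ) (c : V M) => t • c) C)} :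
    IsFund _ C γ ↔ γ = push h.nrm R.fund :=
  haveI := R.nice
  h.isFund_iff_of R.fund_deg fun x => (R.val_of (R.contAt_i (R.zero_mem x))
    (by rw [R.i_zero]; exact RS.hol_e (R.mem x))
    (by rw [R.i_zero]; exact RS.d_e_ne (R.mem x))).2

end Cv

end Vale.Agent.P269
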