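import Vale.Agent.P269.Br.Nov

/-!
# The exponential of formal series is the exponential of formal functions
-/

namespace Vale.Agent.P269.Br

open Set Function Fock Deg

variable {Γ : Type} [AddCommGroup Γ] {deg : Γ →+ ℝ} {V : Type} [AddCommGroup V] [Module ℂ V]
  {p : Par ℂ V}

namespace Dict

theorem co_mul (s t : Nov deg) (β : Γ) (j : ℤ) :
    co β j (s * t) = ∑ᶠ x : Γ × ℤ, co x.1 x.2 s * co (β - x.1) (j - x.2) t := by
  classical
  change (s * t).coeff (show Ix deg from (β, j)) =
    ∑ᶠ x : Ix deg, s.coeff x * t.coeff ((show Ix deg from (β, j)) - x)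
  generalize (show Ix deg from (β, j)) = a
  rw [HahnSeries.coeff_mul, finsum_eq_sum_of_support_subset _
    (s := (Finset.antidiagonal s.isPWO_support t.isPWO_support a).image Prod.fst) fun x hx => ?_,
    Finset.sum_image fun x hx y hy e => ?_]
  · refine Finset.sum_congr rfl fun x hx => ?_
    rw [← (Finset.mem_antidiagonal.1 hx).2.2, add_sub_cancel_left]
  · refine Prod.ext e (add_left_cancel (a := x.1) ?_)
    rw [(Finset.mem_antidiagonal.1 hx).2.2, e, (Finset.mem_antidiagonal.1 hy).2.2]
  · exact Finset.mem_coe.2 (Finset.mem_image.2 ⟨(x, a - x), Finset.mem_antidiagonal.2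
      ⟨left_ne_zero_of_mul hx, right_ne_zero_of_mul hx, add_sub_cancel _ _⟩, rfl⟩)

open Classical in
theorem co_one (β : Γ) (j : ℤ) : co β j (1 : Nov deg) = if β = 0 ∧ j = 0 then 1 else 0 := by
  change (1 : Nov deg).coeff (show Ix deg from (β, j)) = _
  rw [HahnSeries.coeff_one]
  exact if_congr Prod.ext_iff rfl rfl

variable {B : ℕ} (π : Fin B → ℕ) (v : ℕ × Fin B → V)

/-- The series of a formal function. -/
noncomputable def ser (F : G3a.Fe p (Nov deg)) : P269.Ser B Γ :=
  fun l β j => cf F β j (l.map fun i => ι p (v i)).prod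

theorem d_ser (i : ℕ × Fin B) (F : G3a.Fe p (Nov deg)) :
    P269.Ser.d i (ser v F) = ser v (Fn.D (v i) F) := rfl

theorem ser_add (F G : G3a.Fe p (Nov deg)) : ser v (F + G) = ser v F + ser v G := by
  funext l β j
  exact map_add (co β j) _ _

variable {π v} (hv : ∀ i, p.σ (v i) = (-1 : ℂ) ^ π i.2 • v i)
include hv

theorem par_mon (l : List (ℕ × Fin B)) : par p (l.map fun i => ι p (v i)).prod =
    (-1 : ℂ) ^ (l.map fun j => π j.2).sum • (l.map fun i => ι p (v i)).prod := by
  induction l with
  | nil => simp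
  | cons i l ih =>
    rw [List.map_cons, List.prod_cons, map_mul, ih, par_ι, hv, map_smul, smul_mul_smul_comm,
      List.map_cons, List.sum_cons, pow_add]

theorem mul_ser (l : List (ℕ × Fin B)) (F G : G3a.Fe p (Nov deg)) :
    P269.Ser.mul π l (ser v F) (ser v G) = ser v (F * G) l := by
  induction l generalizing F G with
  | nil =>
    funext β j
    change _ = co β j ((F * G).ap 1)
    rw [Fn.mul_ap_one, co_mul]
    rfl
  | cons i l ih =>
    rw [P269.Ser.mul, d_ser, d_ser, ih]
    change _ = ser v (Fn.D (v i) (F * G)) l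
    rcases Nat.even_or_odd (π i.2) with h | h
    · have e : (fun l' => P269.Ser.sg π i l' • ser v F l') = ser v F := by
        funext l'
        rw [P269.Ser.sg, pow_mul, h.neg_one_pow, one_pow, one_smul]
      rw [e, ih, Fn.D_mul_ev (by rw [hv, h.neg_one_pow, one_smul]), ser_add]
      rfl
    · have e : (fun l' => P269.Ser.sg π i l' • ser v F l') = ser v (Fn.τ F) := by
        funext l' β j
        change _ = co β j (F.ap (par p _))
        rw [P269.Ser.sg, pow_mul, h.neg_one_pow, par_mon hv, map_smul, map_smul]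
        rfl
      rw [e, ih, Fn.D_mul_od (by rw [hv, h.neg_one_pow, neg_smul, one_smul]), ser_add]
      rfl

theorem pow_ser (F : G3a.Fe p (Nov deg)) (n : ℕ) : P269.Ser.pow π (ser v F) n = ser v (F ^ n) := by
  induction n with
  | zero =>
    funext l β j
    rw [pow_zero, P269.Ser.pow]
    cases l with
    | nil =>
      change _ = co β j ((1 : G3a.Fe p (Nov deg)).ap 1)
      rw [Fn.one_ap_one, co_one]
      by_cases h : β = 0 ∧ j = 0
      · exact (if_pos ⟨rfl, h⟩).trans (if_pos h).symm
      · exact (if_neg fun h' => h h'.2).trans (if_neg h).symm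
    | cons i l =>
      change _ = ser v (Fn.D (v i) 1) l β j
      rw [Fn.D_one]
      exact (if_neg fun h => List.cons_ne_nil _ _ h.1).trans (map_zero (co β j)).symm
  | succ n ih =>
    funext l
    rw [P269.Ser.pow, ih, pow_succ']
    exact mul_ser hv l F _

end Dict

theorem IsExp.dict {C E : G3a.Fe p (Nov deg)} (h : IsExp C E) {B : ℕ} (π : Fin B → ℕ)
    (v : ℕ × Fin B → V) (hv : ∀ i, p.σ (v i) = (-1 : ℂ) ^ π i.2 • v i) :
    P269.Ser.exp π (fun l β j => cf C β j (l.map fun i => ι p (v i)).prod) =
      fun l β j => cf E β j (l.map fun i => ι p (v i)).prod := by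
  funext l β j
  rw [h.eq]
  exact finsum_congr fun n => congrArg (fun F : P269.Ser B Γ => F l β j / n.factorial)
    (Dict.pow_ser hv C n)

end Vale.Agent.P269.Br
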