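import Vale.Agent.P269.Br.NovA

/-!
# The exponential of the connected invariants
-/

namespace Vale.Agent.P269.Br

open Set Function Fock Deg

variable {Γ : Type} [AddCommGroup Γ] {deg : Γ →+ ℝ} {V : Type} [AddCommGroup V] [Module ℂ V]
  {p : Par ℂ V}

namespace ExpA

variable (deg) in
/-- The elements of the Novikov ring with support in a given set. -/
noncomputable def Sup (T : Γ → ℤ → Prop) : Submodule ℂ (Nov deg) where
  carrier := {s | ∀ β j, co β j s ≠ 0 → T β j}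
  add_mem' := fun {a b} ha hb β j h => by_contra fun h1 => h (by
    rw [map_add, not_not.1 (mt (ha β j) h1), not_not.1 (mt (hb β j) h1), add_zero])
  zero_mem' := fun _ _ h => (h (map_zero _)).elim
  smul_mem' := fun c a ha β j h => ha β j fun h1 => h (by rw [map_smul, h1, smul_zero])

theorem exists_ne {α : Type} {f : α → ℂ} (h : ∑ᶠ i, f i ≠ 0) : ∃ i, f i ≠ 0 :=
  by_contra fun h1 => h (finsum_eq_zero_of_forall_eq_zero fun i => by_contra fun h2 => h1 ⟨i, h2⟩)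

theorem mul_sup {A B T : Γ → ℤ → Prop}
    (h : ∀ β j β' j', A β j → B β' j' → T (β + β') (j + j')) {s t : Nov deg}
    (hs : s ∈ Sup deg A) (ht : t ∈ Sup deg B) : s * t ∈ Sup deg T := fun β j h1 => by
  rw [co_mul] at h1
  obtain ⟨x, hx⟩ := exists_ne h1
  have := h _ _ _ _ (hs _ _ (left_ne_zero_of_mul hx)) (ht _ _ (right_ne_zero_of_mul hx))
  rwa [add_sub_cancel, add_sub_cancel] at this

theorem one_sup {T : Γ → ℤ → Prop} (h : T 0 0) : (1 : Nov deg) ∈ Sup deg T := fun β j h1 => by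
  classical
  rw [← mo_zero, co_mo] at h1
  obtain ⟨rfl, rfl⟩ := (ite_ne_right_iff.1 h1).1
  exact h

theorem one_ap (x : S p) : (1 : G3a.Fe p (Nov deg)).ap x = aug p x • (1 : Nov deg) := rfl

theorem pow_mem {C : G3a.Fe p (Nov deg)} {M : AddSubmonoid Γ} (hM : ∀ β, cf C β ≠ 0 → β ∈ M)
    (n : ℕ) : ∀ x, (C ^ n).ap x ∈ Sup deg fun β _ => β ∈ M := by
  induction n with
  | zero => exact fun x => Submodule.smul_mem _ _ (one_sup M.zero_mem)
  | succ n ih =>
    rw [pow_succ]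
    exact Fn.mul_ap_mem (fun _ h => h) (fun _ ha _ hb => mul_sup (fun _ _ _ _ => M.add_mem) ha hb)
      ih fun x β j h => hM β fun h1 => h (LinearMap.congr_fun (congrFun h1 j) x)

theorem fil_le {n : ℕ} {N : Submodule ℂ (S p)} (h1 : 1 ∈ N)
    (h : ∀ v, ∀ x ∈ Fn.Fil p n, ι p v * x ∈ N) : Fn.Fil p (n + 1) ≤ N :=
  Submodule.span_le.2 (by
    rintro y (rfl | ⟨v, x, hx, rfl⟩)
    · exact h1
    · exact h v x hx)

theorem one_fil (n : ℕ) : (1 : S p) ∈ Fn.Fil p (n + 1) := Submodule.subset_span (Or.inl rfl)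

theorem mul_fil {n : ℕ} (v : V) {x : S p} (hx : x ∈ Fn.Fil p n) : ι p v * x ∈ Fn.Fil p (n + 1) :=
  Submodule.subset_span (Or.inr ⟨v, x, hx, rfl⟩)

theorem par_fil : ∀ n, Fn.Fil p n ≤ (Fn.Fil p n).comap (par p).toLinearMap
  | 0 => bot_le
  | n + 1 => fil_le (show par p 1 ∈ Fn.Fil p (n + 1) from (map_one (par p)).symm ▸ one_fil n)
      fun v x hx => by
      show par p (ι p v * x) ∈ Fn.Fil p (n + 1)
      rw [map_mul, par_ι]
      exact mul_fil _ (par_fil n hx)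

theorem dv_fil {a : Module.End ℂ V} (ha : IsEv p p a) :
    ∀ n, Fn.Fil p n ≤ (Fn.Fil p n).comap (dv p a)
  | 0 => bot_le
  | n + 1 => fil_le (by rw [Submodule.mem_comap, dv_one]; exact zero_mem _) fun v x hx => by
      rw [Submodule.mem_comap, dv_ι_mul ha]
      exact add_mem (mul_fil _ hx) (mul_fil _ (dv_fil ha n hx))

variable (deg) in
/-- The elements of weight at least `a`. -/
noncomputable def W (a : ℤ) : Submodule ℂ (Nov deg) := Sup deg fun β j => (a : ℝ) ≤ j + 2 * deg β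

theorem W_anti {a b : ℤ} (h : a ≤ b) {s : Nov deg} (hs : s ∈ W deg b) : s ∈ W deg a :=
  fun β j h1 => (Int.cast_le.2 h).trans (hs β j h1)

theorem W_mul {a b : ℤ} {s t : Nov deg} (hs : s ∈ W deg a) (ht : t ∈ W deg b) :
    s * t ∈ W deg (a + b) :=
  mul_sup (fun _ _ _ _ h h' => by rw [map_add]; push_cast; linarith) hs ht

variable (deg p) in
/-- The functions of weight at least `a`. -/
noncomputable def Fl (a : ℤ) : Submodule ℂ (G3a.Fe p (Nov deg)) where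
  carrier := {F | ∀ n : ℕ, ∀ x ∈ Fn.Fil p n, F.ap x ∈ W deg (a + 2 - 2 * n)}
  add_mem' := fun ha hb n x hx => add_mem (ha n x hx) (hb n x hx)
  zero_mem' := fun _ _ _ => zero_mem _
  smul_mem' := fun c _ ha n x hx => Submodule.smul_mem _ c (ha n x hx)

variable {a b : ℤ} {F G C : G3a.Fe p (Nov deg)}

theorem Fl_anti (h : a ≤ b) (hF : F ∈ Fl deg p b) : F ∈ Fl deg p a :=
  fun n x hx => W_anti (by omega) (hF n x hx)

theorem Fl_D (hF : F ∈ Fl deg p a) (v : V) : Fn.D v F ∈ Fl deg p (a - 2) :=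
  fun n x hx => W_anti (by push_cast; omega) (hF (n + 1) _ (mul_fil v hx))

theorem Fl_τ (hF : F ∈ Fl deg p a) : Fn.τ F ∈ Fl deg p a :=
  fun n _ hx => hF n _ (par_fil n hx)

theorem Fl_mul (hF : F ∈ Fl deg p a) (hG : G ∈ Fl deg p b) : F * G ∈ Fl deg p (a + b) := by
  intro n
  induction n generalizing a b F G with
  | zero => exact fun x hx => by rw [(Submodule.mem_bot ℂ).1 hx, map_zero]; exact zero_mem _
  | succ n ih =>
    refine fil_le (N := (W deg _).comap (F * G).ap) ?_ fun v x hx => ?_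
    · rw [Submodule.mem_comap, Fn.mul_ap_one]
      exact W_anti (by push_cast; omega) (W_mul (hF 1 1 (one_fil 0)) (hG 1 1 (one_fil 0)))
    · rw [Submodule.mem_comap, ← Fn.D_ap, Fn.D_mul', Fn.add_ap, Fn.add_ap]
      exact add_mem (add_mem (W_anti (by push_cast; omega) (ih (Fl_D hF v) hG x hx))
        (W_anti (by push_cast; omega) (ih hF (Fl_D hG _) x hx)))
        (W_anti (by push_cast; omega) (ih (Fl_τ hF) (Fl_D hG _) x hx))

theorem Fl_one : (1 : G3a.Fe p (Nov deg)) ∈ Fl deg p 0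
  | 0, x, hx => by rw [(Submodule.mem_bot ℂ).1 hx, map_zero]; exact zero_mem _
  | n + 1, _, _ => W_anti (b := 0) (by push_cast; omega)
      (Submodule.smul_mem _ _ (one_sup (by simp)))

theorem Fl_pow (hC : C ∈ Fl deg p 1) : ∀ n : ℕ, C ^ n ∈ Fl deg p n
  | 0 => by rw [pow_zero, Nat.cast_zero]; exact Fl_one
  | n + 1 => by
    rw [pow_succ, Nat.cast_succ]
    exact Fl_mul (Fl_pow hC n) hC

theorem eq_zero (h : ∀ n : ℕ, F ∈ Fl deg p (n - 1)) : F = 0 := by
  ext1 x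
  refine co_ext fun β j => ?_
  rw [Fn.zero_ap, map_zero]
  by_contra h1
  obtain ⟨m, hm⟩ := Fn.exists_Fil x
  obtain ⟨n, hn⟩ := exists_nat_gt (j + 2 * deg β + 2 * m)
  have := h n m x hm β j h1
  push_cast at this
  linarith

theorem pow_le (hC : C ∈ Fl deg p 1) {n m : ℕ} {x : S p} (hx : x ∈ Fn.Fil p m) {β : Γ} {j : ℤ}
    (h : cf (C ^ n) β j x ≠ 0) : (n : ℝ) + 2 - 2 * m ≤ j + 2 * deg β := by
  exact_mod_cast Fl_pow hC n m x hx β j h

theorem pow_fin (hC : C ∈ Fl deg p 1) (β : Γ) (j : ℤ) (x : S p) :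
    {n : ℕ | cf (C ^ n) β j x ≠ 0}.Finite := by
  obtain ⟨m, hm⟩ := Fn.exists_Fil x
  obtain ⟨N, hN⟩ := exists_nat_gt (j + 2 * deg β + 2 * m)
  refine (finite_lt_nat N).subset fun n hn => Nat.cast_lt (α := ℝ).1 ?_
  linarith [pow_le hC hm hn]

theorem exists_exp (hC : C ∈ Fl deg p 1) (h : ∀ β, cf C β ≠ 0 → ∃ n : ℕ, deg β = n) :
    ∃ E : G3a.Fe p (Nov deg), ∀ β j x, cf E β j x = ∑ᶠ n : ℕ, cf (C ^ n) β j x / n.factorial := by
  have h1 : ∀ β j x, (support fun n : ℕ => cf (C ^ n) β j x / n.factorial).Finite :=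
    fun β j x => (pow_fin hC β j x).subset fun n hn h2 => hn (by simp only [h2, zero_div])
  let e : Deg.Ser Γ p := fun β j =>
    { toFun := fun x => ∑ᶠ n : ℕ, cf (C ^ n) β j x / n.factorial
      map_add' := fun x y => by
        rw [← finsum_add_distrib (h1 β j x) (h1 β j y)]
        simp only [map_add, add_div]
      map_smul' := fun c x => by
        rw [RingHom.id_apply, smul_finsum' c (h1 β j x)]
        simp only [map_smul, smul_eq_mul, mul_div_assoc] }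
  have h2 : ∀ β j x, e β j x ≠ 0 → ∃ n, cf (C ^ n) β j x ≠ 0 := fun β j x h2 =>
    (exists_ne h2).imp fun n hn h3 => hn (by rw [h3, zero_div])
  refine (exists_cf (deg := deg) (C := e) (fun β hβ => ?_) (fun r x => ?_) fun r j x => ?_).imp
    fun E hE β j x => by rw [hE]; rfl
  · obtain ⟨j, hj⟩ := Function.ne_iff.1 hβ
    obtain ⟨x, hx⟩ := DFunLike.ne_iff.1 hj
    obtain ⟨n, hn⟩ := h2 β j x hx
    obtain ⟨k, hk⟩ := pow_mem (M := (AddMonoidHom.mrange (Nat.castAddMonoidHom ℝ)).comap deg)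
      (fun γ hγ => (h γ hγ).imp fun _ => Eq.symm) n x β j hn
    exact ⟨k, hk.symm⟩
  · obtain ⟨m, hm⟩ := Fn.exists_Fil x
    refine ⟨⌊-2 * r - 2 * m⌋, fun β hβ j hj => by_contra fun h3 => ?_⟩
    obtain ⟨n, hn⟩ := h2 β j x h3
    have h4 : (j : ℝ) < _ := (Int.cast_lt.2 hj).trans_le (Int.floor_le _)
    have h5 := pow_le hC hm hn
    have h6 : (0 : ℝ) ≤ n := n.cast_nonneg
    rw [hβ] at h5
    linarith
  · obtain ⟨m, hm⟩ := Fn.exists_Fil x
    obtain ⟨N, hN⟩ := exists_nat_gt (j + 2 * r + 2 * m)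
    refine ((finite_lt_nat N).biUnion fun n _ => co_fin ((C ^ n).ap x) r j).subset fun β hβ => ?_
    obtain ⟨n, hn⟩ := h2 β j x hβ.2
    refine mem_biUnion (Nat.cast_lt (α := ℝ).1 ?_) ⟨hβ.1, hn⟩
    have h5 := pow_le hC hm hn
    rw [hβ.1] at h5
    linarith

/-- The truncated exponential. -/
noncomputable def tr (C : G3a.Fe p (Nov deg)) (N : ℕ) : G3a.Fe p (Nov deg) :=
  ∑ n ∈ Finset.range N, (n.factorial : ℂ)⁻¹ • C ^ n

variable {E : G3a.Fe p (Nov deg)}

theorem sub_tr (hC : C ∈ Fl deg p 1)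
    (hE : ∀ β j x, cf E β j x = ∑ᶠ n : ℕ, cf (C ^ n) β j x / n.factorial) (N : ℕ) :
    E - tr C N ∈ Fl deg p N := fun m x hx β j h => by_contra fun h1 => h (by
  rw [Fn.sub_ap, map_sub, sub_eq_zero, tr, Fn.sum_ap, map_sum]
  refine (hE β j x).trans ((finsum_eq_sum_of_support_subset _ fun n hn => ?_).trans
    (Finset.sum_congr rfl fun n _ => ?_))
  · have h2 := pow_le (n := n) (β := β) (j := j) hC hx fun h2 => hn (by simp only [h2, zero_div])
    refine Finset.mem_coe.2 (Finset.mem_range.2 (Nat.cast_lt (α := ℝ).1 ?_))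
    push_cast at h1
    linarith [not_le.1 h1]
  · rw [Fn.smul_ap, map_smul, smul_eq_mul, div_eq_inv_mul]
    rfl)

theorem der_exp (hC : C ∈ Fl deg p 1) (hτ : Fn.τ C = C)
    (hE : ∀ β j x, cf E β j x = ∑ᶠ n : ℕ, cf (C ^ n) β j x / n.factorial)
    {d : G3a.Fe p (Nov deg) →ₗ[ℂ] G3a.Fe p (Nov deg)} (hd : ∀ G, d (C * G) = d C * G + C * d G)
    (hf : ∀ a, ∀ F ∈ Fl deg p a, d F ∈ Fl deg p (a - 2)) (h1 : d 1 = 0) : d E = d C * E := by
  have h2 : ∀ n : ℕ, d (C ^ (n + 1)) = ((n + 1 : ℕ) : ℂ) • (d C * C ^ n) := fun n => by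
    induction n with
    | zero => simp
    | succ n ih =>
      rw [pow_succ', hd, ih, mul_smul_comm, ← mul_assoc, G3a.comm_ev hτ, mul_assoc, ← pow_succ',
        Nat.cast_succ (n + 1), add_smul, one_smul, add_comm]
  have h3 : ∀ N, d (tr C (N + 1)) = d C * tr C N := fun N => by
    rw [tr, Finset.sum_range_succ', map_add, map_smul, pow_zero, h1, smul_zero, add_zero, map_sum,
      tr, Finset.mul_sum]
    refine Finset.sum_congr rfl fun n _ => ?_
    have h4 : ((n + 1 : ℕ) : ℂ) ≠ 0 := Nat.cast_ne_zero.2 n.succ_ne_zero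
    rw [map_smul, h2, smul_smul, mul_smul_comm, Nat.factorial_succ, Nat.cast_mul, mul_inv,
      mul_right_comm, inv_mul_cancel₀ h4, one_mul]
  refine sub_eq_zero.1 (eq_zero fun N => ?_)
  rw [show d E - d C * E = d (E - tr C (N + 1)) - d C * (E - tr C N) by
    rw [map_sub, h3, mul_sub, sub_sub_sub_cancel_right]]
  exact sub_mem (Fl_anti (by push_cast; omega) (hf _ _ (sub_tr hC hE (N + 1))))
    (Fl_anti (by omega) (Fl_mul (hf _ _ hC) (sub_tr hC hE N)))

theorem mapc_mul {Λ : Nov deg →ₗ[ℂ] Nov deg} (h : ∀ s t, Λ (s * t) = Λ s * t + s * Λ t)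
    (F G : G3a.Fe p (Nov deg)) : Fn.mapc (SPar.triv ℂ _) Λ (F * G) =
      Fn.mapc (SPar.triv ℂ _) Λ F * G + F * Fn.mapc (SPar.triv ℂ _) Λ G := by
  refine Fn.ext fun x => ?_
  obtain ⟨t, ht⟩ := G3a.cop x
  rw [Fn.add_ap, Fn.mapc_ap, ht, ht, ht]
  clear ht
  induction t with
  | zero => simp
  | tmul a b => exact h _ _
  | add a b ha hb => simp only [map_add, ha, hb]; abel

theorem isExp (hC : C ∈ Fl deg p 1) (hτ : Fn.τ C = C)
    (hE : ∀ β j x, cf E β j x = ∑ᶠ n : ℕ, cf (C ^ n) β j x / n.factorial) : IsExp C E where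
  ev := hτ
  fin := pow_fin hC
  eq := hE
  D v := der_exp hC hτ hE (Fn.D_mul_of_ev hτ v) (fun _ _ h => Fl_D h v) (Fn.D_one v)
  dv a ha := der_exp hC hτ hE (fun G => by simp only [← Fn.Vf_eq_pre, Fn.Vf_mul_ev ha])
    (fun _ _ h => Fl_anti (by omega) fun n _ hx => h n _ (dv_fil ha n hx))
    ((Fn.Vf_eq_pre a 1).symm.trans (Fn.Vf_one a))
  der lam Λ h := der_exp hC hτ hE (mapc_mul (der_mul h) C)
    (fun _ _ hF => Fl_anti (by omega) fun n x hx β j h1 =>
      hF n x hx β j (right_ne_zero_of_mul ((h β j _).symm.trans_ne h1)))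
    (Fn.ext fun x => by
      have h1 : Λ 1 = 0 := by simpa using der_mul h 1 1
      rw [Fn.mapc_ap, one_ap, map_smul, h1, smul_zero, Fn.zero_ap])

end ExpA

theorem In.exists_isExp {C : Deg.Ser Γ p} (h : In deg C) :
    ∃ C' E : G3a.Fe p (Nov deg), cf C' = C ∧ IsExp C' E := by
  have h0 : ∀ β, C β ≠ 0 → ∃ n : ℕ, deg β = n := fun β hβ =>
    let ⟨j, hj⟩ := Function.ne_iff.1 hβ
    (h.low β j hj).2
  obtain ⟨C', rfl⟩ := exists_cf h0 (fun r x => ⟨-1, fun β _ j hj => by_contra fun h1 =>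
    (h.low β j fun h2 => h1 (by rw [h2]; rfl)).1.not_gt hj⟩) h.fin
  have h1 : ∀ x, C'.ap x ∈ ExpA.W deg (-1) := fun x β j h1 => by
    obtain ⟨h2, n, h3⟩ := h.low β j fun h2 => h1 (LinearMap.congr_fun h2 x)
    have h4 : ((-1 : ℤ) : ℝ) ≤ j := Int.cast_le.2 h2
    have h5 : (0 : ℝ) ≤ n := n.cast_nonneg
    linarith
  have h2 : C'.ap 1 ∈ ExpA.W deg 1 := fun β j h2 => by
    obtain ⟨h3, n, h4⟩ := h.low β j fun h3 => h2 (LinearMap.congr_fun h3 1)
    rcases n with _ | n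
    · have h5 : ((1 : ℤ) : ℝ) ≤ j := Int.cast_le.2 (h.vac β j h2 (h4.trans Nat.cast_zero))
      rw [h4, Nat.cast_zero]
      linarith
    · have h5 : ((-1 : ℤ) : ℝ) ≤ j := Int.cast_le.2 h3
      have h6 : (0 : ℝ) ≤ n := n.cast_nonneg
      rw [h4]
      push_cast at h5 ⊢
      linarith
  have h3 : C' ∈ ExpA.Fl deg p 1 := by
    rintro (_ | _ | n)
    · exact fun x hx => by rw [(Submodule.mem_bot ℂ).1 hx, map_zero]; exact zero_mem _
    · refine ExpA.fil_le (N := (ExpA.W deg _).comap C'.ap) h2 fun v x hx => ?_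
      rw [(Submodule.mem_bot ℂ).1 hx, mul_zero]
      exact zero_mem _
    · exact fun x _ => ExpA.W_anti (by push_cast; omega) (h1 x)
  obtain ⟨E, hE⟩ := ExpA.exists_exp h3 h0
  exact ⟨C', E, rfl, ExpA.isExp h3 (Fn.ext fun x => co_ext fun β j => h.ev β j x) hE⟩

theorem IsExp.mem {C E : G3a.Fe p (Nov deg)} (h : IsExp C E) {M : AddSubmonoid Γ}
    (hM : ∀ β, cf C β ≠ 0 → β ∈ M) {β : Γ} (hβ : cf E β ≠ 0) : β ∈ M := by
  obtain ⟨j, hj⟩ := Function.ne_iff.1 hβ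
  obtain ⟨x, hx⟩ := DFunLike.ne_iff.1 hj
  obtain ⟨n, hn⟩ := ExpA.exists_ne ((h.eq β j x).symm.trans_ne hx)
  exact ExpA.pow_mem hM n x β j fun h1 => hn (by rw [show cf (C ^ n) β j x = 0 from h1, zero_div])

end Vale.Agent.P269.Br
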