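import Vale.Agent.P269.Br.Iface
import Vale.Agent.P269.Br.Tr
import Vale.Agent.P269.Vir.KP

/-!
# The chart of the statement and the chart of the family
-/

set_option linter.unusedSectionVars false

namespace Vale.Agent.P269

open P291Z Set Function Topology Filter MvPolynomial

variable {R J K ι ν ν₀ κ : Type} [Fintype R] [Fintype J] [Fintype K] [Fintype ι] [DecidableEq ι]
  [Fintype ν] [Fintype ν₀] [Fintype κ] [IsEmpty ν₀] [IsEmpty κ]

variable (ν ν₀) in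
/-- The labels. -/
def Br.em (ε : Type) [IsEmpty ε] : (ν ⊕ ν₀) ⊕ ε ≃ ν :=
  (Equiv.sumEmpty _ _).trans (Equiv.sumEmpty _ _)

namespace Ch

open Br

variable (ch : Ch ι J) (ν ν₀ κ)

/-- The groups. -/
noncomputable def trA : ch.A ν ≃L[ℂ] ch.AF (ν ⊕ ν₀) κ Empty :=
  LinearEquiv.toContinuousLinearEquiv
    { toFun s := (0, s.1, s.2.1, fun n => s.2.2 (em ν ν₀ κ n))
      invFun s := (s.2.1, s.2.2.1, fun n => s.2.2.2 (.inl (.inl n)))
      map_add' _ _ := Prod.ext (Subsingleton.elim _ _) rfl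
      map_smul' _ _ := Prod.ext (Subsingleton.elim _ _) rfl
      left_inv _ := rfl
      right_inv s := Prod.ext (Subsingleton.elim _ _) (Prod.ext rfl (Prod.ext rfl
        (funext fun n => congrArg s.2.2.2 ((em ν ν₀ κ).symm_apply_apply n)))) }

/-- The ambient spaces. -/
noncomputable def trW : ch.W ν ≃L[ℂ] ch.WF (ν ⊕ ν₀) κ Empty :=
  LinearEquiv.toContinuousLinearEquiv
    { toFun x := (0, W.mk' x.Q (fun n => x.p (em ν ν₀ _ n)) x.Ξ x.X)
      invFun x := W.mk' x.2.Q (fun n => x.2.p (.inl (.inl n))) x.2.Ξ x.2.X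
      map_add' _ _ := Prod.ext (Subsingleton.elim _ _) rfl
      map_smul' _ _ := Prod.ext (Subsingleton.elim _ _) rfl
      left_inv _ := rfl
      right_inv x := Prod.ext (Subsingleton.elim _ _) (W.ext (fun _ => rfl)
        (fun n => congrArg x.2.p ((em ν ν₀ _).symm_apply_apply n)) rfl fun _ => rfl) }

variable {ch ν ν₀ κ} {x : ch.W ν} {s : ch.A ν}

theorem trA_apply : ch.trA ν ν₀ κ s = (0, s.1, s.2.1, fun n => s.2.2 (em ν ν₀ κ n)) := rfl

theorem trW_apply : ch.trW ν ν₀ κ x = (0, W.mk' x.Q (fun n => x.p (em ν ν₀ _ n)) x.Ξ x.X) := rfl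

theorem tr_act (F : Wt Empty Empty R J) : Tr act (actF F) (ch.trA ν ν₀ κ) (ch.trW ν ν₀ κ) where
  one := Prod.ext (Subsingleton.elim _ _) rfl
  mul _ _ := Prod.ext (Subsingleton.elim _ _) rfl
  eqv s x := Prod.ext (Subsingleton.elim _ _) (W.ext (fun _ => rfl)
    (by rintro (_ | ⟨q, _⟩); exacts [rfl, isEmptyElim q]) rfl fun j =>
      congrArg (fun X => s.2.1 (some j) ∘L X ∘L sub s _)
        ((congrArg (· • x.X j) (Fintype.prod_empty _)).trans (one_smul _ _)).symm)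

theorem lead_trW : Lead (ch.trW ν ν₀ κ x).2 = Lead x := funext₂ fun γ ρ => by
  classical
  unfold Lead
  simp only [(em ν ν₀ (κ × Bool)).surjective.exists (p := fun n => ∃ s : ι → ℂ, γ 0 = s • x.p n)]
  rfl

theorem trW_base : (ch.trW ν ν₀ κ x).2 ∈ ch.base _ ↔ x ∈ ch.base ν := by
  unfold base
  simp only [mem_ofPred_eq, lead_trW]
  rw [(em ν ν₀ (κ × Bool)).surjective.forall (p := fun n => x.p n ∈ _ ∧ _),
    (em ν ν₀ (κ × Bool)).surjective.forall₂ (p := fun n n' => ∀ s : ι → ℂ, x.p n = _ → n = n')]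
  simp only [EmbeddingLike.apply_eq_iff_eq]
  rfl

theorem trW_baseF : x ∈ ch.base ν ↔ ch.trW ν ν₀ κ x ∈ ch.baseF _ κ univ :=
  ⟨fun h => ⟨trivial, trW_base.2 h, isEmptyElim⟩, fun h => trW_base.1 h.2.1⟩

variable {T : Tgt R J K} {χ : K → R → ℤ} {u : ν ⊕ ν₀ → J → ℕ} {e : K → ι → ℕ}

theorem cyc_fam : ch.cyc κ (T.fam χ) u = ch.baseF _ κ univ :=
  inter_eq_right.2 fun _ h => subset_closure ⟨⟨h, fun _ a => (a trivial).elim, fun _ _ => trivial,
    fun _ a => a.elim, fun _ a => (a trivial).elim⟩, fun _ a => (a trivial).elim⟩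

theorem trW_cyc : x ∈ ch.base ν ↔ ch.trW ν ν₀ κ x ∈ ch.cyc κ (T.fam χ) u := by
  rw [cyc_fam, ← trW_baseF]

theorem trW_sol : x ∈ ch.sol ν T ↔
    ch.trW ν ν₀ κ x ∈ ch.solF _ κ (T.fam χ) ∩ ch.cyc κ (T.fam χ) u := by
  rw [mem_inter_iff, ← trW_cyc]
  change _ ↔ (_ ∧ _ ∈ sol _ _ ((T.fam χ).fib _)) ∧ _
  rw [Tgt.fam_fib]
  exact ⟨fun h => ⟨⟨trW_baseF.1 h.1, trW_base.2 h.1, h.2⟩, h.1⟩, fun h => ⟨h.2, h.1.2.2⟩⟩

theorem polF_fam : ch.polF (T.fam χ) e = ch.pol T e :=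
  congrArg (ch.polS e) (funext fun _ => support_map_of_injective _ (C_injective _ _))

theorem ρF_trA : ρF (T.fam χ) (ch.trA ν ν₀ κ s) = ρ s := funext fun f => by
  simp only [ρF, Fintype.prod_empty, one_smul]
  rfl

theorem sctF_trW : sctF (T.fam χ) e (ch.trW ν ν₀ κ x) = sct T e x := by
  rw [sctF, Tgt.fam_fib]
  rfl

theorem vanF_trW : vanF (T.fam χ) e (ch.trW ν ν₀ κ x) = van T e x := by
  rw [vanF, polF_fam]
  rfl

theorem obsF_trW : obsF (T.fam χ) e (ch.trW ν ν₀ κ x) = obs T e x := by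
  rw [obsF, polF_fam, Tgt.fam_fib]
  exact Set.ext fun _ => and_congr_right fun _ => forall₂_congr fun _ _ => exists_congr fun _ =>
    and_iff_right fun _ a => (a trivial).elim

theorem isVir_iff {v : BM (ch.Mod ν T)} : ch.IsVir ν T e v ↔
    ((ch.kd _ κ (T.fam χ) e).pb (ch.trA ν ν₀ κ) (ch.trW ν ν₀ κ)).Stm act (ch.sol ν T) (ch.base ν) v := by
  rw [show (ch.kd _ κ (T.fam χ) e).pb (ch.trA ν ν₀ κ) (ch.trW ν ν₀ κ) = ⟨ρ, ch.pol T e,
    fun x => vanM (T.fam χ) e (ch.trW ν ν₀ κ x), fun x => obsM (T.fam χ) e (ch.trW ν ν₀ κ x),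
    sct T e⟩ by simp only [KD.pb, ρF_trA, polF_fam, sctF_trW]]
  have hv : ∀ x f, f ∈ vanM (T.fam χ) e (ch.trW ν ν₀ κ x) ↔ f ∈ van T e x := fun x f => by
    rw [← mem_vanF, vanF_trW]
  have ho : ∀ x f, f ∈ obsM (T.fam χ) e (ch.trW ν ν₀ κ x) ↔ f ∈ obs T e x := fun x f => by
    rw [← mem_obsF, obsF_trW]
  refine exists_congr fun O => exists_congr fun hO => exists_congr fun N => exists_congr fun r =>
    exists_congr fun β => exists_congr fun t => and_congr_right fun _ => and_congr_right fun _ =>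
    and_congr_right fun _ => and_congr_right fun _ => and_congr_right fun _ => ⟨?_, ?_⟩
  · rintro ⟨a, b, c, d⟩
    exact ⟨⟨fun x hx f h => (a x hx).1 ((hv x f).1 h), fun x hx => (a x hx).2.1,
      fun x hx => (a x hx).2.2.1, fun x hx => (a x hx).2.2.2.1, fun x hx => (a x hx).2.2.2.2, b,
      fun x hx f h h' => (hv x f).2 ((c x hx).1 f ((ho x f).1 h) h'),
      fun x hx f h => ((c x hx).2 f h).imp fun g k => ⟨(ho x g).2 k.1, k.2⟩⟩, d⟩
  · rintro ⟨a, d⟩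
    exact ⟨fun x hx => ⟨fun f h => a.van_le x hx ((hv x f).2 h), a.le x hx, a.rank x hx,
      a.zero x hx, a.equi x hx⟩, a.closed, fun x hx => ⟨fun f h h' => (hv x f).1
        (a.disj x hx f ((ho x f).2 h) h'), fun f h => (a.span x hx f h).imp fun g k =>
          ⟨(ho x g).1 k.1, k.2⟩⟩, d⟩

/-- the virtual classes correspond -/
theorem isVir_iff_push (hF : (T.fam χ).Inv) (hf : ch.Fits (T.fam χ) e)
    {Φ : ch.Mod ν T ≃ₜ ModS (T.fam χ) (ch.cyc κ (T.fam χ) u)}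
    (hΦ : ∀ x : ch.sol ν T, Φ (Quo.mk act x) = Quo.mk _ ⟨ch.trW ν ν₀ κ x, trW_sol.1 x.2⟩)
    {v : BM (ch.Mod ν T)} :
    ch.IsVir ν T e v ↔ IsVirF (T.fam χ) e (ch.cyc κ (T.fam χ) u) (push Φ v) :=
  isVir_iff.trans (((tr_act _).stm (fun _ => trW_cyc) (fun _ => trW_sol) hΦ
    fun x _ => ⟨hf.sctF_mem x, fun _ a => sctF_actF hF a x⟩).trans isVirF_iff.symm)

end Ch

end Vale.Agent.P269
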