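import Vale.Agent.P269.Deg.G3A
import Vale.Agent.P269.Defs.Vir

/-!
# The Novikov ring: definitions
-/

namespace Vale.Agent.P269.Br

open Set Function Fock Deg

variable {Γ : Type} [AddCommGroup Γ]

/-- Pairs of a class and a power of the Planck constant. -/
def Ix (_deg : Γ →+ ℝ) : Type := Γ × ℤ

variable (deg : Γ →+ ℝ)

instance : AddCommGroup (Ix deg) := inferInstanceAs (AddCommGroup (Γ × ℤ))

/-- The degree and the power. -/
def Ix.φ (x : Ix deg) : ℝ ×ₗ ℤ := toLex (deg x.1, x.2)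

theorem Ix.φ_add (x y : Ix deg) : Ix.φ deg (x + y) = Ix.φ deg x + Ix.φ deg y :=
  congrArg toLex (Prod.ext (deg.map_add x.1 y.1) rfl)

instance : PartialOrder (Ix deg) where
  le x y := x = y ∨ Ix.φ deg x < Ix.φ deg y
  le_refl _ := .inl rfl
  le_trans _ _ _ h h' := h.elim (fun e => e ▸ h') fun a => h'.elim (fun e => .inr (e ▸ a))
    fun b => .inr (a.trans b)
  le_antisymm _ _ h h' := h.elim id fun a => h'.elim Eq.symm fun b => (a.asymm b).elim

theorem Ix.le_def {x y : Ix deg} : x ≤ y ↔ x = y ∨ Ix.φ deg x < Ix.φ deg y := Iff.rfl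

instance : IsOrderedCancelAddMonoid (Ix deg) where
  add_le_add_left _ _ h c := h.imp (congrArg (· + c)) fun a => by
    rw [Ix.φ_add, Ix.φ_add]; exact add_lt_add_left a _
  le_of_add_le_add_left a _ _ h := h.imp add_left_cancel fun e => by
    rw [Ix.φ_add, Ix.φ_add] at e; exact lt_of_add_lt_add_left e

/-- The Novikov ring. -/
abbrev Nov : Type := HahnSeries (Ix deg) ℂ

variable {deg}

/-- The coefficients. -/
noncomputable def co (β : Γ) (j : ℤ) : Nov deg →ₗ[ℂ] ℂ :=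
  HahnSeries.coeff.linearMap (Γ := Ix deg) (β, j)

theorem co_ext {s t : Nov deg} (h : ∀ β j, co β j s = co β j t) : s = t :=
  HahnSeries.ext (funext fun x => h x.1 x.2)

variable (deg) in
/-- The monomials. -/
noncomputable def mo (β : Γ) (j : ℤ) : Nov deg := HahnSeries.single (Γ := Ix deg) (β, j) 1

variable {V : Type} [AddCommGroup V] [Module ℂ V] {p : Par ℂ V}

variable (deg) in
/-- Connected invariants. -/
structure In (C : Deg.Ser Γ p) : Prop where
  ev : ∀ β j x, C β j (par p x) = C β j x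
  low : ∀ β j, C β j ≠ 0 → -1 ≤ j ∧ ∃ n : ℕ, deg β = n
  vac : ∀ β j, C β j 1 ≠ 0 → deg β = 0 → 1 ≤ j
  fin : ∀ r j x, {β | deg β = r ∧ C β j x ≠ 0}.Finite

/-- The coefficients of a formal function. -/
noncomputable def cf (F : G3a.Fe p (Nov deg)) : Deg.Ser Γ p := fun β j => co β j ∘ₗ F.ap

/-- `E` is the exponential of `C`. -/
structure IsExp (C E : G3a.Fe p (Nov deg)) : Prop where
  ev : Fn.τ C = C
  fin : ∀ β j x, {n : ℕ | cf (C ^ n) β j x ≠ 0}.Finite
  eq : ∀ β j x, cf E β j x = ∑ᶠ n : ℕ, cf (C ^ n) β j x / n.factorial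
  D : ∀ v, Fn.D v E = Fn.D v C * E
  dv : ∀ a, IsEv p p a → Fn.pre (dv p a) E = Fn.pre (dv p a) C * E
  der : ∀ (lam : Γ →+ ℂ) (Λ : Nov deg →ₗ[ℂ] Nov deg), (∀ β j s, co β j (Λ s) = lam β * co β j s) →
    Fn.mapc (SPar.triv ℂ _) Λ E = Fn.mapc (SPar.triv ℂ _) Λ C * E

variable {H : Type} [AddCommGroup H] [Module ℂ H] {q : Par ℂ H} {ι : Type} [Fintype ι]

/-- The operator `z⁻¹ m`. -/
noncomputable def dA (m : Module.End ℂ H) : Module.End ℂ (LL H) := zp ℂ H (-1) * Fock.cst m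

/-- `Z` is an eigenfunction of the quantisation of `A`. -/
def Eig (fr : Frame q ι) (Z : ℤ → S (q.fs ℕ) →ₗ[ℂ] ℂ) (A : Module.End ℂ (LL H)) (c : ℂ) : Prop :=
  ∀ j x, Z j (fr.q0 A x) + Z (j + 1) (fr.qm A x) + Z (j - 1) (fr.q1 A x) = c * Z j x

end Vale.Agent.P269.Br
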