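import Vale.Agent.P269.Br.Sel
import Vale.Agent.P269.Br.Iface
import Vale.Agent.P269.Br.Tr
import Vale.Agent.P269.Br.Nov

/-!
# The series of the connected invariants of a class: definitions
-/

set_option linter.unusedSectionVars false

namespace Vale.Agent.P269

open P291Z Set Function Fock

variable {R J K : Type} [Fintype R] [Fintype J] [Fintype K]

/-- The value of homology classes on a class. -/
noncomputable def Br.evB {X : Type} [TopologicalSpace X] (c : H X) : BM X →+ ℂ where
  toFun β := ev β (rep c)
  map_zero' := by unfold ev; split_ifs <;> rfl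
  map_add' _ _ := by
    unfold ev
    split_ifs
    exacts [rfl, (add_zero _).symm]

/-- The monomial of descendant insertions. -/
noncomputable def mon0 {V : Type} [AddCommGroup V] [Module ℂ V] (p : Par ℂ V) (l : List (ℕ × V)) :
    S (p.fs ℕ) := (l.map fun x => ι _ (Finsupp.single x.1 x.2)).prod

/-- Homology classes of the target as homology classes of the target of the family. -/
noncomputable def Tgt.xiB (T : Tgt R J K) (χ : K → R → ℤ) :
    BM T.X ≃+ BM ((T.fam χ).X (T.fam χ).cone) where
  toFun := push (T.xi χ).symm
  invFun := push (T.xi χ)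
  left_inv := Br.push_symm_push (T.xi χ).symm
  right_inv := Br.push_symm_push (T.xi χ)
  map_add' := map_add _

namespace Fam

variable (F : Fam Empty Empty Unit J K)

/-- The degree of a homology class. -/
noncomputable def dgB : BM (F.X F.cone) →+ ℝ :=
  Complex.reAddGroupHom.comp (Br.evB (F.lc _ 0 1))

variable (k : ℕ) {V : Type} [AddCommGroup V] [Module ℂ V] (p : Par ℂ V)
  (i : V →ₗ[ℂ] H (F.X F.cone))

/-- The connected invariants of a class. -/
noncomputable def serK : Deg.Ser (BM (F.X F.cone)) (p.fs ℕ) := fun β j =>
  F.ser0 k (F.exK _ β) p i (fun _ => ⌊F.dgB β⌋) j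

/-- A projective target. -/
structure Ps : Prop where
  tg : F.Tg
  amp : ∃ N, F.Ample 1 N
  big : F.Big k
  ev : IsEv p (parH _) i

end Fam

namespace St

/-- The invariants of the statement are the correlators. -/
def GW : Prop :=
  ∀ {R J K : Type} [Fintype R] [Fintype J] [Fintype K] [DecidableEq R] (T : Tgt R J K)
    (χ : K → R → ℤ) (k : ℕ), (T.fam χ).Tg → (T.fam χ).Big k → ∀ (g : ℕ) β l, T.gw g β l =
      ∑ᶠ d, (T.fam χ).cor k ((T.fam χ).exK _ (T.xiB χ β)) 0 _ (T.fam χ).cone d (g - 1)
        (l.map (Prod.map id (T.xiH χ))) [] []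

/-- The numerical inputs of the bridge. -/
structure BrHy : Prop where
  spec : St.Spec
  par : St.Par
  supp : St.Supp
  add : St.Add
  prod : St.Prod
  div : St.Div
  three : St.Three
  norm : St.Norm
  selC : St.SelC

end St

end Vale.Agent.P269
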