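import Vale.Agent.P269.Br.GWa
import Vale.Agent.P269.Br.MDef
import Vale.Agent.P269.Br.Crv
import Vale.Agent.P269.Bas.Defs
import Vale.Agent.P269.Map.Psi

/-!
# The integrands of the statement and of the family
-/

set_option linter.unusedSectionVars false

namespace Vale.Agent.P269

open P291Z Set Function Topology Filter MvPolynomial Mono

namespace Br

variable {X Y : Type} [TopologicalSpace X] [TopologicalSpace Y] {Φ : X ≃ₜ Y} {a a' : Coch X}
  {b b' : Coch Y}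

variable (Φ a b) in
/-- Cocycles whose classes correspond. -/
def Crs : Prop := supp (δ a) = ∅ ∧ supp (δ b) = ∅ ∧ hcls a = hcls (pull Φ b)

theorem Crs.mul (h : Crs Φ a b) (h' : Crs Φ a' b') : Crs Φ (a * a') (b * b') :=
  ⟨cocycle_mul h.1 h'.1, cocycle_mul h.2.1 h'.2.1, by
    rw [hcls_mul h.1 h'.1, h.2.2, h'.2.2, map_mul, hcls_mul (cocycle_pull Φ.continuous h.2.1)
      (cocycle_pull Φ.continuous h'.2.1)]⟩

theorem Crs.of_pull (h : supp (δ b) = ∅) : Crs Φ (pull Φ b) b :=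
  ⟨cocycle_pull Φ.continuous h, h, rfl⟩

theorem Crs.one : Crs Φ 1 1 := map_one (pull Φ) ▸ .of_pull cocycle_one

theorem Crs.pow (h : Crs Φ a b) : ∀ n : ℕ, Crs Φ (a ^ n) (b ^ n)
  | 0 => by rw [pow_zero, pow_zero]; exact .one
  | n + 1 => by rw [pow_succ, pow_succ]; exact (h.pow n).mul h

theorem Crs.prod {n : ℕ} {f : Fin n → Coch X} {g : Fin n → Coch Y} (h : ∀ i, Crs Φ (f i) (g i)) :
    Crs Φ (List.ofFn f).prod (List.ofFn g).prod := by
  rw [List.ofFn_eq_map, List.ofFn_eq_map]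
  induction List.finRange n with
  | nil => exact .one
  | cons i _ ih => exact (h i).mul ih

theorem Crs.rep_one {Z : Type} [TopologicalSpace Z] {f : Y → Z} (hf : Continuous f)
    (h : Crs Φ a b) : Crs Φ a (pull f (rep 1) * b) := by
  refine one_mul a ▸ Crs.mul ⟨cocycle_one, cocycle_pull hf (DgI.rep_cocycle _), ?_⟩ h
  rw [pull_pull, hcls_one]
  exact ((Tq.hpull_eq ⟨_, hf.comp Φ.continuous⟩ 1).trans (map_one _)).symm

theorem Crs.rep_pull {Z Z' : Type} [TopologicalSpace Z] [TopologicalSpace Z'] (f : C(Y, Z))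
    (g : C(Z, Z')) (c : Zs Z') :
    Crs Φ (pull ((g ∘ f) ∘ Φ) c.1) (pull f (rep (H.mapA g (H.mk c)))) := by
  have b := (g.continuous.comp f.continuous).comp Φ.continuous
  refine ⟨cocycle_pull b c.2, cocycle_pull f.continuous (DgI.rep_cocycle _), ?_⟩
  rw [pull_pull]
  exact (H.map_hcls ⟨_, b⟩ c.2).symm.trans ((congrArg _ (hcls_val c)).trans ((Tq.hpull_eq
    ⟨_, f.continuous.comp Φ.continuous⟩ _).trans (H.map_map _ g _)).symm)

theorem Crs.ev [CompactSpace Y] (h : Crs Φ a b) (v : BM X) : ev v a = ev (push Φ v) b := by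
  have := Φ.symm.compactSpace
  rw [ev_push_homeo, ← Loc.intg_hcls v h.1, h.2.2,
    Loc.intg_hcls v (cocycle_pull Φ.continuous h.2.1)]

end Br

variable {S Λ R J K ι ν ν₀ κ : Type} [Fintype S] [Fintype Λ] [Fintype R] [Fintype J] [Fintype K]
  [Fintype ι] [DecidableEq ι] [Fintype ν] [Fintype ν₀] [Fintype κ]

namespace Ch

open Br

variable {ch : Ch ι J} {ℓ : R → ι → ℤ}

theorem eqv_vl {F : Fam S Λ R J K} (hw : ∀ j i, ch.wd j i = ∑ r, F.w j r * ℓ r i)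
    {Z : Set (ch.WF ν κ Λ)} (hZ : Z ⊆ ch.solF ν κ F) (n : Mk ν κ) :
    Tq.Eqv (actF F.toWt) F.actT Z F.cone (vl · n) :=
  ⟨fun _ h => vl_mem (hZ h) n, (continuousOn_vl n).mono hZ, fun s hs x hx => by
    have a := (Cv.isUnit_iff.1 (isUnit_dupF hs)).2.2 n
    have b := p_mem_crv (hZ hx).1.2.1 n
    refine ⟨θv ℓ n s, Prod.isUnit_iff.2 ⟨isUnit_S hs, isUnit_pi_iff.2 fun r => prod_zpow_ne a _⟩,
      Prod.ext rfl (funext fun j => (fld_actF_p hs b (((mem_solF.1 (hZ hx)).2 _ b).1 j)).trans ?_)⟩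
    simp only [Wt.actT, θv, Cv.prod_prod_zpow a, hw]
    rfl⟩

variable {T : Tgt R J K} {χ : K → R → ℤ}

theorem map_eq_fld (x : ch.sol ν T) (c : crv x.1) (h : fld x.1 c ∈ T.cone) :
    map x c = Quo.mk T.act ⟨_, h⟩ :=
  congrArg (Quo.mk _) (Subtype.ext (funext fun j => (Cv.fld_eq c.2 fun u hu μ => by
    have a := c.2.choose_spec
    have b := (x.2.2 _ a.1).choose_spec.2 j μ
    have e := gr_unique (u := c.2.choose.2) ((congrArg (fun y => (y, c.2.choose.2) ∈ gr x.1) a.2).mp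
      a.1) hu (x.2.1.1 (some j))
    exact (DFunLike.congr_fun e _).symm.trans (b.trans (congrArg (_ * val μ ·) a.2))).symm))

variable [IsEmpty ν₀] [IsEmpty κ] [DecidableEq R]

theorem hasClass_iff (hF : (T.fam χ).Good) (hw : ∀ j i, ch.wd j i = ∑ r, T.w j r * ℓ r i)
    (x : ch.sol ν T) {m : AM Empty R J (ν ⊕ ν₀) κ} (h : Rep ℓ univ (ch.trW ν ν₀ κ x) m)
    (β : BM T.X) : HasClass x β ↔ m.cls (T.fam χ).toWt (T.fam χ).cone = T.xiB χ β := by
  have h0 := (trW_sol (κ := κ) (χ := χ) (u := (0 : ν ⊕ ν₀ → J → ℕ))).1 x.2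
  obtain ⟨B, π, u, s, d⟩ := h.exists_data h0.1.1.2.1
  have h1 := (d.mem_solF hF.toInv hw).1 h0.1
  have hp : Cv.Par ch.o (crv x.1) m.N B π := d.cr.par
  have := hF.nice
  have := hp.nice_quo
  have := (T.xi χ).t2Space
  have h2 := (T.xi χ).continuous.comp (AM.continuous_evm (fun _ a _ => hF.cone_act a) h1.2.1 h1.2.2)
  have h3 : (fun z => map x (Quo.out z)) ∘ hp.nrm = T.xi χ ∘ m.evm _ h1.2.2 := funext fun z => by
    obtain ⟨t, a, b⟩ := (hp.mk_eq (c := Quo.out (hp.nrm z))).1 (Quot.out_eq _)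
    have e := ((mem_solF.1 h0.1).2 _ (Quo.out (hp.nrm z)).2).2
    refine (map_eq_fld x _ (Tgt.mem_fam.1 e)).trans ((T.xi_mk χ ⟨_, e⟩).symm.trans (congrArg _
      (Eq.symm (Quot.sound ⟨_, d.unit a, ?_⟩))))
    exact (congrArg (fun c => (_, fld _ c)) b).trans (d.vl_smul hw z a)
  have h4 : Continuous fun z : Quo (fun (t : ι → ℂ) (c : V ch.M) => t • c) (crv x.1) =>
      map x (Quo.out z) :=
    (hp.continuous_nrm.isClosedMap.isQuotientMap hp.continuous_nrm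
      hp.surjective_nrm).continuous_iff.2 (h3 ▸ h2)
  have := hp.surjective_nrm.compactSpace hp.continuous_nrm
  simp only [HasClass, hp.isFund_iff, exists_eq_left]
  rw [push_iff (IsPr.of_compact h4), ← cpull_eq, ← (T.xiB χ).symm_apply_eq, eq_comm, AM.cls_eq h1.2.2]
  change push _ _ = _ ↔ push _ _ = _
  rw [IntP.push_push (IsPr.of_compact hp.continuous_nrm) (IsPr.of_compact h4), h3,
    IntP.push_push (IsPr.of_compact (AM.continuous_evm (fun _ a _ => hF.cone_act a) h1.2.1 h1.2.2))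
      (IsPr.of_homeomorph _)]

variable {u : ν ⊕ ν₀ → J → ℕ} {Φ : ch.Mod ν T ≃ₜ ModS (T.fam χ) (ch.cyc κ (T.fam χ) u)}
  (hΦ : ∀ x : ch.sol ν T, Φ (Quo.mk act x) = Quo.mk _ ⟨ch.trW ν ν₀ κ x, trW_sol.1 x.2⟩)
include hΦ

theorem crs_psi (hZ : OZ (T.fam χ).toWt (ch.solF _ κ (T.fam χ) ∩ ch.cyc κ (T.fam χ) u)) (n : ν) :
    Crs Φ (psi n) (psiF (.inl (.inl n))) := by
  have := hZ.act
  obtain ⟨_, _, _, _, -, -, h, -⟩ :=
    SD.Ok.exists_isMod hZ.orb (hZ.cuts.okψ hZ.base (.inl (.inl n)))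
  obtain ⟨a, b⟩ := (tr_act _).eulerC (fun _ => trW_sol) hΦ h
  refine ⟨cocycle_neg a, cocycle_neg h.eulerC_cocycle, (hcls_neg a).trans ?_⟩
  rw [b, psiF_eq, map_neg, hcls_neg (cocycle_pull Φ.continuous h.eulerC_cocycle)]

theorem crs_ev (hw : ∀ j i, ch.wd j i = ∑ r, T.w j r * ℓ r i) (n : ν) (c : Zs T.X) :
    Crs Φ (pull (evl n) c.1) (evF (.inl (.inl n)) (T.fam χ).cone (rep (T.xiH χ (H.mk c)))) := by
  have h := eqv_vl (F := T.fam χ) hw (inter_subset_left (t := ch.cyc κ (T.fam χ) u)) (.inl (.inl n))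
  have e : evl n = ((T.xi χ : C(_, _)) ∘ h.qm) ∘ Φ := funext fun z => by
    have a := vl_mem (trW_sol (κ := κ) (χ := χ) (u := u).1 (Quo.out z).2).1 (.inl (.inl n))
    refine (map_eq_fld _ _ (Tgt.mem_fam.1 a)).trans ?_
    conv_rhs => rw [← Tq.mk_out z, comp_apply, hΦ]
    rfl
  rw [evF, dif_pos fun z => h.maps (Quo.out z).2, funext h.qm_out, e, Tgt.xiH]
  exact Crs.rep_pull (Φ := Φ) h.qm _ c

theorem crs_sel (hF : (T.fam χ).Good) (hl : ch.Lat (T.fam χ).toWt ℓ) (β : BM T.X)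
    (hc : IsClopen (selQ (T.fam χ).toWt ℓ (ch.solF _ κ (T.fam χ) ∩ ch.cyc κ (T.fam χ) u)
      (((T.fam χ).exK _ (T.xiB χ β)).P _ _))) :
    Crs Φ (ind {y | IsConnected (crv (Quo.out y).1) ∧ HasClass (Quo.out y) β})
      (ind (selQ _ ℓ _ (((T.fam χ).exK _ (T.xiB χ β)).P _ _))) := by
  refine (congrArg (Crs Φ · _) ?_).mp (Crs.of_pull (cocycle_ind hc))
  rw [ind_eq_fn, pull_fn, ind_eq_fn]
  refine congrArg fn (funext fun z => indicator_eq_indicator ?_ rfl)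
  obtain ⟨m, hm⟩ := hl.exists_rep_sol (trW_sol (κ := κ) (χ := χ) (u := u).1 (Quo.out z).2).1
  conv_lhs => rw [← Tq.mk_out z, hΦ]
  rw [mem_selQ hl.wd (fun _ a => a.1.1.2.1) (fun _ _ e a =>
    ⟨e.conn a.1, (e.cls fun _ b _ => hF.cone_act b).trans a.2⟩) hm]
  exact and_congr (hm.conn (trW_base.2 (Quo.out z).2.1)) (hasClass_iff hF hl.wd _ hm β).symm

end Ch

end Vale.Agent.P269
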