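import Vale.Agent.P269.Orb.Ori

/-!
# Tautness for maps that are injective outside of a finite set
-/

set_option linter.unusedSectionVars false

namespace Vale.Agent.P269.LC

open P291Z Set Function Topology Filter TopologicalSpace

variable {X Z : Type} [TopologicalSpace X] [TopologicalSpace Z] [T2Space X]

/-- a cocycle of non-zero degree is a coboundary near finitely many points -/
theorem exists_prim {S : Set X} (hS : S.Finite) {k : ℤ} (hk : k ≠ 0) {a : Coch X}
    (hd : IsDeg k a) (ha : ∀ x ∈ S, δ a ∈ Van x) :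
    ∃ e, IsDeg (k - 1) e ∧ ∀ x ∈ S, a - δ e ∈ Van x := by
  classical
  obtain ⟨U, h1, h2⟩ := hS.t2_separation
  refine ⟨∑ y ∈ hS.toFinset, cut (U y) (coneOp y a),
    IsDeg.sum fun y _ => (coneOp_deg y hd).cut _, fun x hx => ?_⟩
  have n := (h1 x).2.mem_nhds (h1 x).1
  have h3 := local_cocycle (ha x hx)
  rw [hd.val_single hk, zero_smul, sub_zero] at h3
  have h4 : coneOp x a - ∑ y ∈ hS.toFinset, cut (U y) (coneOp y a) ∈ Van x := by
    rw [← Finset.add_sum_erase _ _ (hS.mem_toFinset.2 hx), ← sub_sub]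
    refine sub_mem (cut_in n _) (sum_mem fun y hy => cut_out (mem_of_superset n ?_) _)
    exact (h2 hx (hS.mem_toFinset.1 (Finset.mem_erase.1 hy).2)
      (Finset.mem_erase.1 hy).1.symm).subset_compl_right
  have := add_mem h3 (Van.δ h4)
  rwa [map_sub, sub_add_sub_cancel] at this

variable [CompactSpace X]

/-- **Tautness** for a map that is injective outside of a finite set. -/
theorem taut [MetrizableSpace Z] {G : X → Z} (hG : Continuous G) {S : Set X} (hS : S.Finite)
    (hi : ∀ x y, G x = G y → x = y ∨ y ∈ S ∧ x ∈ S) {b : Coch Z} (hd : IsDeg 2 b)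
    (hb : ∀ x, δ b ∈ Van (G x)) (h : hcls (pull G b) = 0) : ∃ c, ∀ x, b - δ c ∈ Van (G x) := by
  obtain ⟨e, e1, e2⟩ := exists_prim (hS.image G) two_ne_zero hd (forall_mem_image.2 fun x _ => hb x)
  obtain ⟨c, hc⟩ := (hcls_eq_zero (supp_eq_empty.2 fun x =>
    δ_pull G b ▸ Van.pull hG.continuousAt (hb x))).1 h
  have c1 : ∀ x, pull G (b - δ e) - δ (comp 1 c - pull G e) ∈ Van x := fun x => by
    have := Van.comp (supp_eq_empty.1 hc x) (1 + 1)
    rw [map_sub, comp_δ, ((hd.pull G).cast (k' := 1 + 1) rfl).comp_eq] at this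
    rwa [map_sub, map_sub, δ_pull, sub_sub_sub_cancel_right]
  obtain ⟨u, -, u2⟩ := exists_prim hS one_ne_zero ((isDeg_comp 1 c).sub (e1.pull G)) fun x hx => by
    have := sub_mem (Van.pull hG.continuousAt (e2 _ ⟨x, hx, rfl⟩)) (c1 x)
    rwa [sub_sub_cancel] at this
  obtain ⟨W, w1, w2, w3⟩ := hS.isCompact.exists_isOpen_closure_subset
    ((isClosed_supp _).isOpen_compl.mem_nhdsSet.2 u2)
  have c2 : ∀ x, pull G (b - δ e) - δ (cut (closure W)ᶜ (comp 1 c - pull G e - δ u)) ∈ Van x :=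
    fun x => by
      have k : _ - cut (closure W)ᶜ (comp 1 c - pull G e - δ u) ∈ Van x :=
        (em (x ∈ closure W)).elim (fun k => sub_mem (w3 k) (Van.cut (w3 k) _))
          fun k => cut_in (isClosed_closure.isOpen_compl.mem_nhds k) _
      have := add_mem (c1 x) (Van.δ k)
      rwa [map_sub δ (_ - δ u), map_sub δ _ (δ u), δ_δ, sub_zero, sub_add_sub_cancel] at this
  rcases (Taut.of_isClosedEmbedding
    (isCompact_range hG).isClosed.isClosedEmbedding_subtypeVal).retr with k | ⟨ρ, r1, r2⟩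
  · exact ⟨0, fun x => (k.false ⟨_, x, rfl⟩).elim⟩
  let r : Z → X := rangeSplitting G ∘ ρ
  have r3 : G ∘ r = Subtype.val ∘ ρ := funext fun z => apply_rangeSplitting G _
  have r4 : ∀ x, ContinuousAt (G ∘ r) (G x) := fun x =>
    r3 ▸ continuous_subtype_val.continuousAt.comp (r2 ⟨_, x, rfl⟩)
  have r5 : ∀ x, (G ∘ r) (G x) = G x := fun x => r3 ▸ congrArg Subtype.val (r1 ⟨_, x, rfl⟩)
  have r6 : ∀ x O, IsOpen O → (∀ y, G x = G y → y ∈ O) → ∀ᶠ z in 𝓝 (G x), r z ∈ O :=
    fun x O hO k => ((r4 x).eventually_mem ((hO.isClosed_compl.isCompact.image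
      hG).isClosed.isOpen_compl.mem_nhds fun ⟨y, k1, k2⟩ =>
        k1 (k y (k2.trans (r5 x)).symm))).mono fun z hz => by_contra fun k1 => hz ⟨_, k1, rfl⟩
  refine ⟨e + (prismOp (G ∘ r) id (b - δ e) +
    pull r (cut (closure W)ᶜ (comp 1 c - pull G e - δ u))), fun x => ?_⟩
  have p1 := prismOp_δ (G ∘ r) id (b - δ e)
  have p2 := Van.prismOp (r4 x) continuousAt_id (r5 x) (a := δ (b - δ e)) (by
    rw [map_sub, δ_δ, sub_zero, r5]; exact hb x)
  have p3 : pull (G ∘ r) (b - δ e) -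
      δ (pull r (cut (closure W)ᶜ (comp 1 c - pull G e - δ u))) ∈ Van (G x) := by
    by_cases k : x ∈ S
    · refine sub_mem (Van.pull (r4 x) ((r5 x).symm ▸ e2 _ ⟨x, k, rfl⟩)) (Van.δ ?_)
      rw [pull_cut]
      refine cut_out ((r6 x W w1 fun y hy => w2 ?_).mono fun z hz => not_not.2 (subset_closure hz)) _
      exact (hi x y hy).elim (· ▸ k) And.left
    · have k1 : ∀ y, G x = G y → y = x := fun y hy =>
        ((hi x y hy).resolve_right fun k1 => k k1.2).symm
      have k2 := k1 _ (r5 x).symm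
      rw [δ_pull, ← pull_pull, ← map_sub]
      refine Van.pull (tendsto_nhds.2 fun O hO k3 => r6 x O hO fun y hy => ?_) (c2 _)
      exact (k1 y hy).symm ▸ k2 ▸ k3
  have := add_mem p2 p3
  rw [eq_sub_of_add_eq' p1, pull_id] at this
  rw [map_add, map_add]
  exact mem_of_eq_of_mem (by abel) this

theorem ev_lin (β : BM X) {a : Coch X} (ha : supp (δ a) = ∅) {κ : Type} [Fintype κ]
    {θ : κ → Coch X} (hθ : ∀ i, supp (δ (θ i)) = ∅) (l : κ → ℂ) :
    ev β (a - ∑ i, l i • θ i) = ev β a - ∑ i, l i * ev β (θ i) := by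
  have k := fun i => cocycle_smul (l i) (hθ i)
  rw [ev_eq, cls_sub (Zc_of_compact ha) (Zc_of_compact (cocycle_sum fun i _ => k i)),
    cls_sum _ fun i _ => Zc_of_compact (k i), map_sub, map_sum, ev_eq]
  exact congrArg _ (Finset.sum_congr rfl fun i _ =>
    (ev_eq _ _).symm.trans (Orb.ev_smul _ _ (Zc_of_compact (hθ i))))

theorem ev_eq_zero (β : BM X) {a c : Coch X} (h : ∀ x, a - δ c ∈ Van x) : ev β a = 0 := by
  rw [ev_eq, cls_of_mem_Bc ⟨c, (isClosed_supp c).isCompact, supp_eq_empty.2 h⟩, map_zero]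

end Vale.Agent.P269.LC
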