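import Vale.Agent.P269.Defs.Vir
import Vale.Agent.P269.Fock.Split

/-!
# The Virasoro operators of the statement are the operators of the Fock space calculus
-/

set_option linter.unusedSectionVars false

namespace Vale.Agent.P269

open P291Z Set Function Fock Finset

namespace LD

section gen

variable {K : Type*} [CommRing K] [Algebra ℚ K] {V : Type*} [AddCommGroup V] [Module K V]
  {p : Par K V}

lemma con_con_ι_mul {ψ χ : Module.Dual K V}
    (h : (ψ ∘ₗ p.σ = ψ ∧ χ ∘ₗ p.σ = χ) ∨ (ψ ∘ₗ p.σ = -ψ ∧ χ ∘ₗ p.σ = -χ)) (y : V) (x : S p) :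
    con p χ (con p ψ (ι p y * x)) =
      ψ y • con p χ x + χ (p.σ y) • con p ψ x + ι p y * con p χ (con p ψ x) := by
  rcases h with ⟨h1, h2⟩ | ⟨h1, h2⟩
  · rw [con_ι_mul_of_ev h1, map_add, map_smul, con_ι_mul_of_ev h2, add_assoc,
      ← LinearMap.comp_apply χ, h2]
  · rw [con_ι_mul_of_od h1, map_add, map_smul, con_ι_mul_of_od h2, add_assoc, p.inv]

lemma con2_eq {α : Type*} [Fintype α] (c : α → K) (ψ χ : α → Module.Dual K V) (W : SymB p)
    (hW : ∀ y w, W.1 y w = ∑ i, c i * (ψ i y * χ i w))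
    (h : ∀ i, c i = 0 ∨ (ψ i ∘ₗ p.σ = ψ i ∧ χ i ∘ₗ p.σ = χ i) ∨
      (ψ i ∘ₗ p.σ = -ψ i ∧ χ i ∘ₗ p.σ = -χ i)) (x : S p) :
    con2 p W x + con2 p W x = ∑ i, c i • con p (χ i) (con p (ψ i) x) := by
  induction x using Fock.induction with
  | h1 => simp
  | hι y x ih =>
    have e1 : W.1 y = ∑ i, c i • ψ i y • χ i := LinearMap.ext fun w => by simp [hW]
    have e2 : W.1 y = ∑ i, c i • χ i (p.σ y) • ψ i := LinearMap.ext fun w => by
      have := W.2 w (p.σ y)
      rw [p.inv] at this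
      simp [← this, hW, mul_comm]
    have e3 : ∀ i, c i • con p (χ i) (con p (ψ i) (ι p y * x)) = c i • ψ i y • con p (χ i) x +
        c i • χ i (p.σ y) • con p (ψ i) x + ι p y * c i • con p (χ i) (con p (ψ i) x) := fun i => by
      rcases h i with h | h
      · simp [h]
      · rw [con_con_ι_mul h, smul_add, smul_add, mul_smul_comm]
    rw [con2_ι_mul, add_add_add_comm, ← mul_add, ih, sum_congr rfl fun i _ => e3 i,
      sum_add_distrib, sum_add_distrib, mul_sum, add_comm]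
    congr 2
    · simp [e1, LinearMap.sum_apply]
    · simp [e2, LinearMap.sum_apply]
  | hadd x y hx hy => simp only [map_add, smul_add, sum_add_distrib, ← hx, ← hy]; abel
  | hsmul a x hx => simp only [map_smul, ← smul_add, hx, smul_sum, smul_comm a]

end gen

variable {V : Type} [AddCommGroup V] [Module ℂ V] {pv : Par ℂ V} {B : ℕ}
  (v : Module.Basis (Fin B) ℂ V)

/-- The generators. -/
noncomputable def τ (i : ℕ × Fin B) : VV V := Finsupp.single i.1 (v i.2)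

/-- The coordinates. -/
noncomputable def ψ (i : ℕ × Fin B) : Module.Dual ℂ (VV V) := v.coord i.2 ∘ₗ Finsupp.lapply i.1

lemma ψ_apply (i : ℕ × Fin B) (y : VV V) : ψ v i y = v.repr (y i.1) i.2 := rfl

lemma ψ_τ (i j : ℕ × Fin B) : ψ v i (τ v j) = if j = i then 1 else 0 := by
  obtain ⟨m, a⟩ := i
  obtain ⟨n, b⟩ := j
  by_cases h : n = m
  · simp [ψ_apply, τ, h, Finsupp.single_apply]
  · simp [ψ_apply, τ, h]

variable (pv) in
/-- The monomials. -/
noncomputable def mo (l : List (ℕ × Fin B)) : S (pv.fs ℕ) := (l.map fun i => ι _ (τ v i)).prod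

lemma mo_cons (i : ℕ × Fin B) (l : List (ℕ × Fin B)) :
    mo pv v (i :: l) = ι _ (τ v i) * mo pv v l := by simp [mo]

/-- The series of a functional. -/
noncomputable def sr {Γ : Type} (G : S (pv.fs ℕ) →ₗ[ℂ] Γ → ℤ → ℂ) : Ser B Γ :=
  fun l => G (mo pv v l)

lemma d_sr {Γ : Type} (G : S (pv.fs ℕ) →ₗ[ℂ] Γ → ℤ → ℂ) (i : ℕ × Fin B) :
    Ser.d i (sr v G) = sr v (G ∘ₗ LinearMap.mulLeft ℂ (ι _ (τ v i))) :=
  funext fun l => congrArg G (mo_cons v i l)

lemma dv_sr {Γ : Type} (G : S (pv.fs ℕ) →ₗ[ℂ] Γ → ℤ → ℂ) (m : ℕ) (w : V) :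
    ∑ b, v.repr w b • Ser.d (m, b) (sr v G) =
      sr v (G ∘ₗ LinearMap.mulLeft ℂ (ι _ (Finsupp.single m w))) := by
  funext l
  conv_rhs => rw [← v.sum_repr w]
  simp only [d_sr, sr, τ, Finsupp.single_finsetSum, sum_mul, ← Finsupp.smul_single, map_sum,
    map_smul, Finset.sum_apply, Pi.smul_apply, LinearMap.comp_apply, LinearMap.mulLeft_apply,
    smul_mul_assoc]

lemma dv_congr {A A' : Module.End ℂ (VV V)} (hA : IsEv (pv.fs ℕ) (pv.fs ℕ) A)
    (hA' : IsEv (pv.fs ℕ) (pv.fs ℕ) A') {l : List (ℕ × Fin B)}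
    (h : ∀ i ∈ l, A (τ v i) = A' (τ v i)) : dv _ A (mo pv v l) = dv _ A' (mo pv v l) := by
  induction l with
  | nil => simp [mo]
  | cons i l ih =>
    rw [mo_cons, dv_ι_mul hA, dv_ι_mul hA', h i List.mem_cons_self,
      ih fun j hj => h j (List.mem_cons_of_mem _ hj)]

variable {σ : Type} [Fintype σ] (fr : Frame pv σ)

/-- The Gram matrix. -/
noncomputable def gr : Matrix (Fin B) (Fin B) ℂ := Matrix.of fun a b => fr.η (v a) (v b)

lemma cas_aux {N : Type*} [AddCommGroup N] [Module ℂ N] (Q : V →ₗ[ℂ] V →ₗ[ℂ] N) :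
    ∑ c, Q (fr.e c) (fr.f c) =
      ∑ a, ∑ b, (∑ c, v.repr (fr.e c) a * v.repr (fr.f c) b) • Q (v a) (v b) := by
  have e : ∀ c, Q (fr.e c) (fr.f c) =
      ∑ a, ∑ b, (v.repr (fr.e c) a * v.repr (fr.f c) b) • Q (v a) (v b) := fun c => by
    conv_lhs => rw [← v.sum_repr (fr.e c), ← v.sum_repr (fr.f c)]
    simp only [map_sum, map_smul, LinearMap.sum_apply, LinearMap.smul_apply, smul_sum, smul_smul]
    rw [sum_comm]
    simp only [mul_comm]
  rw [sum_congr rfl fun c _ => e c, sum_comm]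
  refine sum_congr rfl fun a _ => ?_
  rw [sum_comm]
  simp only [sum_smul]

lemma mul_gr : (Matrix.of fun a b => ∑ c, v.repr (fr.e c) a * v.repr (fr.f c) b) * gr v fr = 1 := by
  ext a d
  have e := cas_aux v fr ((v.coord a).smulRight (fr.η.flip (v d)))
  have e' := congrArg (v.coord a) (fr.left (v d))
  simp only [map_sum, map_smul, LinearMap.smulRight_apply, LinearMap.smul_apply,
    LinearMap.flip_apply, smul_eq_mul, Module.Basis.coord_apply, Module.Basis.repr_self,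
    Finsupp.single_apply] at e e'
  simp only [mul_comm (fr.η _ _), e] at e'
  simpa [Matrix.mul_apply, gr, Matrix.one_apply, eq_comm] using e'

lemma cas_sum {N : Type*} [AddCommGroup N] [Module ℂ N] (Q : V →ₗ[ℂ] V →ₗ[ℂ] N) :
    ∑ c, Q (fr.e c) (fr.f c) = ∑ a, ∑ b, (gr v fr)⁻¹ a b • Q (v a) (v b) := by
  rw [Matrix.inv_eq_left_inv (mul_gr v fr), cas_aux v]; rfl

lemma gr_mul : gr v fr * (gr v fr)⁻¹ = 1 := by
  rw [Matrix.inv_eq_left_inv (mul_gr v fr)]
  exact mul_eq_one_comm.1 (mul_gr v fr)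

variable {v fr} {π : Fin B → ℕ} (hσ : ∀ a, pv.σ (v a) = (-1 : ℂ) ^ π a • v a)
include hσ

lemma σ_τ (i : ℕ × Fin B) : (pv.fs ℕ).σ (τ v i) = (-1 : ℂ) ^ π i.2 • τ v i := by
  rw [τ, Par.fs_σ_single, hσ, Finsupp.smul_single]

lemma ψ_σ (i : ℕ × Fin B) : ψ v i ∘ₗ (pv.fs ℕ).σ = (-1 : ℂ) ^ π i.2 • ψ v i := by
  have e : v.coord i.2 ∘ₗ pv.σ = (-1 : ℂ) ^ π i.2 • v.coord i.2 := v.ext fun a => by
    by_cases h : a = i.2 <;> simp [hσ, h]
  exact LinearMap.ext fun y => LinearMap.congr_fun e (y i.1)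

lemma con_τ (i j : ℕ × Fin B) (x : S (pv.fs ℕ)) : con _ (ψ v i) (ι _ (τ v j) * x) =
    (if j = i then x else 0) + (-1 : ℂ) ^ (π i.2 * π j.2) • (ι _ (τ v j) * con _ (ψ v i) x) := by
  have h := ψ_σ hσ i
  rcases Nat.even_or_odd (π i.2) with hn | hn
  · rw [hn.neg_one_pow, one_smul] at h
    rw [con_ι_mul_of_ev h, ψ_τ, (hn.mul_right _).neg_one_pow, one_smul, ite_smul, one_smul,
      zero_smul]
  · rw [hn.neg_one_pow, neg_one_smul] at h
    rw [con_ι_mul_of_od h, ψ_τ, σ_τ hσ, map_smul, smul_mul_assoc, pow_mul, hn.neg_one_pow, ite_smul,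
      one_smul, zero_smul]

lemma con_mo (i : ℕ × Fin B) (l : List (ℕ × Fin B)) : con _ (ψ v i) (mo pv v l) =
    ∑ s : Fin l.length, if l.get s = i then Ser.sg π i (l.take s) • mo pv v (l.eraseIdx s)
      else 0 := by
  induction l with
  | nil => simp [mo]
  | cons j l ih =>
    rw [mo_cons, con_τ hσ, ih, mul_sum, smul_sum]
    refine Eq.symm ((Fin.sum_univ_succ _).trans ?_)
    congr 1
    · simp [Ser.sg]
    · refine sum_congr rfl fun s _ => ?_
      simp [Ser.sg, mo_cons, mul_add, pow_add, smul_smul]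

lemma t_sr {Γ : Type} (G : S (pv.fs ℕ) →ₗ[ℂ] Γ → ℤ → ℂ) (i : ℕ × Fin B) :
    Ser.t π i (sr v G) = sr v (G ∘ₗ con _ (ψ v i)) := by
  funext l
  simp only [Ser.t, sr, LinearMap.comp_apply, con_mo hσ, map_sum, apply_ite G, map_smul, map_zero]

lemma con_mo_zero {i : ℕ × Fin B} {l : List (ℕ × Fin B)} (h : i ∉ l) :
    con _ (ψ v i) (mo pv v l) = 0 := by
  rw [con_mo hσ]
  exact sum_eq_zero fun s _ => if_neg fun e => h (by rw [← e]; exact List.get_mem l s)

lemma dv_mo {A : Module.End ℂ (VV V)} (hA : IsEv (pv.fs ℕ) (pv.fs ℕ) A) {l : List (ℕ × Fin B)}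
    {N : ℕ} (hN : ∀ i ∈ l, i.1 < N) : dv _ A (mo pv v l) =
      ∑ m ∈ range N, ∑ a, ι _ (A (τ v (m, a))) * con _ (ψ v (m, a)) (mo pv v l) := by
  have hs : ∀ i, SameP (pv.fs ℕ) (A (τ v i)) (ψ v i) := fun i => by
    rw [SameP, hA, σ_τ hσ, ψ_σ hσ]
    rcases Nat.even_or_odd (π i.2) with hn | hn <;> simp [hn.neg_one_pow]
  rw [dv_congr v hA (IsEv.sum (range N) fun m _ => IsEv.sum univ fun a _ => (hs (m, a)).isEv)]
  · simp only [map_sum, LinearMap.sum_apply, dv_smulRight (hs _)]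
  · rintro ⟨m, a⟩ hi
    simp [ψ_τ, LinearMap.sum_apply, ite_and, hN _ hi]

lemma str_eq {T : Module.End ℂ V} {t : Fin B → ℂ} (hT : ∀ a, T (v a) = t a • v a) :
    fr.str T = ∑ a, (-1) ^ π a * t a := by
  have e := cas_sum v fr (fr.η.compl₂ T)
  simp only [LinearMap.compl₂_apply, hT, map_smul, smul_eq_mul] at e
  rw [Frame.str_apply, e, sum_comm]
  refine sum_congr rfl fun b _ => ?_
  have e' := congrFun (congrFun (gr_mul v fr) b) b
  rw [Matrix.mul_apply, Matrix.one_apply_eq] at e'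
  refine Eq.trans ?_ ((congrArg (_ * t b * ·) e').trans (mul_one _))
  rw [mul_sum]
  refine sum_congr rfl fun a _ => ?_
  rw [fr.η_symm, hσ, map_smul, LinearMap.smul_apply, smul_eq_mul, 
    show gr v fr b a = fr.η (v b) (v a) from rfl]
  ring

omit hσ

variable (vd : VD fr) {μ : Fin B → ℂ} (hμ : ∀ a, vd.μ (v a) = μ a • v a)

lemma hf_eq : hf ℂ = 1 / 2 := by simp [hf]

lemma esy_eq (k i : ℕ) (x : ℂ) : esyK k i x = esy k i x := rfl

lemma esy_self (k : ℕ) (x : ℂ) : esyK k k x = 1 := by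
  induction k with
  | zero => simp [esyK]
  | succ k ih => rw [esyK_succ_succ, ih, esyK_of_lt (Nat.lt_succ_self k), mul_zero, add_zero]

lemma blk_single {u : V} {x : ℂ} (hu : vd.μ u = x • u) (k m : ℕ) :
    Frame.blk (vd.ell k) (Finsupp.single m u) = ∑ i ∈ range (k + 1), if i + 1 ≤ m + k then
      esy k i (x + m + 1 / 2) • Finsupp.single (m + k - (i + 1)) ((vd.ρ ^ i) u) else 0 := by
  rw [Frame.blk, LinearMap.comp_apply, LinearMap.comp_apply, up_single, vd.ell_single hu, map_sum]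
  refine sum_congr rfl fun i _ => ?_
  rw [map_smul, esy_eq, hf_eq, Int.cast_natCast]
  split_ifs with h
  · rw [show (m : ℤ) + k - i - 1 = (m + k - (i + 1) : ℕ) by omega, pos_single_nat]
  · rw [pos_single_neg (by omega), smul_zero]

lemma neg_ell {u : V} {x : ℂ} (hu : vd.μ u = x • u) (k m : ℕ) (w : VV V) :
    fr.neg (vd.ell k (up ℂ V (Finsupp.single m u))) w =
      if m = 0 then fr.η ((vd.ρ ^ k) u) (w 0) else 0 := by
  have e : ∀ i : ℕ, i + 1 ≤ m + k → ∀ u : V,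
      fr.neg (Finsupp.single ((m : ℤ) + k - i - 1) u) = 0 := fun i h u => by
    rw [show (m : ℤ) + k - i - 1 = (m + k - (i + 1) : ℕ) by omega, ← up_single (K := ℂ),
      Frame.neg_up]
  rw [up_single, vd.ell_single hu, map_sum, sum_range_succ, sum_eq_zero fun i hi => by
    rw [map_smul, e i (by have := mem_range.1 hi; omega), smul_zero], zero_add, esy_self, one_smul]
  split_ifs with h
  · subst h
    simpa using fr.neg_single 0 ((vd.ρ ^ k) u) w
  · rw [e k (by omega), LinearMap.zero_apply]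

include hμ

lemma cas_ell (k : ℕ) : fr.cas (vd.ell k) = ∑ i ∈ range (k + 1), (1 / 2 : ℂ) •
    ∑ m ∈ range (k - (i + 1)), ∑ a, ∑ b,
      ((-1) ^ (m + 1) * (gr v fr)⁻¹ a b * esy k i (μ b - m - 1 / 2)) •
        (ι _ (τ v (m, a)) * ι _ (Finsupp.single (k - (i + 2) - m) ((vd.ρ ^ i) (v b)))) := by
  have e : ∀ m : ℕ, fr.casT (vd.ell k) m = ∑ i ∈ range (k + 1), if m < k - (i + 1) then ∑ a, ∑ b,
      ((-1) ^ (m + 1) * (gr v fr)⁻¹ a b * esy k i (μ b - m - 1 / 2)) •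
        (ι _ (τ v (m, a)) * ι _ (Finsupp.single (k - (i + 2) - m) ((vd.ρ ^ i) (v b))))
      else 0 := fun m => by
    have e1 := cas_sum v fr ((LinearMap.mul ℂ (S (pv.fs ℕ))).compl₁₂ (ι _ ∘ₗ Finsupp.lsingle m)
      (ι _ ∘ₗ pos ℂ V ∘ₗ vd.ell k ∘ₗ Finsupp.lsingle (-(m : ℤ) - 1)))
    simp only [LinearMap.compl₁₂_apply, LinearMap.comp_apply, Finsupp.lsingle_apply,
      LinearMap.mul_apply'] at e1
    rw [Frame.casT, ← smul_sum, e1]
    simp only [vd.ell_single (hμ _), map_sum, mul_sum, smul_sum, map_smul]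
    simp only [sum_comm (s := univ) (t := range (k + 1))]
    refine sum_congr rfl fun i _ => ?_
    split_ifs with h
    · refine sum_congr rfl fun a _ => sum_congr rfl fun b _ => ?_
      rw [show -(m : ℤ) - 1 + k - i - 1 = (k - (i + 2) - m : ℕ) by omega, pos_single_nat,
        mul_smul_comm, smul_smul, smul_smul, esy_eq, hf_eq, τ]
      congr 3
      push_cast
      ring
    · refine sum_eq_zero fun a _ => sum_eq_zero fun b _ => ?_
      rw [pos_single_neg (by omega), map_zero, smul_zero, mul_zero, smul_zero, smul_zero]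
  rw [Frame.cas_eq (N := k) fun m hm v => (vd.up_ell k).fin m (by omega) v, hf_eq, ← smul_sum,
    sum_congr rfl fun m _ => e m, sum_comm]
  congr 1
  refine sum_congr rfl fun i _ => ?_
  rw [← sum_filter]
  refine sum_congr ?_ fun _ _ => rfl
  ext m
  simp only [mem_filter, Finset.mem_range]
  omega

include hσ

lemma con2_ell (k : ℕ) (x : S (pv.fs ℕ)) : con2 _ (fr.qf (vd.ell k)) x = (1 / 2 : ℂ) •
    ∑ a, ∑ b, fr.η ((vd.ρ ^ k) (v a)) (v b) • con _ (ψ v (0, b)) (con _ (ψ v (0, a)) x) := by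
  have e := con2_eq (α := Fin B × Fin B) (fun i => fr.η ((vd.ρ ^ k) (v i.1)) (v i.2))
    (fun i => ψ v (0, i.1)) (fun i => ψ v (0, i.2)) (fr.qf (vd.ell k)) (fun y w => ?_)
    (fun i => ?_) x
  · rw [Fintype.sum_prod_type] at e
    rw [← e, smul_add, ← add_smul, add_halves, one_smul]
  · have e : fr.neg.flip w ∘ₗ vd.ell k ∘ₗ up ℂ V =
        fr.η.flip (w 0) ∘ₗ (vd.ρ ^ k) ∘ₗ Finsupp.lapply 0 :=
      Finsupp.lhom_ext' fun m => v.ext fun a => by
        have := neg_ell vd (hμ a) k m w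
        by_cases h : m = 0 <;> simpa [h, Finsupp.single_apply] using this
    rw [(vd.quad_ell k).qf_val, Fintype.sum_prod_type]
    refine (LinearMap.congr_fun e y).trans ?_
    change fr.η ((vd.ρ ^ k) (y 0)) (w 0) = _
    conv_lhs => rw [← v.sum_repr (y 0), ← v.sum_repr (w 0)]
    simp only [map_sum, map_smul, LinearMap.sum_apply, LinearMap.smul_apply, smul_eq_mul, mul_sum,
      ψ_apply]
    rw [sum_comm]
    exact sum_congr rfl fun a _ => sum_congr rfl fun b _ => by ring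
  · have e := fr.η_σ ((vd.ρ ^ k) (v i.1)) (v i.2)
    rw [vd.evρ.pow k, hσ, hσ] at e
    simp only [ψ_σ hσ]
    rcases Nat.even_or_odd (π i.1) with h1 | h1 <;> rcases Nat.even_or_odd (π i.2) with h2 | h2 <;>
      simp only [h1.neg_one_pow, h2.neg_one_pow, one_smul, neg_smul, map_neg,
        LinearMap.neg_apply] at e ⊢
    · exact Or.inr (Or.inl ⟨trivial, trivial⟩)
    · exact Or.inl (eq_zero_of_eq_neg (K := ℂ) e.symm)
    · exact Or.inl (eq_zero_of_eq_neg (K := ℂ) e)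
    · exact Or.inr (Or.inr ⟨trivial, trivial⟩)

lemma c0_eq : vd.c0 = (∑ a, (-1) ^ π a) / 16 - (∑ a, (-1) ^ π a * μ a ^ 2) / 4 := by
  rw [VD.c0, str_eq hσ (t := fun a => μ a ^ 2 - 1 / 4) fun a => by
    simp only [LinearMap.sub_apply, Module.End.mul_apply, hμ, map_smul, LinearMap.smul_apply,
      Module.End.one_apply, hf_eq]
    module]
  simp only [mul_sub, sum_sub_distrib, ← sum_mul, hf_eq]
  ring

end LD

variable {R J K : Type} [Fintype R] [Fintype J] [Fintype K]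

open LD in
theorem Tgt.L_eq_zero [DecidableEq R] (T : Tgt R J K) (n : ℕ) {B : ℕ}
    (φ : Module.Basis (Fin B) ℂ (H T.X)) (p q : Fin B → ℕ) {V : Type} [AddCommGroup V] [Module ℂ V]
    {pv : Par ℂ V} {σ : Type} [Fintype σ] {fr : Frame pv σ} (vd : VD fr) (e : H T.X ≃ₗ[ℂ] V)
    (hη : ∀ a b, fr.η (e a) (e b) = T.int (a * b)) (h1 : fr.one = e 1)
    (hσ : ∀ a, pv.σ (e (φ a)) = (-1 : ℂ) ^ (p a + q a) • e (φ a))
    (hμ : ∀ a, vd.μ (e (φ a)) = ((p a : ℂ) - n / 2) • e (φ a))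
    (hμ1 : vd.μ fr.one = (-(n / 2) : ℂ) • fr.one) (hρ : ∀ v, vd.ρ (e v) = e (T.c1 n * v))
    {E : BM T.X → ℤ → S (pv.fs ℕ) →ₗ[ℂ] ℂ} (hE : ∀ β, vd.VirC (E β)) (k : ℕ) :
    T.L n φ p q k (fun l β j =>
      E β j (l.map fun a => ι (pv.fs ℕ) (Finsupp.single a.1 (e (φ a.2)))).prod) = 0 := by
  let v := φ.map e
  let G : S (pv.fs ℕ) →ₗ[ℂ] BM T.X → ℤ → ℂ := LinearMap.pi fun β => LinearMap.pi (E β)
  have hG : ∀ x β j, G x β j = E β j x := fun _ _ _ => rfl
  have hσ' : ∀ a, pv.σ (v a) = (-1 : ℂ) ^ (fun a => p a + q a) a • v a := hσ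
  have hμ' : ∀ a, vd.μ (v a) = (fun a => (p a : ℂ) - n / 2) a • v a := hμ
  have hR : ∀ (i : ℕ) w, (vd.ρ ^ i) (e w) = e (T.c1 n ^ i * w) := fun i w => by
    induction i with
    | zero => simp
    | succ i ih => rw [pow_succ', Module.End.mul_apply, ih, hρ, pow_succ', mul_assoc]
  have hv : ∀ (i : ℕ) a, (vd.ρ ^ i) (v a) = e (T.c1 n ^ i * φ a) := fun i a => hR i _
  have hd : ∀ (G : S (pv.fs ℕ) →ₗ[ℂ] BM T.X → ℤ → ℂ) m w, T.dv φ m w (sr v G) =
      sr v (G ∘ₗ LinearMap.mulLeft ℂ (ι _ (Finsupp.single m (e w)))) := fun G m w => by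
    rw [← dv_sr]; simp [Tgt.dv, v]
  have hg : (Matrix.of fun a b => T.int (φ a * φ b)) = gr v fr := by
    ext a b; exact (hη _ _).symm
  change T.L n φ p q k (sr v G) = 0
  funext l β j
  obtain ⟨N, hN⟩ : ∃ N, ∀ i ∈ l, i.1 < N := ⟨(l.map Prod.fst).sum + 1, fun i hi =>
    Nat.lt_succ_of_le (List.le_sum_of_mem (List.mem_map_of_mem hi))⟩
  have h := hE β k j (mo pv v l)
  have e1 : E β j (Fock.dv _ (Frame.blk (vd.ell k)) (mo pv v l)) = ∑ i ∈ range (k + 1), ∑ᶠ m : ℕ,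
      if i + 1 ≤ m + k then ∑ a, esy k i ((p a : ℂ) - n / 2 + m + 1 / 2) *
        E β j (ι _ (Finsupp.single (m + k - (i + 1)) (e (T.c1 n ^ i * φ a))) *
          con _ (ψ v (m, a)) (mo pv v l)) else 0 := by
    rw [dv_mo hσ' (vd.quad_ell k).isEv_blk hN]
    simp only [τ, blk_single vd (hμ' _), map_sum, sum_mul]
    simp only [sum_comm (t := range (k + 1))]
    refine sum_congr rfl fun i _ => ?_
    rw [finsum_eq_sum_of_support_subset (s := range N)]
    · refine sum_congr rfl fun m _ => ?_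
      split_ifs <;> simp [hv, -Finsupp.smul_single]
    · intro m hm
      by_contra hc
      have : ∀ a, (m, a) ∉ l := fun a ha => hc (by simpa using hN _ ha)
      exact hm (by simp [con_mo_zero hσ' (this _)])
  have e2 : E β j (ι _ (Frame.blk (vd.ell k) fr.dil) * mo pv v l) = ∑ i ∈ range (k + 1),
      esy k i ((3 - n) / 2) * E β j (ι _ (Finsupp.single (k - i) (e (T.c1 n ^ i))) * mo pv v l) := by
    rw [Frame.dil, blk_single vd hμ1, map_sum, sum_mul, map_sum]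
    refine sum_congr rfl fun i hi => ?_
    have := mem_range.1 hi
    rw [if_pos (by omega), h1, hR, mul_one, map_smul, smul_mul_assoc, map_smul, smul_eq_mul,
      show 1 + k - (i + 1) = k - i by omega]
    congr 2
    push_cast
    ring
  have e3 : fr.neg (vd.ell k (up ℂ V fr.dil)) = 0 :=
    LinearMap.ext fun w => (neg_ell vd hμ1 k 1 w).trans (if_neg one_ne_zero)
  simp only [Frame.q0, Frame.qm, Frame.q1, LinearMap.sub_apply, LinearMap.mulLeft_apply, map_add,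
    map_sub, e1, e2, e3, map_zero, sub_zero, con2_ell hσ' vd hμ',
    cas_ell vd hμ', c0_eq hσ' vd hμ', map_smul, map_sum, sum_mul, smul_mul_assoc, hv,
    smul_eq_mul] at h
  have hη' : ∀ w b, fr.η (e w) (v b) = T.int (w * φ b) := fun w b => hη _ _
  simp only [hη'] at h
  rw [Tgt.L, hg]
  simp only [d_sr, hd, t_sr hσ', Pi.add_apply, Pi.sub_apply, Pi.smul_apply,
    Finset.sum_apply, Ser.hb, sr, LinearMap.comp_apply, LinearMap.mulLeft_apply, hG, smul_eq_mul,
    Pi.zero_apply, sum_add_distrib, sum_sub_distrib, sub_neg_eq_add, ← mul_assoc (ι _ _)]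
  linear_combination h

end Vale.Agent.P269
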