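import Vale.Agent.P269.Br.MIn

/-!
# The divisor equation in series form
-/

set_option linter.unusedSectionVars false

namespace Vale.Agent.P269

open P291Z Set Function Fock Br

namespace MDivA

variable {V W : Type} [AddCommGroup V] [Module ℂ V] {p : Par ℂ V}

theorem mon0_nil : mon0 p [] = 1 := rfl

theorem mon0_cons (x : ℕ × V) (l : List (ℕ × V)) :
    mon0 p (x :: l) = ι _ (Finsupp.single x.1 x.2) * mon0 p l := rfl

theorem aug_con (φ : Module.Dual ℂ V) (v : V) (x : S p) :
    aug p (con p φ (ι p v * x)) = φ v * aug p x := by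
  induction v using p.induction with
  | hev v h => simp [con_ι_mul_ev φ h]
  | hod v h => simp [con_ι_mul_od φ h]
  | hadd v w a b => simp only [map_add, add_mul, a, b]

theorem aug_con2 (Q : SymB p) (v w : V) (x : S p) :
    aug p (con2 p Q (ι p v * (ι p w * x))) = Q.1 v w * aug p x := by
  rw [con2_ι_mul, map_add, map_mul, aug_ι, zero_mul, zero_add, aug_con]

theorem aug_mon0 {l : List (ℕ × V)} (h : l.length ≠ 0) : aug _ (mon0 p l) = 0 := by
  obtain _ | ⟨x, l⟩ := l
  · exact absurd rfl h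
  · rw [mon0_cons, map_mul, aug_ι, zero_mul]

theorem aug_con2_mon0 (Q : SymB (p.fs ℕ)) {l : List (ℕ × V)} (h : l.length ≠ 2) :
    aug _ (con2 _ Q (mon0 p l)) = 0 := by
  obtain _ | ⟨x, _ | ⟨y, l⟩⟩ := l
  · rw [mon0_nil, con2_one, map_zero]
  · rw [mon0_cons, mon0_nil, mul_one, con2_ι, map_zero]
  · rw [mon0_cons, mon0_cons, aug_con2, aug_mon0 fun e => h (by simp [e]), mul_zero]

theorem dv_mon0 {m : Module.End ℂ V} (he : IsEv (p.fs ℕ) (p.fs ℕ) (Frame.blk (dA m))) {i : V → W}
    {g : W → W} (hm : ∀ v, i (m v) = g (i v)) (l : List (ℕ × V)) :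
    ∀ {Z : S (p.fs ℕ) →ₗ[ℂ] ℂ} {c : List (ℕ × W) → ℂ},
      (∀ l, Z (mon0 p l) = c (l.map (Prod.map id i))) →
      Z (Fock.dv _ (Frame.blk (dA m)) (mon0 p l)) = ∑ s : Fin (l.map (Prod.map id i)).length,
        if ((l.map (Prod.map id i)).get s).1 = 0 then 0 else c ((l.map (Prod.map id i)).set s
          (((l.map (Prod.map id i)).get s).1 - 1, g ((l.map (Prod.map id i)).get s).2)) := by
  induction l with
  | nil =>
    intro Z c _
    rw [mon0_nil, dv_one, map_zero]
    exact (Fin.sum_univ_zero _).symm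
  | cons x l ih =>
    intro Z c h
    rw [mon0_cons, dv_ι_mul he, map_add]
    refine Eq.trans ?_ (Fin.sum_univ_succ (n := (l.map (Prod.map id i)).length) _).symm
    refine congrArg₂ (· + ·) ?_ (ih (Z := Z ∘ₗ LinearMap.mulLeft ℂ (ι _ (Finsupp.single x.1 x.2)))
      (c := fun L => c (Prod.map id i x :: L)) fun l => h (x :: l))
    show _ = if x.1 = 0 then 0 else c ((x.1 - 1, g (i x.2)) :: l.map (Prod.map id i))
    rw [blk_dA, ← hm]
    split_ifs
    · rw [map_zero, zero_mul, map_zero]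
    · exact h ((x.1 - 1, m x.2) :: l)

end MDivA

open MDivA

variable {J K : Type} [Fintype J] [Fintype K] {F : Fam Empty Empty Unit J K} {k : ℕ} {C : Deg.Coh}
  {i : C.H →ₗ[ℂ] H (F.X F.cone)}

open Classical in
theorem Fam.Ps.div (h : F.Ps k C.p i) (hy : St.BrHy) (hC : F.IsCoh C i) {γ : H (F.X F.cone)}
    (hγ : H.IsDeg 2 γ) {m : Module.End ℂ C.H} (hm : ∀ v, i (m v) = γ * i v) :
    IsEv C.p C.p m ∧ (∀ v w, C.fr.η (m v) w = C.fr.η v (m w)) ∧
    IsEv (C.p.fs ℕ) (C.p.fs ℕ) (Frame.blk (dA m)) ∧ ∃ κ : ℂ, ∀ β j x,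
      F.serK k C.p i β j (ι _ (Finsupp.single 0 (m C.fr.one)) * x) =
        evB γ β * F.serK k C.p i β j x + F.serK k C.p i β j (Fock.dv _ (Frame.blk (dA m)) x) +
        (if β = 0 ∧ j = -1 then aug _ (con2 _ (C.fr.qf (dA m)) x) else 0) +
        if β = 0 ∧ j = 0 then κ * aug _ x else 0 := by
  have h1 : IsEv C.p C.p m := fun v => hC.bij.1 (by
    rw [← hC.ev, hm, hm, Tq.parH_mul, Tq.parH_deg hγ, hC.ev, even_two.neg_one_zpow, one_smul])
  have h2 : ∀ v w, C.fr.η (m v) w = C.fr.η v (m w) := fun v w => by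
    rw [hC.η, hC.η, hm, hm, hγ.commute even_two (i v), mul_assoc]
  have h3 := (quad_dA h1 h2).isEv_blk
  refine ⟨h1, h2, h3, F.cor k (F.exK F.cone 0) 0 _ F.cone 0 0 [(0, γ)] [] [],
    fun β j x => ?_⟩
  have hx := mem_span_mon0 x
  induction hx using Submodule.span_induction with
  | zero => simp
  | add x y _ _ a b =>
    simp only [mul_add, map_add, a, b]
    split_ifs <;> ring
  | smul c x _ a =>
    simp only [mul_smul_comm, map_smul, a, smul_eq_mul]
    split_ifs <;> ring
  | mem x hx =>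
    obtain ⟨l, rfl⟩ := hx
    have e1 := h.serK_mon0 hy β j ((0, m C.fr.one) :: l)
    rw [List.map_cons, Prod.map_apply, hm, hC.one, mul_one, id] at e1
    rw [dv_mon0 h3 (g := (γ * ·)) hm l (c := fun L => F.cor k (F.exK _ β) 0 _ F.cone _ j L [] [])
      (h.serK_mon0 hy β j), h.serK_mon0 hy]
    refine e1.trans ?_
    have hl : (l.map (Prod.map id i)).length = l.length := List.length_map _
    by_cases hd : (fun _ : Unit => ⌊F.dgB β⌋) ≠ 0 ∨ 0 < 2 * j + (l.map (Prod.map id i)).length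
    · have h0 : β = 0 → 0 < 2 * j + l.length := fun e => hl ▸ hd.resolve_left fun k => k (by
        rw [e, map_zero, Int.floor_zero]; rfl)
      rw [hy.div F k β γ h.tg h.big hγ _ j _ hd, ite_eq_right_iff.2 fun e =>
        aug_con2_mon0 _ (by have := h0 e.1; omega), ite_eq_right_iff.2 fun e => by
          rw [aug_mon0 (by have := h0 e.1; omega), mul_zero], add_zero, add_zero]
      rfl
    obtain ⟨e2, e3⟩ := not_or.1 hd
    rw [not_not.1 e2]
    have h4 : ∀ L : List (ℕ × H (F.X F.cone)), (L.length : ℤ) ≤ -2 * j →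
        F.cor k (F.exK _ β) 0 _ F.cone 0 j L [] [] = 0 := fun L a => by_contra fun e => by
      have := (h.cor_supp hy e).2.2.2.2.2
      rw [Pi.zero_apply] at this
      omega
    rw [h4 (l.map _) (by omega), Finset.sum_eq_zero fun s _ => ite_eq_left_iff.2 fun _ =>
      h4 _ (by rw [List.length_set]; omega), mul_zero, add_zero, zero_add]
    by_cases a : β = 0 ∧ j = -1
    · obtain ⟨rfl, rfl⟩ := a
      rw [if_pos ⟨rfl, rfl⟩, if_neg (by simp), add_zero]
      by_cases b : l.length = 2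
      · obtain ⟨⟨m₁, v⟩, ⟨m₂, w⟩, rfl⟩ := List.length_eq_two.1 b
        have h5 := h.tg.cor_exC hy.add hy.supp h.big 0 (-1) [(0, γ), (m₁, i v), (m₂, i w)]
        rw [finsum_eq_single _ 0 fun β hβ => by_contra fun e => hβ ((h.cor_supp hy e).2.2.2.1 rfl),
          hy.three F k h.tg h.big] at h5
        refine h5.symm.trans ?_
        rw [mon0_cons, mon0_cons, aug_con2, mon0_nil, map_one, mul_one, qf_dA h1 h2]
        split_ifs with c
        · obtain ⟨-, rfl, rfl⟩ := c
          rw [Finsupp.single_eq_same, Finsupp.single_eq_same, hC.η, hm]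
        · by_cases c₁ : m₁ = 0
          · rw [Finsupp.single_eq_of_ne' (a := m₂) fun c₂ => c ⟨rfl, c₁, c₂⟩, map_zero]
          · rw [Finsupp.single_eq_of_ne' c₁, map_zero, map_zero, LinearMap.zero_apply]
      · rw [aug_con2_mon0 _ b, h4 _ (by rw [List.length_cons]; omega)]
    rw [if_neg a, zero_add]
    split_ifs with b
    · obtain ⟨rfl, rfl⟩ := b
      obtain rfl : l = [] := List.length_eq_zero_iff.1 (by omega)
      rw [mon0_nil, map_one, mul_one]
      rfl
    · refine by_contra fun e => ?_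
      obtain ⟨-, -, c1, c2, -, c3⟩ := h.cor_supp hy e
      rw [Pi.zero_apply, List.length_cons] at c3
      have c4 : j ≠ -1 := fun c => a ⟨c2 rfl, c⟩
      have c5 : j ≠ 0 := fun c => b ⟨c2 rfl, c⟩
      omega

end Vale.Agent.P269
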