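import Vale.Agent.P269.Br.NovA

/-!
# The divisor equation of the exponential; relations pass to the exponential
-/

namespace Vale.Agent.P269.Br

open Set Function Fock Deg

variable {Γ : Type} [AddCommGroup Γ] {deg : Γ →+ ℝ} {V : Type} [AddCommGroup V] [Module ℂ V]
  {p : Par ℂ V}

namespace RelA

theorem cf_apply (F : G3a.Fe p (Nov deg)) (β : Γ) (j : ℤ) (x : S p) :
    cf F β j x = co β j (F.ap x) := rfl

theorem cst_mul {B : Type} [Ring B] [Algebra ℂ B] (b : B) (F : G3a.Fe p B) (x : S p) :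
    (Fn.cst b * F).ap x = b * F.ap x := Fn.cst_mul_ap (s := SPar.triv ℂ B) rfl F x

theorem smul_one_mul {B : Type} [Ring B] [Algebra ℂ B] (c : ℂ) (F : G3a.Fe p B) :
    c • (1 : G3a.Fe p B) * F = c • F := by rw [smul_mul_assoc, one_mul]

theorem one_ap {B : Type} [Ring B] [Algebra ℂ B] (x : S p) :
    (1 : G3a.Fe p B).ap x = aug p x • (1 : B) := rfl

/-- Uniqueness of the solutions of `D F = A F`. -/
theorem uniq {B : Type} [CommRing B] [Algebra ℂ B] {A F G : G3a.Fe p B}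
    (hF : ∀ v, Fn.D v F = Fn.D v A * F) (hG : ∀ v, Fn.D v G = Fn.D v A * G) (x : S p) :
    F.ap x * G.ap 1 = G.ap x * F.ap 1 := by
  have hD : ∀ (v : V) (H : G3a.Fe p B) (b : B), Fn.D v (H * Fn.cst b) = Fn.D v H * Fn.cst b :=
    fun v H b => Fn.ext fun y => by rw [Fn.D_ap, Fn.mul_cst_ap, Fn.mul_cst_ap, Fn.D_ap]
  have h : F * Fn.cst (G.ap 1) - G * Fn.cst (F.ap 1) = 0 := by
    refine Fn.eq_zero_of_van_succ fun n hn => Fn.van_succ.2 ⟨?_, fun v => ?_⟩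
    · rw [Fn.sub_ap, Fn.mul_cst_ap, Fn.mul_cst_ap, mul_comm, sub_self]
    · rw [map_sub, hD, hD, hF, hG, mul_assoc, mul_assoc, ← mul_sub]
      exact Fn.van_mul_right _ hn
  have h1 := congrArg (fun H => Fn.ap H x) h
  simp only [Fn.sub_ap, Fn.mul_cst_ap, Fn.zero_ap] at h1
  exact sub_eq_zero.1 h1

theorem finsum_range {α β : Type} {g : β → α} (hg : Injective g) {f : α → ℂ}
    (hf : ∀ a, f a ≠ 0 → a ∈ range g) : ∑ᶠ a, f a = ∑ᶠ b, f (g b) := by
  rw [← finsum_mem_range hg, finsum_mem_def, indicator_eq_self.2 hf]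

end RelA

open Classical in
theorem IsExp.div {C E : G3a.Fe p (Nov deg)} (h : IsExp C E) {v : V} {a : Module.End ℂ V}
    (ha : IsEv p p a) (Q : SymB p) (lam : Γ →+ ℂ) (κ : ℂ)
    (hd : ∀ β j x, cf C β j (ι p v * x) = lam β * cf C β j x + cf C β j (Fock.dv p a x) +
      (if β = 0 ∧ j = -1 then aug p (con2 p Q x) else 0) + if β = 0 ∧ j = 0 then κ * aug p x else 0)
    (β : Γ) (j : ℤ) (x : S p) : cf E β j (ι p v * x) =
      (lam β + κ) * cf E β j x + cf E β j (Fock.dv p a x) + cf E β (j + 1) (con2 p Q x) := by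
  obtain ⟨Λ, hΛ⟩ := exists_der (deg := deg) lam
  have h1 : Fn.D v C = Fn.mapc (SPar.triv ℂ _) Λ C + Fn.pre (Fock.dv p a) C +
      Fn.cst (mo deg 0 (-1)) * Fn.pre (con2 p Q) 1 + κ • 1 := by
    refine Fn.ext fun y => co_ext fun β j => (hd β j y).trans ?_
    rw [Fn.add_ap, Fn.add_ap, Fn.add_ap, map_add, map_add, map_add, Fn.mapc_ap, hΛ, Fn.pre_ap,
      RelA.cst_mul, Fn.pre_ap, Fn.smul_ap, RelA.one_ap, RelA.one_ap, mul_smul_comm, mul_one,
      map_smul, map_smul, map_smul, ← mo_zero, co_mo, co_mo, RelA.cf_apply, RelA.cf_apply]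
    congr 1
    · congr 1
      split_ifs <;> simp
    · split_ifs <;> simp
  have h2 : Fn.D v E = Fn.mapc (SPar.triv ℂ _) Λ E + Fn.pre (Fock.dv p a) E +
      Fn.cst (mo deg 0 (-1)) * Fn.pre (con2 p Q) E + κ • E := by
    rw [h.D, h1, add_mul, add_mul, add_mul, ← h.der lam Λ hΛ, ← h.dv a ha, RelA.smul_one_mul,
      Fn.pre_con2, Fn.pre_con2, mul_one, mul_assoc]
  have h3 := congrArg (fun F => co β j (Fn.ap F x)) h2
  simp only [Fn.add_ap, map_add, Fn.mapc_ap, hΛ, Fn.pre_ap, RelA.cst_mul, co_mo_mul, Fn.smul_ap,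
    map_smul, sub_zero, sub_neg_eq_add, smul_eq_mul, Fn.D_ap] at h3
  simp only [RelA.cf_apply]
  rw [h3]
  ring

theorem IsExp.rel {C E : G3a.Fe p (Nov deg)} (h : IsExp C E) {Δ : Type} [AddCommGroup Δ]
    {e : Δ →+ ℝ} (he : Injective e) (hr : ∀ β, cf C β ≠ 0 → deg β ∈ range e)
    {Cb Z : Deg.Ser Δ p} (hC : ∀ d j x, Cb d j x = ∑ᶠ (β) (_ : deg β = e d), cf C β j x)
    (pos : ∀ d, Z d ≠ 0 → ∃ n : ℕ, e d = n) (low : ∀ d x, ∃ J, ∀ j < J, Z d j x = 0)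
    (norm : Z 0 0 1 ≠ 0)
    (prod : ∀ d j v x, Z d j (ι p v * x) = ∑ᶠ q : Δ × ℤ,
      tp (Cb q.1 q.2) (Z (d - q.1) (j - q.2)) (ι _ (v, 0) * Fock.map _ (isEv_diag p) x))
    {a₀ am a₁ : Module.End ℂ (S p)}
    (hZ : ∀ d j x, Z d j (a₀ x) + Z d (j + 1) (am x) + Z d (j - 1) (a₁ x) = 0) (r : ℝ) (j : ℤ)
    (x : S p) : ∑ᶠ (β) (_ : deg β = r), cf E β j (a₀ x) +
      ∑ᶠ (β) (_ : deg β = r), cf E β (j + 1) (am x) +
      ∑ᶠ (β) (_ : deg β = r), cf E β (j - 1) (a₁ x) = 0 := by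
  obtain ⟨φ, hφ⟩ := exists_push (deg := deg)
  have := noZeroDivisors (deg := AddMonoidHom.id ℝ) fun _ _ h => h
  let m : G3a.Fe p (Nov deg) →ₗ[ℂ] G3a.Fe p (Nov (AddMonoidHom.id ℝ)) :=
    Fn.mapc (SPar.triv ℂ _) φ.toLinearMap
  have hm : ∀ F r j y, cf (m F) r j y = ∑ᶠ (β) (_ : deg β = r), cf F β j y :=
    fun F r j y => hφ r j _
  have hE : ∀ v, Fn.D v (m E) = Fn.D v (m C) * m E := fun v =>
    (congrArg m (h.D v)).trans (Fn.mapc_mul (fun _ => rfl) (map_mul φ) _ _)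
  let Y : Deg.Ser ℝ p := extend e Z 0
  have Y1 : ∀ d, Y (e d) = Z d := fun d => he.extend_apply _ _ d
  have Y0 : ∀ r, r ∉ range e → Y r = 0 := fun r hr => extend_apply' _ _ _ hr
  obtain ⟨Z', hZ'⟩ := exists_cf (deg := AddMonoidHom.id ℝ) (C := Y)
    (fun r hr => by
      obtain ⟨d, rfl⟩ : r ∈ range e := by_contra fun h => hr (Y0 r h)
      exact pos d (by rwa [Y1] at hr))
    (fun r y => by
      by_cases hr : r ∈ range e
      · obtain ⟨d, rfl⟩ := hr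
        obtain ⟨J, hJ⟩ := low d y
        refine ⟨J, fun β hβ j hj => ?_⟩
        rw [show β = e d from hβ, Y1]
        exact hJ j hj
      · refine ⟨0, fun β hβ j _ => ?_⟩
        rw [show β = r from hβ, Y0 r hr]
        rfl)
    fun r j y => (finite_singleton r).subset fun β hβ => hβ.1
  have C1 : ∀ d j, cf (m C) (e d) j = Cb d j := fun d j =>
    LinearMap.ext fun y => (hm C _ j y).trans (hC d j y).symm
  have C0 : ∀ r j, r ∉ range e → cf (m C) r j = 0 := fun r j hr' => LinearMap.ext fun y => by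
    rw [hm]
    refine finsum_eq_zero_of_forall_eq_zero fun β =>
      (finsum_congr (g := fun _ => 0) fun hβ => ?_).trans finsum_zero
    have h0 : cf C β = 0 := by_contra fun h0 => hr' (hβ ▸ hr β h0)
    rw [h0]
    rfl
  have hD : ∀ v, Fn.D v Z' = Fn.D v (m C) * Z' := by
    refine fun v => Fn.ext fun y => co_ext fun r j => ?_
    have hT : ∀ q : ℝ × ℤ, Fn.of (SPar.triv ℂ ℂ) (cf (Fn.D v (m C)) q.1 q.2) =
        Fn.D v (Fn.of (SPar.triv ℂ ℂ) (cf (m C) q.1 q.2)) := fun _ => rfl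
    have hS : ∀ q : ℝ × ℤ, (Fn.D v (Fn.of (SPar.triv ℂ ℂ) (cf (m C) q.1 q.2)) *
        Fn.of (SPar.triv ℂ ℂ) (Y (r - q.1) (j - q.2))).ap y ≠ 0 → q.1 ∈ range e ∧ r ∈ range e := by
      intro q hq
      obtain ⟨d, hd⟩ : q.1 ∈ range e := by_contra fun h0 => hq (by
        rw [C0 _ _ h0, show Fn.of (SPar.triv ℂ ℂ) (0 : S p →ₗ[ℂ] ℂ) = 0 from rfl, map_zero,
          zero_mul, Fn.zero_ap])
      obtain ⟨d', hd'⟩ : r - q.1 ∈ range e := by_contra fun h0 => hq (by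
        rw [Y0 _ h0, show Fn.of (SPar.triv ℂ ℂ) ((0 : ℤ → S p →ₗ[ℂ] ℂ) (j - q.2)) = 0 from rfl,
          mul_zero, Fn.zero_ap])
      exact ⟨⟨d, hd⟩, d + d', by rw [map_add, hd, hd', add_sub_cancel]⟩
    change cf Z' r j (ι p v * y) = cf (Fn.D v (m C) * Z') r j y
    rw [cf_mul, hZ']
    simp only [hT]
    by_cases hr' : r ∈ range e
    · obtain ⟨d, rfl⟩ := hr'
      rw [Y1, prod, RelA.finsum_range (g := Prod.map e id) (he.prodMap injective_id)]
      · refine finsum_congr fun q => ?_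
        rw [G3a.tp_diag, Prod.map_fst, Prod.map_snd, id, C1, ← map_sub, Y1]
      · intro q hq
        obtain ⟨d', hd'⟩ := (hS q hq).1
        exact ⟨(d', q.2), Prod.ext hd' rfl⟩
    · rw [Y0 r hr', finsum_eq_zero_of_forall_eq_zero fun q => by_contra fun hq => hr' (hS q hq).2]
      rfl
  have hu := RelA.uniq hD hE
  have h1 : Z'.ap 1 ≠ 0 := fun h0 => norm (by
    rw [← Y1, map_zero, ← hZ', RelA.cf_apply, h0, map_zero])
  have h2 : Z'.ap (a₀ x) + mo _ 0 (-1) * Z'.ap (am x) + mo _ 0 1 * Z'.ap (a₁ x) = 0 := by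
    refine co_ext fun r j => ?_
    rw [map_add, map_add, co_mo_mul, co_mo_mul, sub_zero, sub_neg_eq_add, map_zero,
      ← RelA.cf_apply, ← RelA.cf_apply, ← RelA.cf_apply, hZ']
    by_cases hr' : r ∈ range e
    · obtain ⟨d, rfl⟩ := hr'
      rw [Y1, hZ]
    · rw [Y0 r hr']
      simp
  have h3 : (m E).ap (a₀ x) + mo _ 0 (-1) * (m E).ap (am x) + mo _ 0 1 * (m E).ap (a₁ x) = 0 := by
    refine (mul_eq_zero.1 ?_).resolve_right h1
    linear_combination (m E).ap 1 * h2 - hu (a₀ x) - mo _ 0 (-1) * hu (am x) -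
      mo _ 0 1 * hu (a₁ x)
  have h4 := congrArg (co r j) h3
  rwa [map_add, map_add, co_mo_mul, co_mo_mul, sub_zero, sub_neg_eq_add, map_zero,
    ← RelA.cf_apply, ← RelA.cf_apply, ← RelA.cf_apply, hm, hm, hm] at h4

end Vale.Agent.P269.Br
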