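import Vale.Agent.P269.Br.Nov
import Vale.Agent.P269.Deg.AnnA

/-!
# Class-wise Virasoro constraints from the constraints for the sum and the divisor equation
-/

namespace Vale.Agent.P269.Br

open Set Function Fock Deg

namespace SepP

section abstract

variable {T : Type} [AddCommGroup T] [Module ℂ T] {Γ α : Type}

/-- Independence of eigenfunctionals. -/
theorem indep (f : Γ → T →ₗ[ℂ] ℂ) (P : α → Module.End ℂ T) (lam : Γ → α → ℂ)
    (fin : ∀ y, {β | f β y ≠ 0}.Finite) (eig : ∀ β a y, f β (P a y) = lam β a * f β y)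
    (inj : ∀ β β', f β ≠ 0 → f β' ≠ 0 → lam β = lam β' → β = β')
    (h : ∀ y (F : Finset Γ), (∀ β, f β y ≠ 0 → β ∈ F) → ∑ β ∈ F, f β y = 0) (β₀ : Γ) :
    f β₀ = 0 := by
  classical
  by_contra h0
  have key : ∀ C : Finset Γ, β₀ ∉ C → ∃ u : Γ → ℂ, u β₀ ≠ 0 ∧ (∀ β ∈ C, ∀ y, u β * f β y = 0) ∧
      ∀ y (F : Finset Γ), (∀ β, f β y ≠ 0 → β ∈ F) → ∑ β ∈ F, u β * f β y = 0 := by
    intro C
    induction C using Finset.induction_on with
    | empty => exact fun _ => ⟨fun _ => 1, one_ne_zero, by simp, by simpa using h⟩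
    | insert β₁ C _ ih =>
      intro hC
      rw [Finset.mem_insert, not_or] at hC
      obtain ⟨u, u0, u1, u2⟩ := ih hC.2
      by_cases h1 : f β₁ = 0
      · refine ⟨u, u0, fun β hβ y => ?_, u2⟩
        rcases Finset.mem_insert.1 hβ with rfl | hβ
        · simp [h1]
        · exact u1 β hβ y
      · obtain ⟨a, ha⟩ := Function.ne_iff.1 fun e => hC.1 (inj β₀ β₁ h0 h1 e)
        refine ⟨fun β => (lam β a - lam β₁ a) * u β, mul_ne_zero (sub_ne_zero.2 ha) u0,
          fun β hβ y => ?_, fun y F hF => ?_⟩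
        · rcases Finset.mem_insert.1 hβ with rfl | hβ
          · simp
          · rw [mul_assoc, u1 β hβ, mul_zero]
        · have e1 := u2 y F hF
          have e2 := u2 (P a y) F fun β hβ => hF β fun e => hβ (by rw [eig, e, mul_zero])
          have e3 : ∑ β ∈ F, u β * f β (P a y) - lam β₁ a * ∑ β ∈ F, u β * f β y = 0 := by
            rw [e1, e2, mul_zero, sub_zero]
          rw [Finset.mul_sum, ← Finset.sum_sub_distrib] at e3
          exact (Finset.sum_congr rfl fun β _ => by rw [eig]; ring).trans e3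
  obtain ⟨y, hy⟩ := DFunLike.ne_iff.1 h0
  obtain ⟨u, u0, u1, u2⟩ := key ((fin y).toFinset.erase β₀) (Finset.notMem_erase _ _)
  have e := u2 y (fin y).toFinset fun β hβ => (fin y).mem_toFinset.2 hβ
  rw [← Finset.add_sum_erase _ _ ((fin y).mem_toFinset.2 hy),
    Finset.sum_eq_zero fun β hβ => u1 β hβ y, add_zero] at e
  exact mul_ne_zero u0 hy e

/-- Hermite interpolation. -/
theorem herm (e : Γ → T →ₗ[ℂ] ℂ) (N P G : Module.End ℂ T) (l : Γ → ℂ)
    (fin : ∀ y, {β | e β y ≠ 0}.Finite) (eig : ∀ β y, e β (P y) = l β * e β y)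
    (hN : N * P - P * N = G) (hG : ∀ β y, e β (G (P y)) = l β * e β (G y))
    (h : ∀ y (F : Finset Γ), (∀ β, e β (N y) ≠ 0 → β ∈ F) → ∑ β ∈ F, e β (N y) = 0) (c : ℂ) (y : T)
    (F : Finset Γ) [DecidablePred fun β => l β = c]
    (hF : ∀ β, (if l β = c then e β (G y) else 0) ≠ 0 → β ∈ F) :
    ∑ β ∈ F, (if l β = c then e β (G y) else 0) = 0 := by
  classical
  let R : (Γ → ℂ) → (Γ → ℂ) → Prop := fun u v => ∀ y (F : Finset Γ),
    (∀ β, e β (N y) ≠ 0 → β ∈ F) → (∀ β, e β (G y) ≠ 0 → β ∈ F) →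
    ∑ β ∈ F, (u β * e β (N y) + v β * e β (G y)) = 0
  have hNP : ∀ β y, e β (N (P y)) = l β * e β (N y) + e β (G y) := fun β y => by
    rw [← hN, LinearMap.sub_apply, map_sub, Module.End.mul_apply, Module.End.mul_apply, eig]
    ring
  have step : ∀ u v c', R u v →
      R (fun β => (l β - c') * u β) fun β => u β + (l β - c') * v β := by
    intro u v c' hR y F h1 h2
    have e1 := hR y F h1 h2
    have e2 := hR (P y) F (fun β hβ => by
      by_contra hn
      exact hβ (by rw [hNP, not_not.1 (mt (h1 β) hn), not_not.1 (mt (h2 β) hn), mul_zero, add_zero]))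
      fun β hβ => h2 β fun e => hβ (by rw [hG, e, mul_zero])
    have e3 : ∑ β ∈ F, (u β * e β (N (P y)) + v β * e β (G (P y))) -
        c' * ∑ β ∈ F, (u β * e β (N y) + v β * e β (G y)) = 0 := by
      rw [e1, e2, mul_zero, sub_zero]
    rw [Finset.mul_sum, ← Finset.sum_sub_distrib] at e3
    exact (Finset.sum_congr rfl fun β _ => by rw [hNP, hG]; ring).trans e3
  have key : ∀ C : Finset ℂ, c ∉ C → ∃ (u v : Γ → ℂ) (u0 : ℂ), u0 ≠ 0 ∧ R u v ∧
      (∀ β, l β ∈ C → u β = 0 ∧ v β = 0) ∧ ∀ β, l β = c → u β = u0 := by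
    intro C
    induction C using Finset.induction_on with
    | empty =>
      exact fun _ => ⟨fun _ => 1, fun _ => 0, 1, one_ne_zero,
        fun y F h1 _ => by simpa using h y F h1, by simp, fun _ _ => rfl⟩
    | insert c' C _ ih =>
      intro hC
      rw [Finset.mem_insert, not_or] at hC
      obtain ⟨u, v, u0, h0, hR, h1, h2⟩ := ih hC.2
      refine ⟨_, _, (c - c') * ((c - c') * u0), mul_ne_zero (sub_ne_zero.2 hC.1)
        (mul_ne_zero (sub_ne_zero.2 hC.1) h0), step _ _ c' (step _ _ c' hR), fun β hβ => ?_,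
        fun β hβ => by simp only [hβ, h2 β hβ]⟩
      rcases Finset.mem_insert.1 hβ with hβ | hβ
      · simp [hβ]
      · simp [h1 β hβ]
  let F' : Finset Γ := F ∪ ((fin (N y)).toFinset ∪ (fin (G y)).toFinset)
  obtain ⟨u, v, u0, h0, hR, h1, h2⟩ := key ((F'.image l).erase c) (Finset.notMem_erase _ _)
  have e1 := step _ _ c hR y F'
    (fun β hβ => Finset.mem_union_right _ (Finset.mem_union_left _ ((fin _).mem_toFinset.2 hβ)))
    fun β hβ => Finset.mem_union_right _ (Finset.mem_union_right _ ((fin _).mem_toFinset.2 hβ))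
  rw [Finset.sum_subset (Finset.subset_union_left : F ⊆ F') fun β _ hβ => not_not.1 (mt (hF β) hβ)]
  refine (mul_eq_zero.1 ?_).resolve_left h0
  rw [Finset.mul_sum]
  refine (Finset.sum_congr rfl fun β hβ => ?_).trans e1
  split_ifs with hc
  · simp [hc, h2 β hc]
  · simp [h1 β (Finset.mem_erase.2 ⟨hc, Finset.mem_image_of_mem _ hβ⟩)]

end abstract

section loop

variable {S : Type} [AddCommGroup S] [Module ℂ S]

/-- An operator with three pieces. -/
noncomputable def X3 (a0 a1 am : Module.End ℂ S) : Module.End ℂ (LL S) :=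
  Fock.cst a0 + zp ℂ S 1 * Fock.cst am + zp ℂ S (-1) * Fock.cst a1

/-- A Laurent polynomial. -/
noncomputable def lpo (S : Type) [AddCommGroup S] [Module ℂ S] (g0 g1 g2 g3 g4 : ℂ) :
    Module.End ℂ (LL S) :=
  g0 • (zp ℂ S 1 * zp ℂ S 1) + g1 • zp ℂ S 1 + g2 • 1 + g3 • zp ℂ S (-1) +
    g4 • (zp ℂ S (-1) * zp ℂ S (-1))

theorem X3_apply (a0 a1 am : Module.End ℂ S) (y : LL S) (j : ℤ) :
    X3 a0 a1 am y j = a0 (y j) + am (y (j - 1)) + a1 (y (j + 1)) := by
  simp [X3, zp_apply]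

theorem lp_apply (g0 g1 g2 g3 g4 : ℂ) (y : LL S) (j : ℤ) : lpo S g0 g1 g2 g3 g4 y j =
    g0 • y (j - 1 - 1) + g1 • y (j - 1) + g2 • y j + g3 • y (j + 1) + g4 • y (j + 1 + 1) := by
  simp [lpo, zp_apply]

theorem lp_X3 (g0 g1 g2 g3 g4 : ℂ) (a0 a1 am : Module.End ℂ S) (y : LL S) :
    lpo S g0 g1 g2 g3 g4 (X3 a0 a1 am y) = X3 a0 a1 am (lpo S g0 g1 g2 g3 g4 y) := by
  ext j
  simp only [X3_apply, lp_apply, map_add, map_smul, sub_add_cancel, add_sub_cancel_right]
  module

theorem X3_lie {a0 a1 am b0 b1 bm c0 c1 cm : Module.End ℂ S} {g0 g1 g2 g3 g4 : ℂ}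
    (h : ∀ a b : ℂ, a * b = 1 →
      (a0 + a • a1 + b • am) * (b0 + a • b1 + b • bm) -
        (b0 + a • b1 + b • bm) * (a0 + a • a1 + b • am) = c0 + a • c1 + b • cm +
          (b * b * g0 + b * g1 + g2 + a * g3 + a * a * g4) • 1) :
    X3 a0 a1 am * X3 b0 b1 bm - X3 b0 b1 bm * X3 a0 a1 am = X3 c0 c1 cm + lpo S g0 g1 g2 g3 g4 := by
  obtain ⟨e0, e1, e2, e3, e4⟩ := An.coef5 (e0 := am * bm - bm * am - g0 • 1)
    (e1 := a0 * bm + am * b0 - b0 * am - bm * a0 - cm - g1 • 1)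
    (e2 := a0 * b0 + a1 * bm + am * b1 - b0 * a0 - b1 * am - bm * a1 - c0 - g2 • 1)
    (e3 := a0 * b1 + a1 * b0 - b0 * a1 - b1 * a0 - c1 - g3 • 1)
    (e4 := a1 * b1 - b1 * a1 - g4 • 1) fun a b hab => by
      have := h a b hab
      simp only [mul_add, add_mul, smul_mul_assoc, mul_smul_comm, smul_add, smul_smul, hab,
        mul_comm b a, one_smul] at this
      linear_combination (norm := module) this
  refine LinearMap.ext fun y => Finsupp.ext fun j => ?_
  have f0 := LinearMap.congr_fun e0 (y (j - 1 - 1))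
  have f1 := LinearMap.congr_fun e1 (y (j - 1))
  have f2 := LinearMap.congr_fun e2 (y j)
  have f3 := LinearMap.congr_fun e3 (y (j + 1))
  have f4 := LinearMap.congr_fun e4 (y (j + 1 + 1))
  simp only [LinearMap.sub_apply, LinearMap.add_apply, Module.End.mul_apply, LinearMap.smul_apply,
    Module.End.one_apply, LinearMap.zero_apply, Finsupp.sub_apply, Finsupp.add_apply, X3_apply,
    lp_apply, map_add, sub_add_cancel, add_sub_cancel_right] at f0 f1 f2 f3 f4 ⊢
  linear_combination (norm := module) f0 + f1 + f2 + f3 + f4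

theorem ls_single (E : ℤ → S →ₗ[ℂ] ℂ) (j : ℤ) (x : S) :
    Finsupp.lsum ℂ E (Finsupp.single j x) = E j x := by simp

theorem ls_X3 (E : ℤ → S →ₗ[ℂ] ℂ) (a0 a1 am : Module.End ℂ S) (j : ℤ) (x : S) :
    Finsupp.lsum ℂ E (X3 a0 a1 am (Finsupp.single j x)) =
      E j (a0 x) + E (j + 1) (am x) + E (j - 1) (a1 x) := by
  simp only [X3, LinearMap.add_apply, Module.End.mul_apply, cst_single, zp_single, map_add,
    ls_single, sub_eq_add_neg]

/-- A Laurent polynomial which kills a functional bounded below has no constant term. -/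
theorem lp_kill {E : ℤ → S →ₗ[ℂ] ℂ} (hE : E ≠ 0) (low : ∀ x, ∃ J, ∀ j < J, E j x = 0)
    {g0 g1 g2 g3 g4 c : ℂ}
    (h : ∀ y, c * Finsupp.lsum ℂ E y + Finsupp.lsum ℂ E (lpo S g0 g1 g2 g3 g4 y) = 0) :
    c + g2 = 0 := by
  obtain ⟨j, hj⟩ := Function.ne_iff.1 hE
  obtain ⟨x, hx⟩ := DFunLike.ne_iff.1 hj
  obtain ⟨J0, hJ0⟩ := low x
  obtain ⟨J, hJ, hm⟩ := Int.exists_least_of_bdd (P := fun j => E j x ≠ 0)
    ⟨J0, fun z hz => not_lt.1 fun hl => hz (hJ0 z hl)⟩ ⟨j, hx⟩
  have hz : ∀ j < J, E j x = 0 := fun j hj => not_not.1 fun h => not_le.2 hj (hm j h)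
  have e : ∀ j, c * E j x + (g0 * E (j + 1 + 1) x + g1 * E (j + 1) x + g2 * E j x +
      g3 * E (j + -1) x + g4 * E (j + -1 + -1) x) = 0 := fun j => by
    simpa only [lpo, LinearMap.add_apply, LinearMap.smul_apply, Module.End.mul_apply, zp_single,
      Module.End.one_apply, map_add, map_smul, ls_single, smul_eq_mul] using h (Finsupp.single j x)
  have e0 := e (J - 1 - 1)
  rw [hz (J - 1 - 1) (by omega), hz (J - 1 - 1 + 1) (by omega), hz (J - 1 - 1 + -1) (by omega),
    hz (J - 1 - 1 + -1 + -1) (by omega), show J - 1 - 1 + 1 + 1 = J by omega] at e0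
  have g0z : g0 = 0 := (mul_eq_zero.1 (by simpa using e0)).resolve_right hJ
  have e1 := e (J - 1)
  rw [hz (J - 1) (by omega), hz (J - 1 + -1) (by omega), hz (J - 1 + -1 + -1) (by omega),
    show J - 1 + 1 = J by omega, g0z] at e1
  have g1z : g1 = 0 := (mul_eq_zero.1 (by simpa using e1)).resolve_right hJ
  have e2 := e J
  rw [hz (J + -1) (by omega), hz (J + -1 + -1) (by omega), g0z, g1z] at e2
  refine (mul_eq_zero.1 ?_).resolve_right hJ
  linear_combination e2

end loop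

variable {H : Type} [AddCommGroup H] [Module ℂ H] {q : Par ℂ H} {σ : Type} [Fintype σ]
  {fr : Frame q σ}

variable (fr) in
/-- The quantisation on the space of test vectors. -/
noncomputable def X (A : Module.End ℂ (LL H)) : Module.End ℂ (LL (S (q.fs ℕ))) :=
  X3 (fr.q0 A) (fr.q1 A) (fr.qm A)

theorem X_smul {A : Module.End ℂ (LL H)} (hA : fr.Quad A) (c : ℂ) : X fr (c • A) = c • X fr A := by
  rw [X, X, An.q0_smul, An.q1_smul hA, An.qm_smul hA]
  simp only [X3, map_smul, mul_smul_comm, smul_add]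

theorem X_lie {A B : Module.End ℂ (LL H)} (hA : fr.Quad A) (hB : fr.Quad B) {s : ℂ}
    (h : A * B - B * A = s • B) : ∃ g0 g1 g2 g3 g4,
      X fr A * X fr B - X fr B * X fr A = s • X fr B + lpo _ g0 g1 g2 g3 g4 := by
  let γ : Module.End ℂ (S (q.fs ℕ)) → ℂ := fun X => aug _ (X 1)
  rw [← X_smul hB]
  refine ⟨_, _, _, _, _, X3_lie (g0 := γ (fr.qm A * fr.qm B - fr.qm B * fr.qm A))
    (g1 := γ (fr.q0 A * fr.qm B + fr.qm A * fr.q0 B - fr.q0 B * fr.qm A - fr.qm B * fr.q0 A))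
    (g2 := γ (fr.q0 A * fr.q0 B + fr.q1 A * fr.qm B + fr.qm A * fr.q1 B - fr.q0 B * fr.q0 A -
      fr.q1 B * fr.qm A - fr.qm B * fr.q1 A))
    (g3 := γ (fr.q0 A * fr.q1 B + fr.q1 A * fr.q0 B - fr.q0 B * fr.q1 A - fr.q1 B * fr.q0 A))
    (g4 := γ (fr.q1 A * fr.q1 B - fr.q1 B * fr.q1 A)) fun a b hab => ?_⟩
  let t : ℂˣ := ⟨a, b, hab, by rw [mul_comm, hab]⟩
  have e0 := (An.quad_scl hA t).isQ.lie (An.quad_scl hB t).isQ
  rw [h] at e0
  have e := (An.quad_scl (hB.smul s) t).eq_qz e0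
  rw [An.qz_scl hA, An.qz_scl hB, An.qz_scl (hB.smul s)] at e
  refine e.trans ?_
  congr 2
  simp only [t, γ, Units.inv_mk, LinearMap.sub_apply, LinearMap.add_apply, Module.End.mul_apply,
    LinearMap.smul_apply, map_add, map_sub, map_smul, smul_eq_mul]
  linear_combination (aug _ (fr.q1 A (fr.qm B 1)) + aug _ (fr.qm A (fr.q1 B 1)) -
    aug _ (fr.q1 B (fr.qm A 1)) - aug _ (fr.qm B (fr.q1 A 1))) * hab

theorem dA_single (m : Module.End ℂ H) (i : ℤ) (v : H) :
    dA m (Finsupp.single i v) = Finsupp.single (i + -1) (m v) := by simp [dA]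

theorem up_dA (m : Module.End ℂ H) : Up (-1 + 0) (dA m) := (up_zp (-1)).mul (up_cst m)

theorem zp_dA (m : Module.End ℂ H) : Commute (zp ℂ H (-1)) (dA m) :=
  (Commute.refl _).mul_right (cst_zp m (-1)).symm

theorem D_dA (d : VD fr) {m : Module.End ℂ H} {w : ℂ} (hρ : m * d.ρ = d.ρ * m)
    (hμ : d.μ * m = m * d.μ + w • m) : d.D * dA m = dA m * d.D + (w - 1) • Fock.cst m := by
  refine LL_ext fun i v => ?_
  have e1 := LinearMap.congr_fun hρ v
  have e2 := LinearMap.congr_fun hμ v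
  simp only [Module.End.mul_apply, LinearMap.add_apply, LinearMap.smul_apply] at e1 e2
  simp only [Module.End.mul_apply, dA_single, VD.D_single, map_add, LinearMap.add_apply,
    LinearMap.smul_apply, cst_single, e1, e2, add_neg_cancel_right, neg_add_cancel_right,
    Finsupp.single_add, ← Finsupp.smul_single, map_smul]
  match_scalars <;> ring1

theorem ell_dA (d : VD fr) {m : Module.End ℂ H} (hρ : m * d.ρ = d.ρ * m)
    (hμ : d.μ * m = m * d.μ + (1 : ℂ) • m) (k : ℕ) :
    d.ell k * dA m - dA m * d.ell k = (0 : ℂ) • dA m := by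
  have h : Commute d.D (dA m) := (D_dA d hρ hμ).trans (by simp)
  rw [zero_smul, sub_eq_zero]
  exact (zp_dA m).mul_left (h.pow_left k)

theorem ell_one_dA (d : VD fr) {m : Module.End ℂ H} {w : ℂ} (hρ : m * d.ρ = d.ρ * m)
    (hμ : d.μ * m = m * d.μ + w • m) :
    d.ell 1 * dA m - dA m * d.ell 1 = (w - 1) • dA m := by
  rw [VD.ell, pow_one, mul_assoc, D_dA d hρ hμ, mul_add, ← mul_assoc, (zp_dA m).eq, mul_assoc,
    add_sub_cancel_left, mul_smul_comm, dA]

end SepP

open SepP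

variable {H : Type} [AddCommGroup H] [Module ℂ H] {q : Par ℂ H} {σ : Type} [Fintype σ]
  {fr : Frame q σ}

theorem quad_dA {m : Module.End ℂ H} (he : IsEv q q m) (ha : ∀ v w, fr.η (m v) w = fr.η v (m w)) :
    fr.Quad (dA m) := by
  refine Frame.Quad.of_up ((isEv_zp q _).mul he.cst) ?_ (up_dA m)
  have h := (Frame.adj_zp (fr := fr) (-1)).mul (Frame.adj_cst ha)
  have e : sg ℂ (-1) = -1 := by simpa using sg_nat (K := ℂ) 1
  rw [e, mul_smul_comm, (cst_zp m (-1)).eq] at h
  exact fun y y' => (h y y').trans (by simp [dA])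

theorem blk_dA (m : Module.End ℂ H) (n : ℕ) (v : H) :
    Frame.blk (dA m) (Finsupp.single n v) = if n = 0 then 0 else Finsupp.single (n - 1) (m v) := by
  rw [Frame.blk, LinearMap.comp_apply, LinearMap.comp_apply, up_single, dA_single]
  split_ifs with h
  · exact pos_single_neg (by omega) _
  · rw [show (n : ℤ) + -1 = (n - 1 : ℕ) by omega, pos_single_nat]

theorem eig_dA {m : Module.End ℂ H} (he : IsEv q q m) (ha : ∀ v w, fr.η (m v) w = fr.η v (m w))
    {Z : ℤ → S (q.fs ℕ) →ₗ[ℂ] ℂ} {c : ℂ}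
    (h : ∀ j x, Z j (ι _ (Finsupp.single 0 (m fr.one)) * x) =
      c * Z j x + Z j (dv _ (Frame.blk (dA m)) x) + Z (j + 1) (con2 _ (fr.qf (dA m)) x)) :
    Eig fr Z (dA m) (-c) := by
  intro j x
  have _ := quad_dA he ha
  have e1 : fr.q1 (dA m) = 0 := by
    rw [Frame.q1, Frame.cas_eq (N := 0) fun n _ v => (up_dA m).fin n (by simp) v]
    simp
  have e2 : fr.neg (dA m (up ℂ H fr.dil)) = 0 := by
    rw [Frame.dil, up_single, dA_single, show ((1 : ℕ) : ℤ) + -1 = (0 : ℕ) by simp,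
      ← up_single (K := ℂ), Frame.neg_up]
  have e3 : Frame.blk (dA m) fr.dil = Finsupp.single 0 (m fr.one) := by
    rw [Frame.dil, blk_dA, if_neg one_ne_zero]
  rw [e1, Frame.q0, Frame.qm, e2, e3]
  simp only [LinearMap.sub_apply, LinearMap.mulLeft_apply, map_sub, map_zero,
    LinearMap.zero_apply, h j x]
  ring

theorem qf_dA {m : Module.End ℂ H} (he : IsEv q q m) (ha : ∀ v w, fr.η (m v) w = fr.η v (m w))
    (v w : VV H) : (fr.qf (dA m)).1 v w = fr.η (m (v 0)) (w 0) := by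
  rw [(quad_dA he ha).qf_val, Frame.neg_apply]
  induction v using Finsupp.induction_linear with
  | zero => simp
  | add a b h1 h2 => simp only [map_add, LinearMap.add_apply, Finsupp.add_apply, h1, h2]
  | single n v =>
    rw [up_single, dA_single, Frame.Ω_single_left]
    rcases Nat.eq_zero_or_pos n with rfl | hn
    · rw [show -(((0 : ℕ) : ℤ) + -1) - 1 = (0 : ℕ) by simp, up_apply_nat]
      simp
    · rw [up_apply_neg _ (by omega), Finsupp.single_eq_of_ne hn.ne]
      simp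

theorem sep (d : VD fr) {Γ α : Type} (E : Γ → ℤ → S (q.fs ℕ) →ₗ[ℂ] ℂ) (m : α → Module.End ℂ H)
    (w : α → ℂ) (lam : Γ → α → ℂ) (ev : ∀ a, IsEv q q (m a))
    (adj : ∀ a v v', fr.η (m a v) v' = fr.η v (m a v')) (hρ : ∀ a, m a * d.ρ = d.ρ * m a)
    (hμ : ∀ a, d.μ * m a = m a * d.μ + w a • m a) (fin : ∀ j x, {β | E β j x ≠ 0}.Finite)
    (low : ∀ x, ∃ J, ∀ β, ∀ j < J, E β j x = 0) (eig : ∀ β a, Eig fr (E β) (dA (m a)) (lam β a))
    (inj : ∀ β β', E β ≠ 0 → E β' ≠ 0 → lam β = lam β' → β = β')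
    {Z : ℤ → S (q.fs ℕ) →ₗ[ℂ] ℂ} (hZ : ∀ j x, Z j x = ∑ᶠ β, E β j x) (h : d.VirC Z) (β : Γ) :
    d.VirC (E β) := by
  classical
  let e : Γ → LL (S (q.fs ℕ)) →ₗ[ℂ] ℂ := fun β => Finsupp.lsum ℂ (E β)
  let P : α → Module.End ℂ (LL (S (q.fs ℕ))) := fun a => X fr (dA (m a))
  let N : ℕ → Module.End ℂ (LL (S (q.fs ℕ))) := fun k =>
    X fr (d.ell k) + (if k = 1 then d.c0 else 0) • 1
  have hN : ∀ (Y : ℤ → S (q.fs ℕ) →ₗ[ℂ] ℂ) k j x, Finsupp.lsum ℂ Y (N k (Finsupp.single j x)) =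
      Y j (fr.q0 (d.ell k) x + (if k = 1 then d.c0 else 0) • x) +
        Y (j + 1) (fr.qm (d.ell k) x) + Y (j - 1) (fr.q1 (d.ell k) x) := fun Y k j x => by
    simp only [N, X, LinearMap.add_apply, LinearMap.smul_apply, Module.End.one_apply, map_add,
      map_smul, ls_X3, ls_single]
    ring
  have hE : ∀ β, e β ≠ 0 → E β ≠ 0 := fun β h1 h2 => h1 (by simp [e, h2])
  have fe : ∀ y, {β | e β y ≠ 0}.Finite := fun y => by
    induction y using Finsupp.induction_linear with
    | zero => simp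
    | add a b ha hb =>
      refine (ha.union hb).subset fun β hβ => ?_
      by_contra hn
      rw [mem_union, not_or] at hn
      exact hβ (by rw [map_add, not_not.1 hn.1, not_not.1 hn.2, add_zero])
    | single j x => simpa only [e, ls_single] using fin j x
  have ee : ∀ β a y, e β (P a y) = lam β a * e β y := fun β a y => by
    induction y using Finsupp.induction_linear with
    | zero => simp
    | add a b ha hb => rw [map_add, map_add, map_add, ha, hb, mul_add]
    | single j x => simpa only [e, P, X, ls_X3, ls_single] using eig β a j x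
  have hz : ∀ y, Finsupp.lsum ℂ Z y = ∑ᶠ β, e β y := fun y => by
    induction y using Finsupp.induction_linear with
    | zero => simp
    | add a b ha hb =>
      simp only [map_add, ha, hb]
      exact (finsum_add_distrib (fe a) (fe b)).symm
    | single j x => simpa only [e, ls_single] using hZ j x
  have h0 : ∀ k y (F : Finset Γ), (∀ β, e β (N k y) ≠ 0 → β ∈ F) → ∑ β ∈ F, e β (N k y) = 0 := by
    intro k y F hF
    rw [← finsum_eq_sum_of_support_subset _ fun β hβ => Finset.mem_coe.2 (hF β hβ), ← hz]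
    exact LinearMap.congr_fun (f := Finsupp.lsum ℂ Z ∘ₗ N k) (g := 0)
      (LL_ext fun j x => (hN Z k j x).trans (h k j x)) y
  have hG : ∀ k a s, d.ell k * dA (m a) - dA (m a) * d.ell k = s • dA (m a) → ∃ g0 g1 g2 g3 g4,
      N k * P a - P a * N k = s • P a + lpo _ g0 g1 g2 g3 g4 ∧
      ∀ β y, s * lam β a * e β y + e β (lpo _ g0 g1 g2 g3 g4 y) = 0 := by
    intro k a s hs
    obtain ⟨g0, g1, g2, g3, g4, hg⟩ := X_lie (d.quad_ell k) (quad_dA (ev a) (adj a)) hs
    have h1 : N k * P a - P a * N k = s • P a + lpo _ g0 g1 g2 g3 g4 := by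
      rw [← hg]
      simp only [N, P, add_mul, mul_add, smul_mul_assoc, mul_smul_comm, one_mul, mul_one]
      abel
    let G : Module.End ℂ (LL (S (q.fs ℕ))) := s • P a + lpo _ g0 g1 g2 g3 g4
    have h2 : ∀ β y, e β (G y) =
        s * lam β a * e β y + e β (lpo _ g0 g1 g2 g3 g4 y) := fun β y => by
      rw [LinearMap.add_apply, LinearMap.smul_apply, map_add, map_smul, ee, smul_eq_mul, mul_assoc]
    have h3 : ∀ β b y, e β (G (P b y)) = lam β b * e β (G y) := fun β b y => by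
      rw [h2, h2, ee, show lpo _ g0 g1 g2 g3 g4 (P b y) = P b (lpo _ g0 g1 g2 g3 g4 y) from
        lp_X3 _ _ _ _ _ _ _ _ y, ee]
      ring
    refine ⟨g0, g1, g2, g3, g4, h1, fun β y => ?_⟩
    let f : Γ → LL (S (q.fs ℕ)) →ₗ[ℂ] ℂ := fun β' =>
      if lam β' a = lam β a then e β' ∘ₗ G else 0
    have hf : ∀ β' y, f β' y = if lam β' a = lam β a then e β' (G y) else 0 := fun β' y => by
      simp only [f]
      split_ifs <;> rfl
    have hfE : ∀ β', f β' ≠ 0 → E β' ≠ 0 := fun β' h1 => hE β' fun h2 => h1 (by simp [f, h2])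
    have h4 := indep f P lam
      (fun y => (fe (G y)).subset fun β' hβ => fun h => hβ (by
        rw [hf, h, ite_self]))
      (fun β' b y => by
        rw [hf, hf]
        split_ifs
        · exact h3 β' b y
        · rw [mul_zero])
      (fun β₁ β₂ h1 h2 => inj β₁ β₂ (hfE _ h1) (hfE _ h2))
      (fun y F hF => by
        simp only [hf] at hF ⊢
        exact herm e (N k) (P a) _ (fun β => lam β a) fe (fun β => ee β a) h1 (fun β => h3 β a)
          (h0 k) _ y F hF) β
    have h5 := LinearMap.congr_fun h4 y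
    rwa [hf, if_pos rfl, h2] at h5
  have hw : ∀ a, w a ≠ 1 → ∀ β β', E β ≠ 0 → E β' ≠ 0 → lam β a = lam β' a := by
    intro a ha β β' h1 h2
    obtain ⟨g0, g1, g2, g3, g4, -, hg⟩ := hG 1 a _ (ell_one_dA d (hρ a) (hμ a))
    have a1 := lp_kill h1 (fun x => (low x).imp fun J hJ => hJ β) (hg β)
    have a2 := lp_kill h2 (fun x => (low x).imp fun J hJ => hJ β') (hg β')
    exact mul_left_cancel₀ (sub_ne_zero.2 ha) (by linear_combination a1 - a2)
  intro k j x
  have hE' : ∀ β, e β ∘ₗ N k ≠ 0 → E β ≠ 0 := fun β h1 => hE β fun h2 => h1 (by simp [h2])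
  have h1 := indep (α := {a // w a = 1}) (fun β => e β ∘ₗ N k) (fun a => P a.1)
    (fun β a => lam β a.1) (fun y => fe (N k y))
    (fun β a y => by
      obtain ⟨g0, g1, g2, g3, g4, h1, h2⟩ := hG k a.1 0
        (ell_dA d (hρ a.1) (by rw [hμ, a.2]) k)
      have h3 := congrArg (e β) (LinearMap.congr_fun h1 y)
      have h4 := h2 β y
      simp only [LinearMap.sub_apply, Module.End.mul_apply, map_sub, ee, zero_smul, zero_add,
        zero_mul] at h3 h4
      rw [h4, sub_eq_zero] at h3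
      exact h3)
    (fun β β' h1 h2 h3 => inj β β' (hE' _ h1) (hE' _ h2) (funext fun a => by
      by_cases ha : w a = 1
      · exact congrFun h3 ⟨a, ha⟩
      · exact hw a ha β β' (hE' _ h1) (hE' _ h2)))
    (h0 k) β
  exact (hN (E β) k j x).symm.trans (LinearMap.congr_fun h1 (Finsupp.single j x))

end Vale.Agent.P269.Br
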