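import Vale.Agent.P269.Br.MDef
import Vale.Agent.P269.Br.Exp
import Vale.Agent.P269.Br.Dict
import Vale.Agent.P269.Br.Rel
import Vale.Agent.P269.Br.Sep
import Vale.Agent.P269.Bas.Ok

/-!
# The series of the connected invariants of a class: support, finiteness, sums
-/

set_option linter.unusedSectionVars false

namespace Vale.Agent.P269

open P291Z Set Function Fock Br

section MIn

variable {V N : Type} [AddCommGroup V] [Module ℂ V] [AddCommGroup N] [Module ℂ N] {p : Par ℂ V}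

theorem mem_span_mon0 (x : S (p.fs ℕ)) : x ∈ Submodule.span ℂ (range (mon0 p)) := by
  induction x using Fock.induction with
  | h1 => exact Submodule.subset_span ⟨[], rfl⟩
  | hι v x hx =>
    refine mul_mem_span ?_ hx
    rintro _ ⟨l, rfl⟩
    induction v using Finsupp.induction_linear with
    | zero => simp
    | add a b ha hb =>
      rw [map_add, add_mul]
      exact add_mem ha hb
    | single m a => exact Submodule.subset_span ⟨(m, a) :: l, rfl⟩
  | hadd x y hx hy => exact add_mem hx hy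
  | hsmul c x hx => exact Submodule.smul_mem _ c hx

theorem mon0_ext {Z Z' : S (p.fs ℕ) →ₗ[ℂ] N} (h : ∀ l, Z (mon0 p l) = Z' (mon0 p l)) : Z = Z' :=
  LinearMap.ext fun x => LinearMap.eqOn_span (by rintro _ ⟨l, rfl⟩; exact h _) (mem_span_mon0 x)

theorem par_mon0 (l : List (ℕ × V)) :
    Fock.par _ (mon0 p l) = mon0 p (l.map (Prod.map id p.σ)) := by
  simp [mon0, map_list_prod, List.map_map, comp_def]

theorem Fam.ser0_mon0 {S Λ R J K : Type} [Fintype S] [Fintype Λ] [Fintype R] [Fintype J] [Fintype K]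
    [DecidableEq R] {F : Fam S Λ R J K} {k : ℕ} {e : F.Ex} {A : Set _} {i : V →ₗ[ℂ] H (F.X A)}
    (hS : St.Spec) (hF : F.Nice 0) (hc : F.Cp) (hk : F.Big k) (he : F.ExOk k e) (hA : F.cone ⊆ A)
    (hi : IsEv p (parH _) i) (d j l) :
    F.ser0 k e p i d j (mon0 p l) = F.cor k e 0 A A d j (l.map (Prod.map id i)) [] [] := by
  rw [← (hS F 0 k e (A' := A) p i hF hc hk he hA hi).1 rfl]
  refine congrArg (F.serA k e p i d j) ?_
  simp [mon0, monT, map_list_prod, List.map_map, comp_def]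

variable {J K : Type} [Fintype J] [Fintype K] {F : Fam Empty Empty Unit J K} {k : ℕ}
  {i : V →ₗ[ℂ] H (F.X F.cone)} (h : F.Ps k p i) (hy : St.BrHy)
include h hy

namespace Fam.Ps

theorem cor_supp {β d j} {l : List (ℕ × H (F.X F.cone))}
    (e : F.cor k (F.exK _ β) 0 _ F.cone d j l [] [] ≠ 0) : F.dgB β = d () ∧ 0 ≤ d () ∧ -1 ≤ j ∧
      (d = 0 → β = 0) ∧ BM.IsDeg 2 β ∧ 0 < 2 * j + l.length + 3 * d () := by
  obtain ⟨m, a1, a2, a3, a4, rfl⟩ := Fam.cor_exK_supp h.tg.nice hy.supp h.big e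
  obtain ⟨n, hn⟩ := h.amp
  have := h.tg.compact
  have := a4.1
  have b1 := a4.gen_nonneg
  have b2 := a2.pos a3
  rw [a3.1] at b1
  simp [hn.1] at b2
  refine ⟨(congrArg Complex.re (AM.ev_cls_lc h.tg.toGood a1 1)).trans (by simp [a3.2]),
    by simpa using (a1.eff hn a3).1, by omega,
    fun e => AM.cls_eq_zero h.tg.toGood a1 fun r => (a3.2 r).trans (congrFun e r), AM.cls_deg,
    by linarith⟩

theorem serK_mon0 (β j l) : F.serK k p i β j (mon0 p l) =
    F.cor k (F.exK _ β) 0 _ F.cone (fun _ => ⌊F.dgB β⌋) j (l.map (Prod.map id i)) [] [] :=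
  Fam.ser0_mon0 hy.spec h.tg.nice F.cp_empty h.big (h.tg.exOk_exK β) subset_rfl h.ev _ j l

theorem serK_sum (β j l) : F.serK k p i β j (mon0 p l) =
    ∑ᶠ d, F.cor k (F.exK _ β) 0 _ F.cone d j (l.map (Prod.map id i)) [] [] := by
  rw [h.serK_mon0 hy, finsum_eq_single _ fun _ => ⌊F.dgB β⌋]
  exact fun d a => by_contra fun e =>
    a (funext fun _ => by rw [(h.cor_supp hy e).1, Int.floor_intCast])

theorem exists_cor {β j} (e : F.serK k p i β j ≠ 0) : ∃ l,
    F.cor k (F.exK _ β) 0 F.cone F.cone (fun _ => ⌊F.dgB β⌋) j l [] [] ≠ 0 := by_contra fun a =>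
  e (mon0_ext fun l => (h.serK_mon0 hy β j l).trans (by_contra fun b => a ⟨_, b⟩))

theorem fin_serK (r : ℝ) (j x) : {β | F.dgB β = r ∧ F.serK k p i β j x ≠ 0}.Finite := by
  induction mem_span_mon0 x using Submodule.span_induction with
  | mem y a =>
    obtain ⟨l, rfl⟩ := a
    refine (h.tg.finite_cls (ν := Fin (l.map (Prod.map id i)).length ⊕ Fin 0) (κ := Fin 0) (j + 1)
      fun _ => ⌊r⌋).subset ?_
    rintro β ⟨rfl, e⟩
    rw [h.serK_mon0 hy] at e
    obtain ⟨m, a1, a2, a3, -, a4⟩ := Fam.cor_exK_supp h.tg.nice hy.supp h.big e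
    exact ⟨m, a1, a2, a3, a4⟩
  | zero => simp
  | add x y _ _ a b =>
    refine (a.union b).subset fun β e => by_contra fun c => e.2 ?_
    simp only [mem_union, mem_ofPred_eq, e.1, true_and, not_or, not_not] at c
    rw [map_add, c.1, c.2, add_zero]
  | smul c x _ a => exact a.subset fun β e => ⟨e.1, fun c => e.2 (by rw [map_smul, c, smul_zero])⟩

theorem isIn : In F.dgB (F.serK k p i) := by
  refine ⟨fun β j x => LinearMap.congr_fun (mon0_ext
    (Z := F.serK k p i β j ∘ₗ (Fock.par _).toLinearMap) fun l => ?_) x, fun β j e => ?_,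
    fun β j e a => ?_, h.fin_serK hy⟩
  · rw [LinearMap.comp_apply, AlgHom.toLinearMap_apply, par_mon0, h.serK_mon0 hy, h.serK_mon0 hy,
      map_map_ev h.ev]
    exact hy.par F 0 k _ subset_rfl (F.dvs_subset 0) h.tg.nice F.cp_empty h.big (h.tg.exOk_exK β)
      _ j _ [] []
  · obtain ⟨l, a⟩ := h.exists_cor hy e
    obtain ⟨b, c, d, -⟩ := h.cor_supp hy a
    obtain ⟨n, f⟩ := Int.eq_ofNat_of_zero_le c
    exact ⟨d, n, by rw [b, f, Int.cast_natCast]⟩
  · have := (h.cor_supp hy (l := []) (h.serK_mon0 hy β j [] ▸ e)).2.2.2.2.2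
    simp only [a, Int.floor_zero, List.length_nil, Nat.cast_zero] at this
    omega

theorem serK_deg {β} (e : F.serK k p i β ≠ 0) : BM.IsDeg 2 β :=
  let ⟨_, a⟩ := ne_iff.1 e
  let ⟨_, b⟩ := h.exists_cor hy a
  (h.cor_supp hy b).2.2.2.2.1

theorem ser0_exC (d j x) :
    F.ser0 k F.exC p i d j x = ∑ᶠ (β) (_ : F.dgB β = d ()), F.serK k p i β j x := by
  classical
  have f := fun x => h.fin_serK hy (d ()) j x
  induction mem_span_mon0 x using Submodule.span_induction with
  | mem y a =>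
    obtain ⟨l, rfl⟩ := a
    rw [Fam.ser0_mon0 (e := F.exC) hy.spec h.tg.nice F.cp_empty h.big
      (hy.selC F k 1 univ 1 h.tg.toGood h.big (subset_univ _) (one_mem _)).2 subset_rfl h.ev,
      h.tg.cor_exC hy.add hy.supp h.big]
    refine finsum_congr fun β => ?_
    by_cases e : F.dgB β = d ()
    · rw [finsum_eq_if, if_pos e, h.serK_mon0 hy, e, Int.floor_intCast]
    · rw [finsum_eq_if, if_neg e]
      exact by_contra fun a => e (h.cor_supp hy a).1
  | zero => simp
  | add x y _ _ a b =>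
    simp only [map_add, a, b]
    exact (finsum_mem_add_distrib' (s := {β | F.dgB β = d ()}) (f x) (f y)).symm
  | smul c x _ a =>
    simp only [map_smul, a]
    exact mul_finsum_mem (s := {β | F.dgB β = d ()}) _ c

theorem ser0_ex0 (d j l) : F.ser0 k F.ex0 p i d j (mon0 p l) =
    F.cor k F.ex0 0 _ F.cone d j (l.map (Prod.map id i)) [] [] :=
  Fam.ser0_mon0 hy.spec h.tg.nice F.cp_empty h.big (Fam.exOk0 hy.selC h.tg.toGood h.big) subset_rfl
    h.ev d j l

theorem ser0_pos {d} (e : F.ser0 k F.ex0 p i d ≠ 0) : ∃ n : ℕ, d () = n := by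
  by_contra a
  refine e (funext fun j => mon0_ext fun l => (h.ser0_ex0 hy d j l).trans (by_contra fun b => a ?_))
  obtain ⟨⟨m, a1, -, a3⟩, -⟩ := Fam.cor_supp hy.supp h.tg.nice h.big b
  obtain ⟨n, hn⟩ := h.amp
  exact Int.eq_ofNat_of_zero_le (by simpa using (a1.eff hn a3).1)

theorem ser0_low (d x) : ∃ J, ∀ j < J, F.ser0 k F.ex0 p i d j x = 0 := by
  refine low_of_span (F.ser0 k F.ex0 p i d) ?_ (mem_span_mon0 x)
  rintro _ ⟨l, rfl⟩
  simp only [h.ser0_ex0 hy]
  exact Fam.cor_low hy.supp h.tg.nice h.big d _ _ _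

theorem ser0_norm : F.ser0 k F.ex0 p i 0 0 1 = 1 :=
  (h.ser0_ex0 hy 0 0 []).trans
    ((hy.norm F 0 k 1 _ _ 0 h.tg.nice h.tg.B_eq h.big).trans (map_one _))

end Fam.Ps

end MIn

end Vale.Agent.P269
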