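import Vale.Agent.P269.Br.MDiv

/-!
# Class-wise Virasoro constraints of the exponential
-/

namespace Vale.Agent.P269

open P291Z Set Function Fock Br

/-- Separation of the classes of a fixed degree. -/
theorem Br.virC_cf {Γ : Type} [AddCommGroup Γ] {deg : Γ →+ ℝ} {V : Type} [AddCommGroup V]
    [Module ℂ V] {q : Par ℂ V} {σ : Type} [Fintype σ] {fr : Frame q σ} (d : VD fr)
    (E : Deg.G3a.Fe (q.fs ℕ) (Nov deg)) {α : Type} (m : α → Module.End ℂ V) (w : α → ℂ)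
    (lam : Γ → α → ℂ) (ev : ∀ a, IsEv q q (m a))
    (adj : ∀ a v v', fr.η (m a v) v' = fr.η v (m a v')) (hρ : ∀ a, m a * d.ρ = d.ρ * m a)
    (hμ : ∀ a, d.μ * m a = m a * d.μ + w a • m a)
    (eig : ∀ β a, Eig fr (cf E β) (dA (m a)) (lam β a))
    (inj : ∀ β β', cf E β ≠ 0 → cf E β' ≠ 0 → lam β = lam β' → β = β')
    (rel : ∀ (r : ℝ) (k : ℕ) (j : ℤ) x, ∑ᶠ (β) (_ : deg β = r),
      cf E β j (fr.q0 (d.ell k) x + (if k = 1 then d.c0 else 0) • x) +
      ∑ᶠ (β) (_ : deg β = r), cf E β (j + 1) (fr.qm (d.ell k) x) +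
      ∑ᶠ (β) (_ : deg β = r), cf E β (j - 1) (fr.q1 (d.ell k) x) = 0) (β : Γ) :
    d.VirC (cf E β) := by
  classical
  obtain ⟨φ, hφ⟩ := exists_push (deg := deg)
  let E' : Γ → ℤ → S (q.fs ℕ) →ₗ[ℂ] ℂ := fun β' => if deg β' = deg β then cf E β' else 0
  have e1 : ∀ β', deg β' = deg β → E' β' = cf E β' := fun _ h => if_pos h
  have e0 : ∀ β', deg β' ≠ deg β → E' β' = 0 := fun _ h => if_neg h
  have e2 : ∀ β' j x, E' β' j x ≠ 0 → deg β' = deg β ∧ co β' j (E.ap x) ≠ 0 := fun β' j x h => by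
    have h1 : deg β' = deg β := by_contra fun h1 => h (by rw [e0 _ h1]; rfl)
    exact ⟨h1, by rwa [e1 _ h1] at h⟩
  have e3 : ∀ β', E' β' ≠ 0 → cf E β' ≠ 0 := fun β' h => by
    rwa [e1 _ (by_contra fun h1 => h (e0 _ h1))] at h
  rw [← e1 β rfl]
  refine sep d E' m w lam ev adj hρ hμ (fun j x => (co_fin (E.ap x) (deg β) j).subset
    fun β' h => e2 β' j x h) (fun x => (co_low (E.ap x) (deg β)).imp fun J hJ β' j hj =>
      by_contra fun h => (e2 β' j x h).2 (hJ β' (e2 β' j x h).1 j hj)) (fun β' a => ?_)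
    (fun β₁ β₂ h1 h2 => inj β₁ β₂ (e3 _ h1) (e3 _ h2))
    (Z := fun j => co (deg β) j ∘ₗ φ.toLinearMap ∘ₗ E.ap) (fun j x => ?_) (fun k j x => ?_) β
  · by_cases h : deg β' = deg β
    · rw [e1 _ h]
      exact eig β' a
    · rw [e0 _ h]
      exact fun j x => by simp
  · refine (hφ _ j _).trans (finsum_congr fun β' => ?_)
    rw [finsum_eq_if]
    split_ifs with h
    · rw [e1 _ h]
      rfl
    · rw [e0 _ h]
      rfl
  · refine Eq.trans ?_ (rel (deg β) k j x)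
    exact congrArg₂ _ (congrArg₂ _ (hφ _ _ _) (hφ _ _ _)) (hφ _ _ _)

variable {J K : Type} [Fintype J] [Fintype K] {F : Fam Empty Empty Unit J K} {k : ℕ} {C : Deg.Coh}
  {i : C.H →ₗ[ℂ] H (F.X F.cone)}

theorem Fam.Ps.virC (h : F.Ps k C.p i) (hy : St.BrHy) (hC : F.IsCoh C i) {vd : VD C.fr}
    (hV : F.Vir C i vd) (hρ : ∀ v, i (vd.ρ v) = F.c1 _ * i v) {α : Type} (γ : α → H (F.X F.cone))
    (w : α → ℂ) (hγ : ∀ a, H.IsDeg 2 (γ a))
    (hs : ∀ c, H.IsDeg 2 c → c ∈ Submodule.span ℂ (range γ))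
    (hμ : ∀ a v v', i v' = γ a * i v → i (vd.μ v') = γ a * i (vd.μ v) + w a • i v')
    {Γ : Type} [AddCommGroup Γ] (τ : Γ ≃+ BM (F.X F.cone)) :
    ∃ C' E : Deg.G3a.Fe (C.p.fs ℕ) (Nov (F.dgB.comp τ.toAddMonoidHom)),
      (cf C' = fun β => F.serK k C.p i (τ β)) ∧ IsExp C' E ∧ ∀ β, vd.VirC (cf E β) := by
  classical
  have := h.tg.toGood.nice
  have := h.tg.compact
  have hI := h.isIn hy
  have hI' : In (F.dgB.comp τ.toAddMonoidHom) fun β => F.serK k C.p i (τ β) :=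
    ⟨fun β => hI.ev (τ β), fun β => hI.low (τ β), fun β => hI.vac (τ β),
      fun r j x => (hI.fin r j x).preimage τ.injective.injOn⟩
  obtain ⟨C', E, hC', hE⟩ := hI'.exists_isExp
  refine ⟨C', E, hC', hE, ?_⟩
  let u := LinearEquiv.ofBijective i hC.bij
  let m : α → Module.End ℂ C.H := fun a => u.symm.toLinearMap ∘ₗ LinearMap.mulLeft ℂ (γ a) ∘ₗ i
  have hm : ∀ a v, i (m a v) = γ a * i v := fun a v => u.apply_symm_apply _
  have hd := fun a => h.div hy hC (hγ a) (hm a)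
  choose κ hκ using fun a => (hd a).2.2.2
  let M : AddSubmonoid Γ :=
    { carrier := {β | BM.IsDeg 2 (τ β)}
      add_mem' := fun ha hb j a hj h => by
        rw [map_add, Orb.add_ev, ha j a hj h, hb j a hj h, add_zero]
      zero_mem' := fun j a _ _ => by
        rw [map_zero]
        unfold P291Z.ev
        split_ifs <;> rfl }
  have hM : ∀ β, cf E β ≠ 0 → BM.IsDeg 2 (τ β) := fun β hβ =>
    hE.mem (M := M) (fun β' h' => h.serK_deg hy (by rwa [hC'] at h')) hβ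
  let e : (Unit → ℤ) →+ ℝ := (Int.castAddHom ℝ).comp (Pi.evalAddMonoidHom _ ())
  refine virC_cf vd E m w (fun β a => -(evB (γ a) (τ β) + κ a)) (fun a => (hd a).1)
    (fun a => (hd a).2.1) (fun a => LinearMap.ext fun v => hC.bij.1 ?_)
    (fun a => LinearMap.ext fun v => hC.bij.1 ?_) (fun β a => ?_) (fun β β' h1 h2 h3 => ?_)
    fun r n j x => ?_
  · rw [Module.End.mul_apply, Module.End.mul_apply, hm, hρ, hρ, hm, ← mul_assoc, ← mul_assoc,
      (hγ a).commute (by decide)]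
  · rw [Module.End.mul_apply, LinearMap.add_apply, Module.End.mul_apply, LinearMap.smul_apply,
      map_add, map_smul, hm, hμ a v _ (hm a v)]
  · refine eig_dA (hd a).1 (hd a).2.1 (hE.div (hd a).2.2.1 _
      ((evB (γ a)).comp τ.toAddMonoidHom) (κ a) (fun β j x => ?_) β)
    rw [hC']
    refine (hκ a (τ β) j x).trans ?_
    simp only [τ.map_eq_zero_iff]
    rfl
  · refine τ.injective (ext_deg (hM β h1) (hM β' h2) fun c hc => ?_)
    refine LinearMap.eqOn_span' ?_ (hs c hc)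
    rintro _ ⟨a, rfl⟩
    rw [← Tq.ev_rep, ← Tq.ev_rep]
    exact add_right_cancel (neg_injective (congrFun h3 a))
  · refine hE.rel (e := e) (Cb := F.ser0 k F.exC C.p i) (Z := F.ser0 k F.ex0 C.p i)
      (fun d d' hd => funext fun _ => Int.cast_injective (α := ℝ) hd) (fun β hβ => ?_)
      (fun d j x => ?_) (fun d hd => ?_) (h.ser0_low hy) (by rw [h.ser0_norm hy]; exact one_ne_zero)
      (hy.prod F k C.p i h.tg h.big h.ev)
      (a₀ := C.fr.q0 (vd.ell n) + (if n = 1 then vd.c0 else 0) • 1)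
      (fun d j x => hV k h.big d n j x) r j x
    · rw [hC'] at hβ
      obtain ⟨j, hj⟩ := Function.ne_iff.1 hβ
      obtain ⟨-, n, hn⟩ := hI'.low β j hj
      exact ⟨fun _ => n, (Int.cast_natCast n).trans hn.symm⟩
    · rw [hC', h.ser0_exC hy, ← finsum_comp_equiv τ.toEquiv]
      rfl
    · exact (h.ser0_pos hy hd).imp fun n hn => (congrArg Int.cast hn).trans (Int.cast_natCast n)

end Vale.Agent.P269
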