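import Vale.Agent.P269.Br.MVir
import Vale.Agent.P269.Br.LD
import Vale.Agent.P269.Asm.Ci
import Vale.Agent.P269.Prj.Tgt

/-!
# From the series of the proof to the statement
-/

namespace Vale.Agent.P269

open P291Z Set Function Fock Br

theorem St.bridge (hy : St.BrHy) (hG : St.GW) (hC : St.BrC) (hH : St.BrH) : St.Bridge := by
  intro hV N c d F hom li conn B φ p q hφ k'
  obtain ⟨⟨x, hx⟩, -⟩ := Quot.exists_rep (Classical.arbitrary (ci F).X)
  have ne : ∀ k, F k ≠ 0 := fun k e => (li x hx).ne_zero k (by simp [e, Pi.zero_def])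
  have sm : SmCI F d := ⟨hom, fun k => Nat.one_le_iff_ne_zero.2 fun e => ne k (by
    have h1 := hom k
    rw [e, ← MvPolynomial.totalDegree_zero_iff_isHomogeneous,
      MvPolynomial.totalDegree_eq_zero_iff_eq_C] at h1
    have h2 := hx.2 k
    rw [show (ci F).F k = _ from h1, MvPolynomial.eval_C] at h2
    rw [h1, h2, map_zero]), ne, li⟩
  obtain ⟨c1, c2⟩ := hC N c d F sm ⟨x, hx⟩
  obtain ⟨C, i, vd, e, st, ad, he, hμ, hm⟩ := hH N c d F sm ⟨x, hx⟩ B φ p q hφ
  have ps : (ciF F d).Ps 30 C.p i := ⟨sm.tg, ⟨1, ciF_ample⟩, ciF_big le_rfl, st.ev⟩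
  have dg : ∀ a, H.IsDeg (p a + q a) (ciH F d (φ a)) := fun a =>
    let ⟨t, h1, h2, _⟩ := hφ a
    H.IsDeg.map ⟨t, h1, h2⟩ _
  have dg' : ∀ a, p a + q a = 2 → H.IsDeg 2 (ciH F d (φ a)) := fun a h =>
    (show (p a + q a : ℤ) = 2 by omega) ▸ dg a
  have hσ : ∀ a, C.p.σ (e (φ a)) = (-1 : ℂ) ^ (p a + q a) • e (φ a) := fun a => st.bij.1 (by
    rw [← st.ev, map_smul, he, Tq.parH_deg (dg a), ← Nat.cast_add, zpow_natCast])
  have key := ps.virC hy st.toIsCoh
    (hV N (Finset.univ.val.map d) (by simpa using sm.pos) _ _ F d (Fintype.card_fin _) rfl sm C i vd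
      st ad) st.ρ (fun a : {a // p a + q a = 2} => ciH F d (φ a)) (fun a => p a)
    (fun a => dg' a a.2) (fun y hy => ?_) (fun a v v' hv => ?_)
    ((ci F).xiB fun k _ => d k)
  · obtain ⟨C', E, h1, h2, h3⟩ := key
    have := h2.dict (fun a => p a + q a) (fun a : ℕ × Fin B => Finsupp.single a.1 (e (φ a.2)))
      fun a => by rw [Par.fs_σ_single, hσ, Finsupp.smul_single]
    rw [Tgt.potential, show (fun (l : List (ℕ × Fin B)) β (j : ℤ) => if -1 ≤ j then
      (ci F).gw (j + 1).toNat β (l.map fun i => (i.1, φ i.2)) else 0) = _ from ?_, this]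
    · obtain ⟨_, -, ad, -⟩ := ad
      refine (ci F).L_eq_zero (N - c) φ p q vd e (fun a b => ?_) (st.bij.1 ?_) hσ hμ ?_
        (fun v => st.bij.1 ?_) h3 k'
      · rw [st.η, he, he, ← map_mul, c1]
      · rw [st.one, he, map_one]
      · simpa using ad
      · rw [st.ρ, he, he, map_mul, c2]
    funext l β j
    rw [h1]
    split_ifs with hj
    · have := ps.serK_sum hy ((ci F).xiB (fun k _ => d k) β) j (l.map fun a => (a.1, e (φ a.2)))
      simp only [mon0, List.map_map, comp_def, Prod.map, he] at this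
      rw [hG (ci F) (fun k _ => d k) 30 sm.tg ps.big, Int.toNat_of_nonneg (by omega),
        add_sub_cancel_right, List.map_map]
      exact this.symm
    · exact (LinearMap.congr_fun (by_contra fun h => hj ((ps.isIn hy).low _ j h).1) _).symm
  · obtain ⟨v, rfl⟩ := st.bij.2 y
    obtain ⟨v, rfl⟩ := e.surjective v
    rw [← hy.comp_eq, he, ← φ.sum_repr v, map_sum, map_sum]
    refine Submodule.sum_mem _ fun a _ => ?_
    rw [map_smul, map_smul]
    refine Submodule.smul_mem _ _ ?_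
    by_cases h : p a + q a = 2
    · rw [(dg' a h).comp_eq]
      exact Submodule.subset_span ⟨⟨a, h⟩, rfl⟩
    · rw [(dg a).comp_ne (by omega)]
      exact zero_mem _
  · obtain ⟨v, rfl⟩ := e.surjective v
    obtain rfl : v' = e (φ a * v) := st.bij.1 (by rw [hv, he, he, map_mul])
    have key : (i ∘ₗ vd.μ ∘ₗ e.toLinearMap ∘ₗ LinearMap.mulLeft ℂ (φ a)) =
        LinearMap.mulLeft ℂ (ciH F d (φ a)) ∘ₗ i ∘ₗ vd.μ ∘ₗ e.toLinearMap +
          (p a : ℂ) • i ∘ₗ e.toLinearMap ∘ₗ LinearMap.mulLeft ℂ (φ a) := φ.ext fun b => by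
      have : vd.μ (e (φ a * φ b)) = ((p a + p b : ℂ) - (N - c : ℕ) / 2) • e (φ a * φ b) := by
        rw [← φ.sum_repr (φ a * φ b), map_sum, map_sum, Finset.smul_sum]
        refine Finset.sum_congr rfl fun z _ => ?_
        rw [map_smul, map_smul, hμ]
        by_cases h : φ.repr (φ a * φ b) z = 0
        · rw [h, zero_smul, zero_smul, smul_zero]
        · rw [hm _ _ _ h, Nat.cast_add, smul_comm]
      simp only [LinearMap.comp_apply, LinearMap.add_apply, LinearMap.smul_apply,
        LinearMap.mulLeft_apply, LinearEquiv.coe_coe, this, hμ, map_smul, he, map_mul, ← add_smul]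
      congr 1
      ring
    exact LinearMap.congr_fun key v

end Vale.Agent.P269
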