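import Vale.Agent.P269.Br.Nov

/-!
# The Novikov ring: coefficients, products, derivations, summation over the fibres of the degree
-/

namespace Vale.Agent.P269.Br

open Set Function Fock Deg

variable {Γ : Type} [AddCommGroup Γ] {deg : Γ →+ ℝ} {V : Type} [AddCommGroup V] [Module ℂ V]
  {p : Par ℂ V}

namespace NovA

theorem φ_eq {x : Ix deg} {r : ℝ} {j : ℤ} : Ix.φ deg x = toLex (r, j) ↔ deg x.1 = r ∧ x.2 = j :=
  toLex.injective.eq_iff.trans Prod.ext_iff

/-- A criterion for partially well-ordered sets. -/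
theorem pwo_of {A : Set (Ix deg)} (h1 : (Ix.φ deg '' A).IsPWO)
    (h2 : ∀ y, {x | x ∈ A ∧ Ix.φ deg x = y}.Finite) : A.IsPWO := by
  refine partiallyWellOrderedOn_iff_exists_lt.2 fun f hf => ?_
  by_contra hc
  have hn : ∀ m n, m < n → ¬ f m ≤ f n := fun m n h h' => hc ⟨m, n, h, h'⟩
  obtain ⟨g, hg⟩ := h1.exists_monotone_subseq (f := fun n => Ix.φ deg (f n))
    fun n => mem_image_of_mem _ (hf n)
  refine (h2 (Ix.φ deg (f (g 0)))).not_infinite (infinite_of_injective_forall_mem
    (f := fun n => f (g n)) (Injective.of_lt_imp_ne fun m n h e => ?_) fun n => ⟨hf _, ?_⟩)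
  · exact hn _ _ (g.strictMono h) e.le
  · rcases n.eq_zero_or_pos with rfl | h
    · rfl
    · exact ((hg h.le).eq_or_lt.resolve_right fun a => hn _ _ (g.strictMono h) (.inr a)).symm

theorem fib_fin {A : Set (Ix deg)} (h : A.IsPWO) (y : ℝ ×ₗ ℤ) :
    {x | x ∈ A ∧ Ix.φ deg x = y}.Finite :=
  IsAntichain.finite_of_partiallyWellOrderedOn (r := (· ≤ ·))
    (fun _ ha _ hb hne hle => Or.elim hle hne fun a => a.ne (ha.2.trans hb.2.symm))
    (h.mono fun _ hx => hx.1)

/-- A pair as an index. -/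
def mk (deg : Γ →+ ℝ) (β : Γ) (j : ℤ) : Ix deg := (β, j)

theorem co_eq (β : Γ) (j : ℤ) (s : Nov deg) : co β j s = s.coeff (mk deg β j) := rfl

theorem mul_sub (s t : Nov deg) (y : Ix deg) {x : Ix deg} (h1 : s.coeff x ≠ 0)
    (h2 : t.coeff (y - x) ≠ 0) :
    (x, y - x) ∈ Finset.antidiagonal s.isPWO_support t.isPWO_support y :=
  Finset.mem_antidiagonal.2 ⟨h1, h2, add_sub_cancel _ _⟩

theorem mul_fin (s t : Nov deg) (y : Ix deg) :
    {x : Ix deg | s.coeff x ≠ 0 ∧ t.coeff (y - x) ≠ 0}.Finite :=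
  ((Finset.antidiagonal s.isPWO_support t.isPWO_support y).finite_toSet.image Prod.fst).subset
    fun _ hx => ⟨_, mul_sub s t y hx.1 hx.2, rfl⟩

theorem coeff_mul (s t : Nov deg) (y : Ix deg) :
    (s * t).coeff y = ∑ᶠ x : Ix deg, s.coeff x * t.coeff (y - x) := by
  classical
  have hi : ∀ z ∈ Finset.antidiagonal s.isPWO_support t.isPWO_support y, y - z.1 = z.2 :=
    fun z hz => (eq_sub_of_add_eq' (Finset.mem_antidiagonal.1 hz).2.2).symm
  rw [HahnSeries.coeff_mul, finsum_eq_sum_of_support_subset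
    (s := (Finset.antidiagonal s.isPWO_support t.isPWO_support y).image Prod.fst),
    Finset.sum_image]
  · exact Finset.sum_congr rfl fun z hz => by rw [hi z hz]
  · exact fun z hz w hw e => Prod.ext e (by rw [← hi z hz, ← hi w hw, e])
  · intro x hx
    have := mul_ne_zero_iff.1 hx
    exact Finset.mem_coe.2 (Finset.mem_image.2 ⟨_, mul_sub s t y this.1 this.2, rfl⟩)

variable (deg) in
/-- The degree map on indices. -/
def π : Ix deg →+ Ix (AddMonoidHom.id ℝ) := deg.prodMap (AddMonoidHom.id ℤ)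

theorem π_mono : Monotone (π deg) := fun _ _ h => h.imp (congrArg _) id

theorem coeff_π {x : Ix deg} {y : Ix (AddMonoidHom.id ℝ)} {c : ℂ}
    (h : (HahnSeries.single (π deg x) c).coeff y ≠ 0) : c ≠ 0 ∧ y = π deg x :=
  ⟨fun e => h (by rw [e, map_zero, HahnSeries.coeff_zero]),
    by_contra fun e => h (HahnSeries.coeff_single_of_ne e)⟩

/-- The family of the images of the terms. -/
noncomputable def fam (s : Nov deg) :
    HahnSeries.SummableFamily (Ix (AddMonoidHom.id ℝ)) ℂ (Ix deg) where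
  toFun x := HahnSeries.single (π deg x) (s.coeff x)
  isPWO_iUnion_support' := (s.isPWO_support.image_of_monotone π_mono).mono fun _ hy => by
    obtain ⟨x, hx⟩ := mem_iUnion.1 hy
    exact ⟨x, (coeff_π hx).1, (coeff_π hx).2.symm⟩
  finite_co_support' y := (fib_fin s.isPWO_support (Ix.φ _ y)).subset fun _ hx =>
    ⟨(coeff_π hx).1, by rw [(coeff_π hx).2]; rfl⟩

theorem fam_apply (s : Nov deg) (x : Ix deg) :
    fam s x = HahnSeries.single (π deg x) (s.coeff x) := rfl

theorem fam_mul (s t : Nov deg) : (fam (s * t)).hsum = (fam s).hsum * (fam t).hsum := by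
  classical
  rw [← HahnSeries.SummableFamily.hsum_mul]
  ext y
  have hP : (support fun z => ((fam s).mul (fam t) z).coeff y).Finite :=
    ((fam s).mul (fam t)).finite_co_support y
  have hF : ∀ z : Ix deg × Ix deg, ((fam s).mul (fam t) z).coeff y =
      (HahnSeries.single (π deg (z.1 + z.2)) (s.coeff z.1 * t.coeff z.2)).coeff y := fun z => by
    rw [map_add, ← HahnSeries.single_mul_single]
    rfl
  have hG : ∀ c, (fam (s * t) c).coeff y =
      ∑ z ∈ hP.toFinset with z.1 + z.2 = c, ((fam s).mul (fam t) z).coeff y := fun c => by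
    rw [fam_apply]
    by_cases e : y = π deg c
    · refine ((congrArg _ e).trans (HahnSeries.coeff_single_same _ _)).trans ?_
      rw [HahnSeries.coeff_mul]
      have h1 : ∀ z : Ix deg × Ix deg, z.1 + z.2 = c →
          ((fam s).mul (fam t) z).coeff y = s.coeff z.1 * t.coeff z.2 := fun z hz => by
        rw [hF, hz, e, HahnSeries.coeff_single_same]
      refine Finset.sum_congr (Finset.ext fun z => ?_) fun z hz => ?_
      · rw [Finset.mem_antidiagonal, Finset.mem_filter, Finite.mem_toFinset, ← and_assoc]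
        refine and_congr_left fun hz => ?_
        rw [mem_support, h1 z hz, mul_ne_zero_iff]
        rfl
      · rw [h1 z (Finset.mem_filter.1 hz).2]
    · rw [HahnSeries.coeff_single_of_ne e]
      refine (Finset.sum_eq_zero fun z hz => ?_).symm
      rw [hF, (Finset.mem_filter.1 hz).2, HahnSeries.coeff_single_of_ne e]
  rw [HahnSeries.SummableFamily.coeff_hsum, HahnSeries.SummableFamily.coeff_hsum,
    finsum_eq_sum _ hP, finsum_eq_sum_of_support_subset
      (s := hP.toFinset.image fun z => z.1 + z.2), Finset.sum_congr rfl fun c _ => hG c]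
  · exact Finset.sum_fiberwise_of_maps_to (fun z hz => Finset.mem_image_of_mem _ hz) _
  · intro c hc
    rw [mem_support, hG] at hc
    obtain ⟨z, hz, -⟩ := Finset.exists_ne_zero_of_sum_ne_zero hc
    exact Finset.mem_coe.2 (Finset.mem_image.2 ⟨z, Finset.mem_filter.1 hz⟩)

variable (deg) in
/-- Summation over the fibres of the degree. -/
noncomputable def push : Nov deg →ₗ[ℂ] Nov (AddMonoidHom.id ℝ) where
  toFun s := (fam s).hsum
  map_add' s t := by
    rw [← HahnSeries.SummableFamily.hsum_add]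
    refine congrArg _ (HahnSeries.SummableFamily.ext fun x => ?_)
    rw [HahnSeries.SummableFamily.add_apply, fam_apply, fam_apply, fam_apply,
      HahnSeries.coeff_add, HahnSeries.single_add]
  map_smul' c s := by
    ext y
    rw [RingHom.id_apply, HahnSeries.coeff_smul, HahnSeries.SummableFamily.coeff_hsum,
      HahnSeries.SummableFamily.coeff_hsum, smul_eq_mul, mul_finsum]
    refine finsum_congr fun x => ?_
    rw [fam_apply, fam_apply]
    by_cases e : y = π deg x
    · rw [e, HahnSeries.coeff_single_same, HahnSeries.coeff_single_same, HahnSeries.coeff_smul,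
        smul_eq_mul]
    · rw [HahnSeries.coeff_single_of_ne e, HahnSeries.coeff_single_of_ne e, mul_zero]

theorem push_one : push deg 1 = 1 := by
  ext y
  refine HahnSeries.SummableFamily.coeff_hsum.trans ((finsum_eq_single _ 0 fun x hx => ?_).trans ?_)
  · rw [fam_apply, ← HahnSeries.single_zero_one, HahnSeries.coeff_single_of_ne hx, map_zero,
      HahnSeries.coeff_zero]
  · rw [fam_apply, map_zero, ← HahnSeries.single_zero_one, HahnSeries.coeff_single_same,
      HahnSeries.single_zero_one]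

theorem co_push (r : ℝ) (j : ℤ) (s : Nov deg) :
    co r j (push deg s) = ∑ᶠ (β) (_ : deg β = r), co β j s := by
  classical
  refine HahnSeries.SummableFamily.coeff_hsum.trans ?_
  have hi : Injective fun β => mk deg β j := fun _ _ h => congrArg Prod.fst h
  rw [← finsum_mem_univ, finsum_mem_inter_support_eq' _ _ (range fun β => mk deg β j),
    finsum_mem_range hi]
  · refine finsum_congr fun β => ?_
    rw [finsum_eq_if, fam_apply]
    split_ifs with e
    · rw [← e]
      exact HahnSeries.coeff_single_same _ _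
    · exact HahnSeries.coeff_single_of_ne fun h => e (congrArg Prod.fst h).symm
  · exact fun x hx => iff_of_true trivial
      ⟨x.1, Prod.ext rfl (Prod.ext_iff.1 (coeff_π hx).2).2⟩

end NovA

open NovA

theorem exists_co {f : Γ → ℤ → ℂ} (h1 : ∀ β j, f β j ≠ 0 → ∃ n : ℕ, deg β = n)
    (h2 : ∀ r, ∃ J, ∀ β, deg β = r → ∀ j < J, f β j = 0)
    (h3 : ∀ r j, {β | deg β = r ∧ f β j ≠ 0}.Finite) : ∃ s : Nov deg, ∀ β j, co β j s = f β j := by
  refine ⟨⟨fun x => f x.1 x.2, pwo_of (PartiallyWellOrderedOn.subsetProdLex ?_ fun r => ?_)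
    fun y => ?_⟩, fun _ _ => rfl⟩
  · refine ((IsPWO.of_linearOrder (univ : Set ℕ)).image_of_monotone
      (Nat.mono_cast (α := ℝ))).mono ?_
    rintro _ ⟨_, ⟨x, hx, rfl⟩, rfl⟩
    obtain ⟨n, hn⟩ := h1 _ _ hx
    exact ⟨n, trivial, hn.symm⟩
  · obtain ⟨J, hJ⟩ := h2 r
    refine (BddBelow.isWF ⟨J, ?_⟩).isPWO
    rintro j ⟨x, hx, e⟩
    obtain ⟨e1, rfl⟩ := φ_eq.1 e
    exact not_lt.1 fun h => hx (hJ _ e1 _ h)
  · refine ((h3 (ofLex y).1 (ofLex y).2).image fun β => mk deg β (ofLex y).2).subset ?_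
    rintro x ⟨hx, rfl⟩
    exact ⟨x.1, ⟨rfl, hx⟩, rfl⟩

theorem co_fin (s : Nov deg) (r : ℝ) (j : ℤ) : {β | deg β = r ∧ co β j s ≠ 0}.Finite :=
  ((fib_fin s.isPWO_support (toLex (r, j))).image Prod.fst).subset fun β h =>
    ⟨mk deg β j, ⟨h.2, φ_eq.2 ⟨h.1, rfl⟩⟩, rfl⟩

theorem co_low (s : Nov deg) (r : ℝ) : ∃ J, ∀ β, deg β = r → ∀ j < J, co β j s = 0 := by
  have h : ((fun x : Ix deg => x.2) '' {x | x ∈ s.support ∧ deg x.1 = r}).IsWF := by
    refine ((s.isPWO_support.mono fun _ hx => hx.1).image_of_monotoneOn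
      fun x hx y hy hle => ?_).isWF
    rcases hle with rfl | hlt
    · exact le_rfl
    · rcases Prod.Lex.toLex_lt_toLex.1 hlt with a | a
      · exact absurd (hx.2.trans hy.2.symm) a.ne
      · exact a.2.le
  rcases ((fun x : Ix deg => x.2) '' {x | x ∈ s.support ∧ deg x.1 = r}).eq_empty_or_nonempty with
    e | e
  · exact ⟨0, fun β hβ j _ => by_contra fun hc =>
      e.subset ⟨mk deg β j, ⟨hc, hβ⟩, rfl⟩⟩
  · exact ⟨h.min e, fun β hβ j hj => by_contra fun hc =>
      h.not_lt_min e ⟨mk deg β j, ⟨hc, hβ⟩, rfl⟩ hj⟩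

theorem co_mul_fin (s t : Nov deg) (β : Γ) (j : ℤ) :
    {x : Γ × ℤ | co x.1 x.2 s ≠ 0 ∧ co (β - x.1) (j - x.2) t ≠ 0}.Finite :=
  mul_fin s t (mk deg β j)

theorem co_mul (s t : Nov deg) (β : Γ) (j : ℤ) :
    co β j (s * t) = ∑ᶠ x : Γ × ℤ, co x.1 x.2 s * co (β - x.1) (j - x.2) t :=
  coeff_mul s t (mk deg β j)

open Classical in
theorem co_mo (β β' : Γ) (j j' : ℤ) :
    co β j (mo deg β' j') = if β = β' ∧ j = j' then 1 else 0 := by
  split_ifs with h
  · rw [h.1, h.2]
    exact HahnSeries.coeff_single_same _ _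
  · exact HahnSeries.coeff_single_of_ne fun e => h (Prod.ext_iff.1 e)

theorem co_mo_mul (β β' : Γ) (j j' : ℤ) (s : Nov deg) :
    co β j (mo deg β' j' * s) = co (β - β') (j - j') s :=
  (HahnSeries.coeff_single_mul (a := mk deg β j) (b := mk deg β' j')).trans (one_mul _)

theorem mo_zero : mo deg 0 0 = 1 := rfl

theorem exists_der (lam : Γ →+ ℂ) : ∃ Λ : Nov deg →ₗ[ℂ] Nov deg,
    ∀ β j s, co β j (Λ s) = lam β * co β j s :=
  ⟨{ toFun := fun s => ⟨fun x => lam x.1 * s.coeff x,
        s.isPWO_support.mono fun _ hx => right_ne_zero_of_mul hx⟩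
     map_add' := fun _ _ => HahnSeries.ext (funext fun _ => mul_add _ _ _)
     map_smul' := fun _ _ => HahnSeries.ext (funext fun _ => mul_left_comm _ _ _) },
    fun _ _ _ => rfl⟩

theorem der_mul {lam : Γ →+ ℂ} {Λ : Nov deg →ₗ[ℂ] Nov deg}
    (h : ∀ β j s, co β j (Λ s) = lam β * co β j s) (s t : Nov deg) :
    Λ (s * t) = Λ s * t + s * Λ t := by
  refine co_ext fun β j => ?_
  rw [h, map_add, co_mul, co_mul, co_mul, mul_finsum, ← finsum_add_distrib
    ((co_mul_fin (Λ s) t β j).subset fun _ hx => mul_ne_zero_iff.1 hx)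
    ((co_mul_fin s (Λ t) β j).subset fun _ hx => mul_ne_zero_iff.1 hx)]
  refine finsum_congr fun x => ?_
  rw [h, h, map_sub]
  ring

theorem exists_push : ∃ φ : Nov deg →ₐ[ℂ] Nov (AddMonoidHom.id ℝ),
    ∀ r j s, co r j (φ s) = ∑ᶠ (β) (_ : deg β = r), co β j s :=
  ⟨AlgHom.ofLinearMap (push deg) push_one fam_mul, co_push⟩

theorem noZeroDivisors (h : Injective deg) : NoZeroDivisors (Nov deg) := by
  have hφ : Injective (Ix.φ deg) := fun x y e => Prod.ext (h (φ_eq.1 e).1) (φ_eq.1 e).2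
  let _ : LinearOrder (Ix deg) :=
    { (inferInstance : PartialOrder (Ix deg)) with
      le_total := fun x y => (lt_trichotomy (Ix.φ deg x) (Ix.φ deg y)).elim
        (fun a => .inl (.inr a)) fun a => a.elim (fun a => .inl (.inl (hφ a)))
          fun a => .inr (.inr a)
      toDecidableLE := Classical.decRel _ }
  exact HahnSeries.instNoZeroDivisors

theorem exists_cf {C : Deg.Ser Γ p} (h1 : ∀ β, C β ≠ 0 → ∃ n : ℕ, deg β = n)
    (h2 : ∀ r x, ∃ J, ∀ β, deg β = r → ∀ j < J, C β j x = 0)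
    (h3 : ∀ r j x, {β | deg β = r ∧ C β j x ≠ 0}.Finite) :
    ∃ F : G3a.Fe p (Nov deg), cf F = C := by
  choose s hs using fun x => exists_co (deg := deg) (f := fun β j => C β j x)
    (fun β j h => h1 β fun e => h (by rw [e]; rfl)) (fun r => h2 r x) fun r j => h3 r j x
  refine ⟨Fn.of _
    { toFun := s
      map_add' := fun x y => co_ext fun β j => by rw [map_add, hs, hs, hs, map_add]
      map_smul' := fun c x => co_ext fun β j => by
        rw [map_smul, hs, hs, map_smul, RingHom.id_apply] }, ?_⟩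
  exact funext fun β => funext fun j => LinearMap.ext fun x => hs x β j

theorem NovA.cf_bil (F G : G3a.Fe p (Nov deg)) (β : Γ) (j : ℤ) (t : TensorProduct ℂ (S p) (S p)) :
    (support fun q : Γ × ℤ => bil (cf F q.1 q.2) (cf G (β - q.1) (j - q.2)) t).Finite ∧
      co β j (bil F.ap G.ap t) = ∑ᶠ q : Γ × ℤ, bil (cf F q.1 q.2) (cf G (β - q.1) (j - q.2)) t := by
  induction t with
  | zero => simp
  | tmul a b =>
    exact ⟨(co_mul_fin (F.ap a) (G.ap b) β j).subset fun _ hx => mul_ne_zero_iff.1 hx,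
      co_mul (F.ap a) (G.ap b) β j⟩
  | add a b ha hb =>
    simp only [map_add]
    exact ⟨(ha.1.union hb.1).subset (support_add _ _), by
      rw [finsum_add_distrib ha.1 hb.1, ha.2, hb.2]⟩

theorem cf_mul (F G : G3a.Fe p (Nov deg)) (β : Γ) (j : ℤ) (x : S p) :
    cf (F * G) β j x = ∑ᶠ q : Γ × ℤ, (Fn.of (SPar.triv ℂ ℂ) (cf F q.1 q.2) *
      Fn.of (SPar.triv ℂ ℂ) (cf G (β - q.1) (j - q.2))).ap x := by
  obtain ⟨t, ht⟩ := G3a.cop x
  refine ((congrArg (co β j) (ht _ F G)).trans (cf_bil F G β j t).2).trans ?_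
  exact finsum_congr fun q => (ht ℂ (Fn.of _ _) (Fn.of _ _)).symm

theorem cf_mul_fin (F G : G3a.Fe p (Nov deg)) (β : Γ) (j : ℤ) (x : S p) :
    {q : Γ × ℤ | (Fn.of (SPar.triv ℂ ℂ) (cf F q.1 q.2) *
      Fn.of (SPar.triv ℂ ℂ) (cf G (β - q.1) (j - q.2))).ap x ≠ 0}.Finite := by
  obtain ⟨t, ht⟩ := G3a.cop x
  exact (cf_bil F G β j t).1.subset fun q hq e => hq ((ht ℂ (Fn.of _ _) (Fn.of _ _)).trans e)

end Vale.Agent.P269.Br
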