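import Vale.Agent.P269.Br.GW
import Vale.Agent.P269.Pub.GwD

/-!
# The invariants of the statement do not depend on the choices
-/

set_option linter.unusedSectionVars false

namespace Vale.Agent.P269

open P291Z Set Function Topology Filter MvPolynomial Mono Br

variable {R J K ι ν ν₀ κ : Type} [Fintype R] [Fintype J] [Fintype K] [Fintype ι] [DecidableEq ι]
  [Fintype ν] [Fintype ν₀] [Fintype κ] [DecidableEq R] {T : Tgt R J K} {χ : K → R → ℤ}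

namespace Ch

variable [IsEmpty ν₀] [IsEmpty κ] {ch : Ch ι J}

theorem crs_tan {u : ν ⊕ ν₀ → J → ℕ} {Φ : ch.Mod ν T ≃ₜ ModS (T.fam χ) (ch.cyc κ (T.fam χ) u)}
    (hΦ : ∀ x : ch.sol ν T, Φ (Quo.mk act x) = Quo.mk _ ⟨ch.trW ν ν₀ κ x, trW_sol.1 x.2⟩)
    (hZ : OZ (T.fam χ).toWt (ch.solF _ κ (T.fam χ) ∩ ch.cyc κ (T.fam χ) u)) (n : ν) :
    (∃ e, ch.IsTan T n e) ∧ ∀ e, ch.IsTan T n e → Crs Φ (-e) (psiF (.inl (.inl n))) := by
  have := hZ.act
  obtain ⟨_, E, _, _, -, -, h, -⟩ :=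
    SD.Ok.exists_isMod hZ.orb (hZ.cuts.okψ hZ.base (.inl (.inl n)))
  have h1 := (tr_act _).isMod (fun _ => trW_sol) hΦ h
  obtain ⟨t, ht⟩ := h1.exists_isThomOf
  refine ⟨⟨_, t, ht, rfl⟩, ?_⟩
  rintro _ ⟨t, ht, rfl⟩
  obtain ⟨a, b, c⟩ := crs_psi hΦ hZ n
  have d := (h1.isCo_sec E.isSec_zero h1.exists_zero ht).cocycle
  refine ⟨cocycle_neg d, b, (hcls_neg d).trans ((congrArg (-·) ?_).trans
    ((hcls_neg h1.eulerC_cocycle).symm.trans c))⟩
  exact ((h1.cohom_sec E.isSec_zero h1.exists_zero ht).trans (h1.cohom_sec E.isSec_zero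
    h1.exists_zero (Classical.epsilon_spec h1.exists_isThomOf)).symm).hcls_eq h1.eulerC_cocycle

theorem valC {ℓ : R → ι → ℤ} {a : ℕ} {u : Fin a ⊕ ν₀ → J → ℕ} (hF : (T.fam χ).Good)
    (hl : ch.Lat (T.fam χ).toWt ℓ) (hf : ch.Fits (T.fam χ) ((T.fam χ).tdeg ch))
    (hZ : OZ (T.fam χ).toWt (ch.solF _ κ (T.fam χ) ∩ ch.cyc κ (T.fam χ) u))
    [CompactSpace (ModS (T.fam χ) (ch.cyc κ (T.fam χ) u))] (β : BM T.X)
    (hc : IsClopen (selQ (T.fam χ).toWt ℓ (ch.solF _ κ (T.fam χ) ∩ ch.cyc κ (T.fam χ) u)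
      (((T.fam χ).exK _ (T.xiB χ β)).P _ _)))
    (hv : ∃! v, IsVirF (T.fam χ) ((T.fam χ).tdeg ch) (ch.cyc κ (T.fam χ) u) v) (m : Fin a → ℕ)
    (c : Fin a → H T.X) :
    ch.ValC T β m c (ev (virF (T.fam χ) ((T.fam χ).tdeg ch) (ch.cyc κ (T.fam χ) u))
      (ind (selQ _ ℓ _ (((T.fam χ).exK _ (T.xiB χ β)).P _ _)) *
        (((T.fam χ).fs0 _ fun i => (m i, T.xiH χ (c i))).map ((T.fam χ).coch _)).prod)) := by
  obtain ⟨Φ, hΦ⟩ := (tr_act (T.fam χ).toWt).exists_quo fun _ =>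
    trW_sol (ch := ch) (κ := κ) (χ := χ) (u := u)
  have h0 : (fun q o => (T.F q).totalDegree * ∑ j, ch.b j o) = (T.fam χ).tdeg ch :=
    funext₂ fun q o =>
      congrArg (Finset.sup · _ * _) (support_map_of_injective _ (C_injective _ _)).symm
  have h1 : ∀ v, ch.IsVir (Fin a) T _ v ↔ push Φ v = virF _ _ _ := fun v =>
    (isVir_iff_push hF.toInv hf hΦ).trans ⟨fun h => hv.unique h (Classical.epsilon_spec hv.exists),
      fun h => h ▸ Classical.epsilon_spec hv.exists⟩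
  rw [ValC, h0]
  refine ⟨⟨_, (h1 _).2 (push_symm_push Φ.symm _)⟩, fun i => (crs_tan hΦ hZ i).1,
    fun v e w b1 b2 b3 => ?_⟩
  have h2 := (crs_sel hΦ hF hl β hc).mul (Crs.rep_one continuous_id (Crs.rep_one
    (f := fun z => Quo.mk (T.fam χ).actL (S := univ) ⟨(Quo.out z).1.1, trivial⟩)
    (continuous_const.congr fun _ => congrArg _ (Subsingleton.elim (⟨0, trivial⟩ : univ) _))
    (Crs.prod fun i => (((crs_tan hΦ hZ i).2 _ (b2 i)).pow (m i)).mul (crs_ev hΦ hl.wd i (w i)))))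
  simp only [Wt.fs0, List.map_cons, List.prod_cons, List.map_flatten, List.prod_flatten,
    List.map_ofFn, comp_def, List.map_append, List.map_replicate, List.prod_append,
    List.prod_replicate, List.map_nil, List.prod_nil, mul_one, Fam.coch, map_one, igd, h2.ev,
    parF, mem_univ, implies_true, dite_true, pull_id, (h1 v).1 b1, b3]
  rfl

end Ch

namespace Tgt

variable (h : (T.fam χ).Tg) {k : ℕ} (hk : (T.fam χ).Big k) (hW : St.Well)
include h hk hW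

theorem valC_chart (g : ℤ) (d : R → ℤ) (β : BM T.X) {a n : ℕ}
    (hn : Fintype.card (Ch.Mk (Fin a ⊕ Fin 0) (Fin 0)) = n) (m : Fin a → ℕ) (c : Fin a → H T.X) :
    ∀ᶠ D in atTop, (T.chart g n d k D).ValC T β m c
      ((T.fam χ).cor k ((T.fam χ).exK _ (T.xiB χ β)) 0 _ (T.fam χ).cone d (g - 1)
        (.ofFn fun i => (m i, T.xiH χ (c i))) [] []) := by
  subst hn
  rw [Fam.cor_fs0, sub_add_cancel]
  obtain ⟨K₀, b, -, -, h1⟩ := h.nice.vd (Fin 0) hk g d (0 : Fin a ⊕ Fin 0 → ℕ)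
  have h2 := (h.exOk_exK (k := k) (T.xiB χ β)).sel _ (Fin 0) g d
    fun n => (0 : Fin a ⊕ Fin 0 → ℕ) n • 0
  filter_upwards [h1, h2.2, hW _ 0 k g d 0 _ ((T.fam χ).fs0 _ fun i => (m i, T.xiH χ (c i)))
    h.nice (Fam.cp_empty _) hk h2 (Fam.ok_fs1 _ subset_rfl _ _) isEmptyElim]
    with D ⟨hD, U, N, c1, c2⟩ c3 c4
  have := Cpt.compactSpace_mod (ν := Fin a ⊕ Fin 0) (κ := Fin 0) (g := g) (d := d) h.toGood hk hD rfl
    (T := univ) (by rw [← h.B, h.B_eq]; exact isCompact_singleton) h.B.ge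
    (fun _ _ => ⟨1, isUnit_one, trivial⟩) fun n => (0 : Fin a ⊕ Fin 0 → ℕ) n • 0
  rw [c4]
  exact Ch.valC h.toGood c1.lat c1.fits (c2.oz c1.toStd) β c3
    ⟨_, (c2.isVirF_iff c1.toStd).2 rfl, fun _ => (c2.isVirF_iff c1.toStd).1⟩ m c

/-- **all choices give the correlator** -/
theorem valC (hP : St.Pres) (g : ℤ) (d : R → ℤ) (β : BM T.X) {n : ℕ} (m : Fin n → ℕ)
    (c : Fin n → H T.X) : ∀ᶠ k' in atTop, ∀ᶠ D in atTop, (T.chart g n d k' D).ValC T β m c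
      ((T.fam χ).cor k ((T.fam χ).exK _ (T.xiB χ β)) 0 _ (T.fam χ).cone d (g - 1)
        (.ofFn fun i => (m i, T.xiH χ (c i))) [] []) :=
  (eventually_ge_atTop k).mono fun _ b => h.cor_k hP hk (hk.mono b) .. ▸
    valC_chart h (hk.mono b) hW g d β (by simp [Ch.Mk]) m c

end Tgt

theorem St.wd (hW : St.Well) (hP : St.Pres) {R J K : Type} [Fintype R] [Fintype J] [Fintype K]
    [DecidableEq R] (T : Tgt R J K) (χ : K → R → ℤ) (k : ℕ) (h : (T.fam χ).Tg)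
    (hk : (T.fam χ).Big k) : T.Wd := fun g β _ m c d => ⟨_, Tgt.valC h hk hW hP g d β m c⟩

end Vale.Agent.P269
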